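import Vale.Agent.P253W.FP.CDefs
import Vale.Agent.P272.K.C3.Cutoff

/-!
# P253W, block FP: the maximum principle in the estimate of Calabi (`C3cut`)
-/

open Set Metric Filter Topology
open scoped ContDiff ComplexOrder
open Vale.Agent.P272.K Vale.Agent.P272.K.C3

noncomputable section

namespace Vale.Agent.P253W.FP

namespace Cut

variable {n : ℕ} {z : Cm n}

/-- `Lap (φ² S)` from below -/
theorem lap_cut2 {G : Matrix (Fin n) (Fin n) ℂ} {B M₃ M₄ : ℝ} (hG : G.PosSemidef)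
    (hGB : ∀ i j, ‖G i j‖ ≤ B) {φ S : Cm n → ℝ} {P : ℝ} (hφ : ContDiffAt ℝ ∞ φ z)
    (hS : ContDiffAt ℝ ∞ S z) (hS0 : 0 ≤ S z) (hP : 0 ≤ P) (hB : 0 ≤ B)
    (h2 : (∑ i, ∑ j, G j i * dz i (fun y => (S y : ℂ)) z *
        (starRingEnd ℂ) (dz j (fun y => (S y : ℂ)) z)).re ≤ B * S z * P)
    (h3 : ∀ i, ‖dz i (fun y => (φ y : ℂ)) z‖ ≤ M₃)
    (h4 : ∀ i j, ‖cHess (fun y => φ y * φ y) z i j‖ ≤ M₄) :
    φ z * φ z * ((G * cHess S z).trace.re - P) -
      ((n : ℝ) * (n * (B * M₄)) + 4 * ((n : ℝ) * (n * (B * M₃ * M₃))) * B) * S z ≤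
      (G * cHess (fun y => (φ y * φ y) * S y) z).trace.re := by
  have hφ2 : ContDiffAt ℝ 2 φ z := hφ.of_le two_le_inf
  have hS2 : ContDiffAt ℝ 2 S z := hS.of_le two_le_inf
  have hφC : DifferentiableAt ℝ (fun y => (φ y : ℂ)) z :=
    (ofReal_contDiffAt hφ2).differentiableAt (by norm_num)
  set a : Fin n → ℂ := fun i => dz i (fun y => (φ y : ℂ)) z with ha
  set b : Fin n → ℂ := fun i => dz i (fun y => (S y : ℂ)) z with hb
  have hdd : ∀ i, dz i (fun y => ((φ y * φ y : ℝ) : ℂ)) z = 2 * (φ z : ℂ) * a i := by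
    intro i
    have : (fun y => ((φ y * φ y : ℝ) : ℂ)) = fun y => (φ y : ℂ) * (φ y : ℂ) := by
      funext y; push_cast; ring
    rw [this, dz_mul hφC hφC]; simp only [ha]; ring
  have hb2 : (qf G b b).re ≤ B * S z * P := by simpa [qf, hb, cj] using h2
  have key : (G * cHess (fun y => (φ y * φ y) * S y) z).trace =
      ((φ z * φ z : ℝ) : ℂ) * (G * cHess S z).trace +
      (S z : ℂ) * (G * cHess (fun y => φ y * φ y) z).trace +
      (2 * (φ z : ℝ) : ℝ) * qf G a b + (2 * (φ z : ℝ) : ℝ) * qf G b a := by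
    rw [trace_eq_sum, trace_eq_sum, trace_eq_sum]
    unfold qf
    simp only [Finset.mul_sum, ← Finset.sum_add_distrib]
    refine Finset.sum_congr rfl fun i _ => Finset.sum_congr rfl fun j _ => ?_
    rw [cHess_mul' (f := fun y => φ y * φ y) (hφ2.mul hφ2) hS2, hdd, hdd]
    simp only [cj, map_mul, Complex.conj_ofReal, map_ofNat]
    simp only [hb]
    push_cast
    ring
  have hre : (G * cHess (fun y => (φ y * φ y) * S y) z).trace.re =
      (φ z * φ z) * (G * cHess S z).trace.re +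
      S z * (G * cHess (fun y => φ y * φ y) z).trace.re + 4 * φ z * (qf G a b).re := by
    rw [key]
    have h5 : (qf G b a).re = (qf G a b).re := by rw [← qf_conj hG.1 a b]; simp [cj]
    rw [Complex.add_re, Complex.add_re, Complex.add_re, Complex.re_ofReal_mul,
      Complex.re_ofReal_mul, Complex.re_ofReal_mul, Complex.re_ofReal_mul, h5]
    ring
  rw [hre]
  have hcs := qf_cs hG a b
  set M₂ := (n : ℝ) * (n * (B * M₃ * M₃)) with hM₂
  have hqa : (qf G a a).re ≤ M₂ := qf_bound hGB a h3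
  have hqa0 := qf_nonneg hG a
  have hM₂0 : 0 ≤ M₂ := hqa0.trans hqa
  have hqb0 := qf_nonneg hG b
  have h6 : (qf G a b).re ^ 2 ≤ M₂ * (B * S z * P) :=
    hcs.trans (mul_le_mul hqa hb2 hqb0 hM₂0)
  have hφ4 : 0 ≤ φ z * φ z := mul_self_nonneg _
  have h7 : |4 * φ z * (qf G a b).re| ≤ φ z * φ z * P + 4 * M₂ * (B * S z) := by
    apply abs_le_of_sq_le_sq
    · have e2 : 16 * (φ z * φ z) * (qf G a b).re ^ 2 ≤ 16 * (φ z * φ z) * (M₂ * (B * S z * P)) :=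
        mul_le_mul_of_nonneg_left h6 (by positivity)
      nlinarith [sq_nonneg (φ z * φ z * P - 4 * M₂ * (B * S z))]
    · have : 0 ≤ φ z * φ z * P := mul_nonneg hφ4 hP
      have : 0 ≤ 4 * M₂ * (B * S z) := by positivity
      linarith
  have h8 := (abs_le.1 h7).1
  have h10 := mul_le_mul_of_nonneg_left (trace_bound hGB h4) hS0
  linarith

theorem dz_sub (f : Cm n → ℂ) (p : Cm n) (i : Fin n) :
    dz i (fun y => f (y - p)) = fun y => dz i f (y - p) := by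
  funext y
  simp only [dz, fderiv_comp_sub]

theorem dzb_sub (f : Cm n → ℂ) (p : Cm n) (i : Fin n) :
    dzb i (fun y => f (y - p)) = fun y => dzb i f (y - p) := by
  funext y
  simp only [dzb, fderiv_comp_sub]

theorem cHess_sub' (f : Cm n → ℝ) (p z : Cm n) :
    cHess (fun y => f (y - p)) z = cHess f (z - p) := by
  ext i j
  rw [cHess_apply, cHess_apply, dzb_sub (fun y => (f y : ℂ)), dz_sub]

/-- one bump, translated -/
theorem bump (n : ℕ) {r R : ℝ} (hr : 0 < r) (hR : r < R) : ∃ M₃ M₄ : ℝ, 0 ≤ M₄ ∧ ∀ p : Cm n,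
    ∃ φ : Cm n → ℝ, ContDiff ℝ ∞ φ ∧ (∀ y, 0 ≤ φ y ∧ φ y ≤ 1) ∧ (∀ y ∈ closedBall p r, φ y = 1) ∧
      (∀ y ∉ ball p R, φ y = 0) ∧ ∀ y ∈ closedBall p R,
        (∀ i, ‖dz i (fun y => (φ y : ℂ)) y‖ ≤ M₃) ∧
          ∀ i j, ‖cHess (fun y => φ y * φ y) y i j‖ ≤ M₄ := by
  let φ : ContDiffBump (0 : Cm n) := ⟨r, R, hr, hR⟩
  have hφs : ContDiff ℝ ∞ (φ : Cm n → ℝ) := φ.contDiff
  have hφC : ContDiff ℝ ∞ (fun y => ((φ y : ℝ) : ℂ)) := Complex.ofRealCLM.contDiff.comp hφs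
  have hd : Continuous fun y i => dz i (fun y => ((φ y : ℝ) : ℂ)) y :=
    continuous_pi fun i => continuous_iff_continuousAt.2 fun y =>
      (contDiffAt_dz (m := 0) (hφC.contDiffAt (x := y)) (by simp)).continuousAt
  have hH : Continuous fun y i j => cHess (fun y => φ y * φ y) y i j := by
    refine continuous_pi fun i => continuous_pi fun j => continuous_iff_continuousAt.2 fun y => ?_
    have h0 : ContDiff ℝ ∞ (fun y => ((φ y * φ y : ℝ) : ℂ)) :=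
      Complex.ofRealCLM.contDiff.comp (hφs.mul hφs)
    have h1 : ContDiffAt ℝ 1 (dzb j fun y => ((φ y * φ y : ℝ) : ℂ)) y :=
      contDiffAt_dzb (h0.contDiffAt (x := y)) (by norm_num; exact two_le_inf)
    exact (contDiffAt_dz (m := 0) h1 (by simp)).continuousAt
  obtain ⟨M₃, hM₃⟩ := (isCompact_closedBall (0 : Cm n) R).exists_bound_of_continuousOn
    hd.continuousOn
  obtain ⟨M₄, hM₄⟩ := (isCompact_closedBall (0 : Cm n) R).exists_bound_of_continuousOn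
    hH.continuousOn
  refine ⟨M₃, M₄, (norm_nonneg _).trans (hM₄ 0 (mem_closedBall_self (by linarith))), fun p =>
    ⟨fun y => φ (y - p), hφs.comp (contDiff_id.sub contDiff_const),
      fun y => ⟨φ.nonneg, φ.le_one⟩, fun y hy => φ.one_of_mem_closedBall ?_,
      fun y hy => φ.zero_of_le_dist ?_, fun y hy => ?_⟩⟩
  · simpa [φ, dist_eq_norm] using hy
  · simpa [φ, dist_eq_norm] using hy
  · have hy' : y - p ∈ closedBall (0 : Cm n) R := by simpa [dist_eq_norm] using hy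
    refine ⟨fun i => ?_, fun i j => ?_⟩
    · rw [dz_sub fun y => ((φ y : ℝ) : ℂ)]
      exact (norm_le_pi_norm _ i).trans (hM₃ _ hy')
    · rw [cHess_sub' fun y => φ y * φ y]
      exact (norm_le_pi_norm _ j).trans ((norm_le_pi_norm _ i).trans (hM₄ _ hy'))

/-- the derivative at a maximum from the left -/
theorem der_nonneg {g : ℝ → ℝ} {g' t : ℝ} (ht : 0 < t) (hd : HasDerivAt g g' t)
    (hm : ∀ s ∈ Icc 0 t, g s ≤ g t) : 0 ≤ g' := by
  have h := (hasDerivAt_iff_tendsto_slope.1 hd).mono_left (nhdsLT_le_nhdsNE t)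
  refine ge_of_tendsto h ?_
  filter_upwards [Ioo_mem_nhdsLT ht] with s hs
  rw [slope_def_field]
  exact div_nonneg_of_nonpos (sub_nonpos.2 (hm s ⟨hs.1.le, hs.2.le⟩)) (sub_nonpos.2 hs.2.le)

theorem lap_nonpos {G : Matrix (Fin n) (Fin n) ℂ} (hG : G.PosSemidef) {f g : Cm n → ℝ} {A : ℝ}
    (hf : ContDiffAt ℝ ∞ f z) (hg : ContDiffAt ℝ ∞ g z)
    (hm : IsLocalMax (fun y => f y + A * g y) z) :
    (G * cHess f z).trace.re + A * (G * cHess g z).trace.re ≤ 0 := by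
  have h1 : ContDiffAt ℝ 2 (fun y => A * g y) z := (contDiffAt_const.mul hg).of_le two_le_inf
  have h5 := (Complex.le_def.1 (Vale.Agent.P272.K.C2.trace_mul_nonneg hG
    (Vale.Agent.P272.K.N.neg_cHess_posSemidef ((hf.of_le two_le_inf).add h1) hm))).1
  rw [cHess_add (hf.of_le two_le_inf) h1, cHess_const_mul A (hg.of_le two_le_inf), mul_neg,
    Matrix.trace_neg, Complex.neg_re, mul_add, Matrix.trace_add, Complex.add_re, Matrix.mul_smul,
    Matrix.trace_smul, smul_eq_mul, Complex.re_ofReal_mul, Complex.zero_re] at h5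
  linarith

theorem arith1 {a b M x : ℝ} (h : M ^ 2 ≤ a + b * M) (hx : x ≤ a + b * M) : x ≤ 2 * a + b ^ 2 := by
  nlinarith [sq_nonneg (M - b)]

theorem arith2 {B c Mx A f S w St Ut LS LU LF P : ℝ} (hB : 0 < B) (hA : A = B * (B * Mx + c + 1))
    (hA0 : 0 ≤ A) (f0 : 0 ≤ f) (f1 : f ≤ 1) (d1 : 0 ≤ f * St + A * Ut) (d2 : LF + A * LU ≤ 0)
    (d3 : f * (LS - P) - c * S ≤ LF) (g8 : St - LS ≤ B * (1 + w) - P) (g9 : Ut - LU ≤ B - S / B)
    (d7 : f * w ≤ Mx * S) : S ≤ B + A * B := by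
  have d4 := mul_le_mul_of_nonneg_left g8 f0
  have d5 := mul_le_mul_of_nonneg_left g9 hA0
  have d8 : A * (S / B) = (B * Mx + c + 1) * S := by rw [hA]; field_simp
  have d9 := mul_le_mul_of_nonneg_left d7 hB.le
  have d10 := mul_le_mul_of_nonneg_left f1 hB.le
  linarith

end Cut

open Cut in
/-- **C3cut** -/
theorem c3cut (n : ℕ) : C3cut n := by
  intro r R B hr hrR hB
  set R₁ := (r + R) / 2 with hR₁
  have hR₁R : R₁ < R := by rw [hR₁]; linarith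
  have hrR₁ : r < R₁ := by rw [hR₁]; linarith
  have hB0 : 0 < B := by linarith
  obtain ⟨M₃, M₄, hM₄, hb⟩ := bump n hr hrR₁
  set c := (n : ℝ) * (n * (B * M₄)) + 4 * ((n : ℝ) * (n * (B * M₃ * M₃))) * B with hc
  have hc0 : 0 ≤ c := by
    have : 0 ≤ B * M₃ * M₃ := by rw [mul_assoc]; exact mul_nonneg hB0.le (mul_self_nonneg _)
    positivity
  set C := 2 * (B + 3 * B ^ 2 * (c + 1)) + (3 * B ^ 3) ^ 2 with hC
  refine ⟨C, fun p T G S St U Ut P hT cS cU h0 hS0 h => ?_⟩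
  obtain ⟨φ, hφs, hφb, hφ1, hφ0, hφd⟩ := hb p
  have hsub : closedBall p R₁ ⊆ ball p R := closedBall_subset_ball hR₁R
  have hsub' : closedBall p r ⊆ closedBall p R₁ := closedBall_subset_closedBall hrR₁.le
  have main : ∀ T₁ ∈ Ico 0 T, ∀ z ∈ closedBall p r, S T₁ z ≤ C := by
    intro T₁ hT₁ z hz
    have hK : IsCompact (Icc 0 T₁ ×ˢ closedBall p R₁) :=
      isCompact_Icc.prod (isCompact_closedBall p R₁)
    have hne : (Icc 0 T₁ ×ˢ closedBall p R₁).Nonempty :=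
      ⟨(T₁, z), ⟨hT₁.1, le_rfl⟩, hsub' hz⟩
    have hI : Icc 0 T₁ ⊆ Icc 0 T := Icc_subset_Icc_right hT₁.2.le
    have hKs : Icc 0 T₁ ×ˢ closedBall p R₁ ⊆ Icc 0 T ×ˢ ball p R := prod_mono hI hsub
    have cφ : Continuous fun q : ℝ × Cm n => φ q.2 := hφs.continuous.comp continuous_snd
    obtain ⟨q₁, hq₁, hmx⟩ := hK.exists_isMaxOn hne
      (f := fun q => φ q.2 * √(S q.1 q.2)) (cφ.continuousOn.mul (cS.mono hKs).sqrt)
    set Mx := φ q₁.2 * √(S q₁.1 q₁.2) with hMx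
    have hMx0 : 0 ≤ Mx := mul_nonneg (hφb _).1 (Real.sqrt_nonneg _)
    set A := B * (B * Mx + c + 1) with hA
    have hA0 : 0 ≤ A := by positivity
    have hAB : 0 ≤ A * B := by positivity
    obtain ⟨q₀, hq₀, hmax⟩ := hK.exists_isMaxOn hne
      (f := fun q => φ q.2 * φ q.2 * S q.1 q.2 + A * U q.1 q.2)
      (((cφ.mul cφ).continuousOn.mul (cS.mono hKs)).add (continuousOn_const.mul (cU.mono hKs)))
    obtain ⟨t₀, z₀⟩ := q₀
    obtain ⟨s0, u0⟩ := h0 t₀ (hI hq₀.1) z₀ (hsub hq₀.2)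
    have hφφ : φ z₀ * φ z₀ ≤ 1 := mul_le_one₀ (hφb _).2 (hφb _).1 (hφb _).2
    have hφφ0 : 0 ≤ φ z₀ * φ z₀ := mul_self_nonneg _
    have hAU : A * U t₀ z₀ ≤ A * B := mul_le_mul_of_nonneg_left (abs_le.1 u0).2 hA0
    have hSS : φ z₀ * φ z₀ * S t₀ z₀ ≤ S t₀ z₀ := mul_le_of_le_one_left s0 hφφ
    have claim : φ z₀ * φ z₀ * S t₀ z₀ ≤ B + A * B := by
      rcases hq₀.1.1.eq_or_lt with ht0 | ht0
      · have ht0 : t₀ = 0 := ht0.symm
        subst ht0
        linarith [hS0 z₀ (hsub hq₀.2)]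
      by_cases hin : z₀ ∈ ball p R₁
      swap
      · rw [hφ0 z₀ hin]
        linarith
      have ht0 : 0 < t₀ := ht0
      have ht1 : t₀ ≤ T₁ := hq₀.1.2
      obtain ⟨g1, g2, g3, g4, g5, g6, g7, g8, g9, g10⟩ :=
        h t₀ ⟨ht0, ht1.trans_lt hT₁.2⟩ z₀ (hsub hq₀.2)
      have d1 := der_nonneg ht0 ((g5.const_mul (φ z₀ * φ z₀)).add (g6.const_mul A))
        fun s hs => hmax (a := (s, z₀)) ⟨⟨hs.1, hs.2.trans ht1⟩, hq₀.2⟩
      have d2 := lap_nonpos (A := A) g1 ((hφs.contDiffAt.mul hφs.contDiffAt).mul g3) g4 (by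
        filter_upwards [isOpen_ball.mem_nhds hin] with y hy
        exact hmax (a := (t₀, y)) ⟨hq₀.1, ball_subset_closedBall hy⟩)
      have d3 := lap_cut2 g1 g2 hφs.contDiffAt g3 s0 g7 hB0.le g10 (hφd z₀ hq₀.2).1
        (hφd z₀ hq₀.2).2
      have d6 : φ z₀ * √(S t₀ z₀) ≤ Mx := hmx hq₀
      have d7 : φ z₀ * φ z₀ * (S t₀ z₀ * √(S t₀ z₀)) ≤ Mx * S t₀ z₀ :=
        calc _ = φ z₀ * (φ z₀ * √(S t₀ z₀) * S t₀ z₀) := by ring
          _ ≤ φ z₀ * √(S t₀ z₀) * S t₀ z₀ :=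
            mul_le_of_le_one_left (by have := (hφb z₀).1; positivity) (hφb _).2
          _ ≤ _ := mul_le_mul_of_nonneg_right d6 s0
      exact hSS.trans (arith2 hB0 hA hA0 hφφ0 hφφ d1 d2 d3 g8 g9 d7)
    have all : ∀ q ∈ Icc 0 T₁ ×ˢ closedBall p R₁, φ q.2 * φ q.2 * S q.1 q.2 ≤ B + 3 * (A * B) := by
      intro q hq
      have e1 : φ q.2 * φ q.2 * S q.1 q.2 + A * U q.1 q.2 ≤
        φ z₀ * φ z₀ * S t₀ z₀ + A * U t₀ z₀ := hmax hq
      have e2 := mul_le_mul_of_nonneg_left (abs_le.1 (h0 _ (hI hq.1) _ (hsub hq.2)).2).1 hA0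
      linarith
    have hM2 : Mx ^ 2 ≤ B + 3 * (A * B) := by
      rw [hMx, mul_pow, Real.sq_sqrt (h0 _ (hI hq₁.1) _ (hsub hq₁.2)).1, sq]
      exact all q₁ hq₁
    have e3 := all (T₁, z) ⟨⟨hT₁.1, le_rfl⟩, hsub' hz⟩
    simp only [hφ1 z hz, one_mul] at e3
    have e4 : B + 3 * (A * B) = B + 3 * B ^ 2 * (c + 1) + 3 * B ^ 3 * Mx := by rw [hA]; ring
    rw [e4] at hM2 e3
    exact arith1 hM2 e3
  intro t ht z hz
  rcases ht.2.lt_or_eq with h1 | h1
  · exact main t ⟨ht.1, h1⟩ z hz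
  rcases ht.1.eq_or_lt with h2 | h2
  · rw [← h2]
    refine (hS0 z (hsub (hsub' hz))).trans ?_
    have : 0 ≤ 3 * B ^ 2 * (c + 1) := by positivity
    linarith [sq_nonneg (3 * B ^ 3)]
  · have c1 : ContinuousOn (fun s => S s z) (Icc 0 T) :=
      cS.comp (f := fun s : ℝ => (s, z)) (by fun_prop) fun s hs => ⟨hs, hsub (hsub' hz)⟩
    have c2 : Tendsto (fun s => S s z) (𝓝[<] t) (𝓝 (S t z)) :=
      (c1 t ht).tendsto.mono_left (nhdsWithin_le_iff.2
        (mem_of_superset (Ioo_mem_nhdsLT h2) fun s hs => ⟨hs.1.le, hs.2.le.trans ht.2⟩))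
    refine le_of_tendsto c2 ?_
    filter_upwards [Ioo_mem_nhdsLT h2] with s hs
    exact main s ⟨hs.1.le, hs.2.trans_le ht.2⟩ z hz

end Vale.Agent.P253W.FP
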