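import Vale.Agent.P253W.FP.Defs

/-!
# P253W, block FP: the maximum principle in the estimate of Calabi
-/

open Set Metric
open scoped ContDiff ComplexOrder
open Vale.Agent.P272.K (Cm dz cHess)

noncomputable section

namespace Vale.Agent.P253W.FP

/-- **C3cut**: the scalar half of the local estimate of Calabi -/
def C3cut (n : ℕ) : Prop :=
  ∀ r R B : ℝ, 0 < r → r < R → 1 ≤ B → ∃ C : ℝ, ∀ (p : Cm n) (T : ℝ)
    (G : ℝ → Cm n → Matrix (Fin n) (Fin n) ℂ) (S St U Ut P : ℝ → Cm n → ℝ), 0 ≤ T →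
    ContinuousOn (fun q : ℝ × Cm n => S q.1 q.2) (Icc 0 T ×ˢ ball p R) →
    ContinuousOn (fun q : ℝ × Cm n => U q.1 q.2) (Icc 0 T ×ˢ ball p R) →
    (∀ t ∈ Icc 0 T, ∀ z ∈ ball p R, 0 ≤ S t z ∧ |U t z| ≤ B) →
    (∀ z ∈ ball p R, S 0 z ≤ B) →
    (∀ t ∈ Ioo 0 T, ∀ z ∈ ball p R, (G t z).PosSemidef ∧ (∀ i j, ‖G t z i j‖ ≤ B) ∧
      ContDiffAt ℝ ∞ (S t) z ∧ ContDiffAt ℝ ∞ (U t) z ∧ HasDerivAt (fun s => S s z) (St t z) t ∧
      HasDerivAt (fun s => U s z) (Ut t z) t ∧ 0 ≤ P t z ∧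
      St t z - (G t z * cHess (S t) z).trace.re ≤ B * (1 + S t z * √(S t z)) - P t z ∧
      Ut t z - (G t z * cHess (U t) z).trace.re ≤ B - S t z / B ∧
      (∑ i, ∑ j, G t z j i * dz i (fun y => (S t y : ℂ)) z *
        (starRingEnd ℂ) (dz j (fun y => (S t y : ℂ)) z)).re ≤ B * S t z * P t z) →
    ∀ t ∈ Icc 0 T, ∀ z ∈ closedBall p r, S t z ≤ C

end Vale.Agent.P253W.FP
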