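import Vale.Agent.P253W.FP.C3.Ring
import Vale.Agent.P253W.FP.CDefs

/-!
# P253W, block FP, row C3: the local estimate of Calabi for the Chern-Ricci flow
-/

set_option linter.all false

open Matrix Finset Filter Set Metric
open scoped ComplexOrder ComplexConjugate ContDiff Topology

noncomputable section

namespace Vale.Agent.P253W.FP

open Vale.Agent.P272.K Vale.Agent.P272.K.C3 Vale.Agent.P272.K.P1

namespace C3r

variable {n : ℕ} {R lam Lam C₀ : ℝ}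

lemma Sf_eq {K B Bi : Mt n ℂ} (hs : Sq K⁻¹ K B Bi) (D : Fin n → Mt n ℂ) :
    Sf K D = ((‖Ph B Bi fun i => D i * K⁻¹‖ ^ 2 : ℝ) : ℂ) := by
  rw [Sf, hs.pair_eq, inner_self_eq_norm_sq_to_K]
  push_cast
  rfl

lemma Sf_re {K : Mt n ℂ} (hK : K.PosDef) (D : Fin n → Mt n ℂ) :
    0 ≤ (Sf K D).re ∧ Sf K D = ((Sf K D).re : ℂ) := by
  obtain ⟨B, Bi, hs⟩ := exists_Sq hK
  rw [Sf_eq hs, Complex.ofReal_re]
  exact ⟨by positivity, rfl⟩

lemma tr_re {K : Mt n ℂ} (hK : K.PosDef) : K.trace = (K.trace.re : ℂ) := by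
  have : star K.trace = K.trace := by rw [← Matrix.trace_conjTranspose, hK.isHermitian.eq]
  exact (Complex.conj_eq_iff_re.1 this).symm

lemma Sf_le {K : Mt n ℂ} {D : Fin n → Mt n ℂ} {β c : ℝ} (hK : EB K β) (hG : EB K⁻¹ β)
    (hD : ∀ a, EB (D a) c) : (Sf K D).re ≤
      n * (n * (β * (n * (n * (n * (n * (β * (n * (c * β))) * β) * (n * (c * β))))))) :=
  (Complex.re_le_norm _).trans (pair_bound hG hK (fun i => (hD i).mul hG) fun i a b => by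
    rw [conjTranspose_apply, norm_star]
    exact (hD i).mul hG b a)

lemma le_Sf {K : Mt n ℂ} {D : Fin n → Mt n ℂ} {β c : ℝ} (hβ : 1 ≤ β) (hp : K.PosDef) (hK : EB K β)
    (hG : EB K⁻¹ β) (h : (Sf K D).re ≤ c) (a : Fin n) :
    EB (D a) (n * ((n * (β * (n * (n * (β * (1 + |c|)) * β)))) * β)) := by
  obtain ⟨B, Bi, hs⟩ := exists_Sq hp
  rw [Sf_eq hs, Complex.ofReal_re] at h
  have h2 : ‖Ph B Bi fun i => D i * K⁻¹‖ ≤ 1 + |c| := by
    nlinarith [norm_nonneg (Ph B Bi fun i => D i * K⁻¹), le_abs_self c,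
      sq_nonneg (‖Ph B Bi fun i => D i * K⁻¹‖ - 1)]
  have h3 := (hs.entry_le hβ hG hK (fun i => D i * K⁻¹) a).mul hK
  rw [Matrix.mul_assoc, Matrix.nonsing_inv_mul _ (isUnit_iff_ne_zero.2 hp.det_pos.ne'),
    Matrix.mul_one] at h3
  refine h3.mono ?_
  have : (0 : ℝ) ≤ β := by linarith
  gcongr

/-- the inequalities at a point -/
theorem point {β : ℝ} (hβ : 1 ≤ β) (h1 : Lam ≤ β) (h2 : n * (1 / lam) ≤ β) : ∃ B₀ : ℝ, 1 ≤ B₀ ∧
    ∀ B, B₀ ≤ B → ∀ o : Pt n R lam Lam C₀, ∃ st ut P : ℝ,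
      ContDiffAt ℝ ∞ (fun z => (Sf (o.K o.t z) fun a => C2.DM a (o.K o.t) z).re) o.z ∧
      ContDiffAt ℝ ∞ (fun z => (o.K o.t z).trace.re) o.z ∧
      HasDerivAt (fun s => (Sf (o.K s o.z) fun a => C2.DM a (o.K s) o.z).re) st o.t ∧
      HasDerivAt (fun s => (o.K s o.z).trace.re) ut o.t ∧ 0 ≤ P ∧
      st - ((o.K o.t o.z)⁻¹ *
        cHess (fun z => (Sf (o.K o.t z) fun a => C2.DM a (o.K o.t) z).re) o.z).trace.re ≤
        B * (1 + (Sf (o.K o.t o.z) fun a => C2.DM a (o.K o.t) o.z).re *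
          √(Sf (o.K o.t o.z) fun a => C2.DM a (o.K o.t) o.z).re) - P ∧
      ut - ((o.K o.t o.z)⁻¹ * cHess (fun z => (o.K o.t z).trace.re) o.z).trace.re ≤
        B - (Sf (o.K o.t o.z) fun a => C2.DM a (o.K o.t) o.z).re / B ∧
      (∑ i, ∑ j, (o.K o.t o.z)⁻¹ j i *
        dz i (fun y => ((Sf (o.K o.t y) fun a => C2.DM a (o.K o.t) y).re : ℂ)) o.z * (starRingEnd ℂ)
        (dz j (fun y => ((Sf (o.K o.t y) fun a => C2.DM a (o.K o.t) y).re : ℂ)) o.z)).re ≤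
        B * (Sf (o.K o.t o.z) fun a => C2.DM a (o.K o.t) o.z).re * P := by
  obtain ⟨B₀, hB, h⟩ := est (W := WP n R lam Lam C₀) hs ev0 (fun o => evx_star _) hβ
    (fun o => by rw [ev0, ev_KK]; exact o.h.pd (Ioo_subset_Icc_self o.ht) o.hz)
    (fun o => by rw [ev0, ev_KK]; exact (o.h.eb h1 h2 (Ioo_subset_Icc_self o.ht) o.hz).1)
    (fun o => by rw [ev0, ev_GG]; exact (o.h.eb h1 h2 (Ioo_subset_Icc_self o.ht) o.hz).2) tb0
  refine ⟨B₀, hB, fun B hBB o => ?_⟩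
  obtain ⟨a0, a1, a2, a3⟩ := h o
  have hp : ∀ y : o.O, (o.K o.t y).PosDef := fun y => o.h.pd (Ioo_subset_Icc_self o.ht) y.2
  have hS : ∀ y : o.O, evx o y (SS (WP n R lam Lam C₀) (KK n R lam Lam C₀) (GG n R lam Lam C₀)) =
      (((fun z => (Sf (o.K o.t z) fun a => C2.DM a (o.K o.t) z).re) y : ℝ) : ℂ) := fun y => by
    rw [ev_SS]; exact (Sf_re (hp y) _).2
  have hU : ∀ y : o.O, evx o y (KK n R lam Lam C₀).trace =
      (((fun z => (o.K o.t z).trace.re) y : ℝ) : ℂ) := fun y => by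
    rw [e_trace, ev_KK]; exact tr_re (hp y)
  have hG : ∀ i j, evx o ⟨o.z, o.hz⟩ (GG n R lam Lam C₀ j i) = (o.K o.t o.z)⁻¹ j i :=
    fun i j => congrFun (congrFun (ev_GG (o := o) ⟨o.z, o.hz⟩) j) i
  have hd := fun i => ev_d (o := o) ⟨o.z, o.hz⟩
    (g := fun y => ((Sf (o.K o.t y) fun a => C2.DM a (o.K o.t) y).re : ℂ)) hS i
  have l1 := ev_lap (o := o) ⟨o.z, o.hz⟩
    (u := fun z => (Sf (o.K o.t z) fun a => C2.DM a (o.K o.t) z).re) hS
  have l2 := ev_lap (o := o) ⟨o.z, o.hz⟩ (u := fun z => (o.K o.t z).trace.re) hU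
  unfold ev0 at a0 a1 a2 a3
  rw [l1, ev_SS] at a1
  rw [l2, ev_SS, e_trace, ev_ric] at a2
  simp only [hG, hd, ev_SS] at a3
  have s0 := (Sf_re (hp ⟨o.z, o.hz⟩) fun a => C2.DM a (o.K o.t) o.z).1
  refine ⟨_, _, _, ?_, ?_, Complex.reCLM.hasFDerivAt.comp_hasDerivAt _ (hd_S (o := o) ⟨o.z, o.hz⟩),
    Complex.reCLM.hasFDerivAt.comp_hasDerivAt _ (HD.trace (o.h.fl _ o.ht _ o.hz)),
    div_nonneg a0 zero_le_two, a1.trans ?_, a2.trans ?_, a3.trans ?_⟩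
  · exact Complex.reCLM.contDiff.contDiffAt.comp o.z (sm_of (o := o) ⟨o.z, o.hz⟩
      (g := fun z => Sf (o.K o.t z) fun a => C2.DM a (o.K o.t) z) ev_SS)
  · exact Complex.reCLM.contDiff.contDiffAt.comp o.z (o.h.mc o.ht o.hz).trace
  · gcongr
  · gcongr
  · gcongr

end C3r

open C3r in
/-- row C3 -/
theorem c3_of (n : ℕ) (h : C3cut n) : C3 n := by
  intro r R lam Lam C₀ hr hrR hlam
  obtain ⟨β, hβ, h1, h2⟩ : ∃ β : ℝ, 1 ≤ β ∧ Lam ≤ β ∧ n * (1 / lam) ≤ β :=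
    ⟨max 1 (max Lam (n * (1 / lam))), le_max_left _ _, (le_max_left _ _).trans (le_max_right _ _),
      (le_max_right _ _).trans (le_max_right _ _)⟩
  obtain ⟨B₀, hB₀, hpt⟩ := point (n := n) (R := R) (C₀ := C₀) hβ h1 h2
  obtain ⟨B, b1, b2, b3, b4⟩ : ∃ B : ℝ, B₀ ≤ B ∧ β ≤ B ∧ n * β ≤ B ∧
      n * (n * (β * (n * (n * (n * (n * (β * (n * (C₀ * β))) * β) * (n * (C₀ * β))))))) ≤ B :=
    ⟨max (max B₀ β) (max _ _), (le_max_left _ _).trans (le_max_left _ _),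
      (le_max_right _ _).trans (le_max_left _ _), (le_max_left _ _).trans (le_max_right _ _),
      (le_max_right _ _).trans (le_max_right _ _)⟩
  obtain ⟨c, hc⟩ := h r R B hr hrR (hB₀.trans b1)
  refine ⟨max C₀ (n * ((n * (β * (n * (n * (β * (1 + |c|)) * β)))) * β)), ?_⟩
  intro p T K τ hT hsm hbd hfl hta htb h0 t ht z hz a i j
  have hzR := closedBall_subset_ball hrR hz
  rcases hT.eq_or_lt with rfl | hT'
  · obtain rfl : t = 0 := le_antisymm ht.2 ht.1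
    exact (h0 z hzR a i j).trans (le_max_left _ _)
  have H : Hyp R lam Lam C₀ p T K τ := ⟨hsm, hbd, hfl, hta, htb, hlam⟩
  have key := fun (t : Ioo 0 T) (z : ball p R) => hpt B b1 ⟨p, T, K, τ, H, t, t.2, z, z.2⟩
  choose st ut P key using key
  classical
  have hS := hc p T (fun t z => (K t z)⁻¹)
    (fun t z => (Sf (K t z) fun a => C2.DM a (K t) z).re)
    (fun t z => if h : t ∈ Ioo 0 T ∧ z ∈ ball p R then st ⟨t, h.1⟩ ⟨z, h.2⟩ else 0)
    (fun t z => (K t z).trace.re)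
    (fun t z => if h : t ∈ Ioo 0 T ∧ z ∈ ball p R then ut ⟨t, h.1⟩ ⟨z, h.2⟩ else 0)
    (fun t z => if h : t ∈ Ioo 0 T ∧ z ∈ ball p R then P ⟨t, h.1⟩ ⟨z, h.2⟩ else 0) hT
    (Complex.continuous_re.comp_continuousOn (cont_Sf (K := fun q : ℝ × Cm n => K q.1 q.2)
      (D := fun q a => C2.DM a (K q.1) q.2) (fun i j => (hsm i j).continuousOn)
      (fun q hq => H.det_ne hq.1 hq.2) fun a i j => cont_dz hT' isOpen_ball (hsm i j) a))
    (Complex.continuous_re.comp_continuousOn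
      (continuousOn_finset_sum _ fun i _ => (hsm i i).continuousOn))
    (fun t ht z hz => ⟨(Sf_re (H.pd ht hz) _).1,
      ((Complex.abs_re_le_norm _).trans (H.eb h1 h2 ht hz).1.trace).trans b3⟩)
    (fun z hz => (Sf_le (H.eb h1 h2 ⟨le_rfl, hT⟩ hz).1 (H.eb h1 h2 ⟨le_rfl, hT⟩ hz).2
      fun a i j => h0 z hz a i j).trans b4)
    (fun t ht z hz => by
      have ht' := Ioo_subset_Icc_self ht
      simp only [dif_pos (And.intro ht hz)]
      exact ⟨(H.pd ht' hz).inv.posSemidef, fun i j => ((H.eb h1 h2 ht' hz).2 i j).trans b2,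
        key ⟨t, ht⟩ ⟨z, hz⟩⟩) t ht z hz
  exact (le_Sf hβ (H.pd ht hzR) (H.eb h1 h2 ht hzR).1 (H.eb h1 h2 ht hzR).2 hS a i j).trans
    (le_max_right _ _)

end Vale.Agent.P253W.FP
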