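import Vale.Agent.P253W.FP.HDefs

/-!
# P253W, block FP, row DUHa: space derivatives and bounds of the integrals of Duhamel
-/

open Set Metric Filter Topology MeasureTheory
open Vale.Agent.P272.K.H

noncomputable section

namespace Vale.Agent.P253W.FP

namespace Da

variable {F : Type} [NormedAddCommGroup F] [NormedSpace ℝ F]

lemma int_rpow {p : ℝ} (hp : -1 < p) (D r : ℝ) (hr : 0 ≤ r) :
    IntegrableOn (fun s : ℝ => D * s ^ p) (Ioc 0 r) ∧
      ∫ s in Ioc 0 r, D * s ^ p = D * r ^ (p + 1) / (p + 1) := by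
  refine ⟨(intervalIntegrable_iff_integrableOn_Ioc_of_le hr).1
    ((intervalIntegral.intervalIntegrable_rpow' hp).const_mul D), ?_⟩
  rw [integral_const_mul, ← intervalIntegral.integral_of_le hr, integral_rpow (Or.inl hp),
    Real.zero_rpow (by linarith), sub_zero, mul_div_assoc]

lemma norm_int {u : ℝ → F} {p D r : ℝ} (hp : -1 < p) (hr : 0 ≤ r)
    (h : ∀ s, 0 < s → ‖u s‖ ≤ D * s ^ p) :
    ‖∫ s in Ioc 0 r, u s‖ ≤ D * r ^ (p + 1) / (p + 1) := by
  rw [← (int_rpow hp D r hr).2]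
  exact norm_integral_le_of_norm_le (int_rpow hp D r hr).1
    ((ae_restrict_mem measurableSet_Ioc).mono fun s hs => h s hs.1)

lemma norm_sing {u : ℝ → F} {a c c' h r : ℝ} (a0 : 0 < a) (a1 : a < 1) (c0 : 0 ≤ c) (c1 : 0 ≤ c')
    (h0 : 0 < h) (b : ∀ s, 0 < s → ‖u s‖ ≤ c * s ^ (a - 1) ∧ ‖u s‖ ≤ c' * h * s ^ (a - 2)) :
    ‖∫ s in Ioc 0 r, u s‖ ≤ (c / a + c' / (1 - a)) * h ^ a := by
  obtain ⟨i1, e1⟩ := int_rpow (p := a - 1) (by linarith) c h h0.le
  have i2 := (integrableOn_Ioi_rpow_of_lt (a := a - 2) (by linarith) h0).const_mul (c' * h)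
  have j1 := (integrable_indicator_iff measurableSet_Ioc).2 i1
  have j2 := (integrable_indicator_iff measurableSet_Ioi).2 i2
  refine (norm_integral_le_of_norm_le (j1.add j2).integrableOn
    ((ae_restrict_mem measurableSet_Ioc).mono fun s hs => ?_)).trans
      ((setIntegral_le_integral (j1.add j2) (.of_forall fun s => add_nonneg
        (indicator_nonneg (fun s hs => by have := hs.1; positivity) _)
        (indicator_nonneg (fun s hs => by have := h0.trans hs; positivity) _))).trans_eq ?_)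
  · rcases le_or_gt s h with k | k
    · simpa [k, hs.1] using (b s hs.1).1
    · simpa [k, k.not_ge] using (b s hs.1).2
  · rw [integral_add' j1 j2, integral_indicator measurableSet_Ioc,
      integral_indicator measurableSet_Ioi, e1, integral_const_mul,
      integral_Ioi_rpow_of_lt (by linarith) h0, sub_add_cancel, show a - 2 + 1 = -(1 - a) by ring,
      neg_div_neg_eq, neg_sub, Real.rpow_sub_one h0.ne']
    field_simp

variable {E : Type} [NormedAddCommGroup E] [InnerProductSpace ℝ E] [FiniteDimensional ℝ E]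
  [MeasurableSpace E] [BorelSpace E] {k : E → F} {g : ℝ → E → ℝ} {α A A' β γ D t : ℝ}

/-- data which are defined for all times -/
structure Gl (α A A' : ℝ) (g : ℝ → E → ℝ) : Prop where
  c : Continuous fun q : ℝ × E => g q.1 q.2
  b : ∀ t x, |g t x| ≤ A
  h : ∀ t, HolB α A' (g t)

/-- the integrand -/
def ig (k : E → F) (β : ℝ) (g : ℝ → E → ℝ) (t : ℝ) (x : E) (s : ℝ) : F :=
  (2 * s ^ β) • avg k s (g (t - s ^ 2)) x

lemma wt_le {u : F} {s : ℝ} (hs : 0 < s) (h : ‖u‖ ≤ D * s ^ γ) :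
    ‖(2 * s ^ β) • u‖ ≤ 2 * D * s ^ (β + γ) := by
  rw [norm_smul, Real.norm_of_nonneg (by positivity), Real.rpow_add hs]
  exact (mul_le_mul_of_nonneg_left h (by positivity)).trans_eq (by ring)

namespace Gl

variable (hg : Gl α A A' g)
include hg

omit [InnerProductSpace ℝ E] [FiniteDimensional ℝ E] [MeasurableSpace E] [BorelSpace E] in
lemma ct (t : ℝ) : Continuous (g t) := hg.c.comp (.prodMk_right t)

lemma cont_avg (hk : Kern k) : Continuous fun p : (ℝ × E) × ℝ => avg k p.2 (g p.1.1) p.1.2 :=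
  continuous_of_dominated (bound := fun z => A * ‖k z‖)
    (fun p => (integrable_avg hk (hg.ct _) (hg.b _) _ _).aestronglyMeasurable)
    (fun p => .of_forall fun z => by
      rw [norm_smul]
      exact mul_le_mul_of_nonneg_right (hg.b _ _) (norm_nonneg _))
    (hk.integrable.norm.const_mul A) (.of_forall fun z => (hg.c.comp (f := fun p : (ℝ × E) × ℝ =>
      (p.1.1, p.1.2 - p.2 • z)) (by fun_prop)).smul continuous_const)

lemma meas (hk : Kern k) (β t : ℝ) (x : E) :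
    AEStronglyMeasurable (ig k β g t x) (volume.restrict (Ioi 0)) :=
  ((continuousOn_const.mul (continuousOn_id.rpow_const fun _ hs => .inl (ne_of_gt hs))).smul
    ((hg.cont_avg hk).comp (f := fun s : ℝ => ((t - s ^ 2, x), s))
      (by fun_prop)).continuousOn).aestronglyMeasurable measurableSet_Ioi

lemma meas' (hk : Kern k) (β t r : ℝ) (x : E) :
    AEStronglyMeasurable (ig k β g t x) (volume.restrict (Ioc 0 r)) :=
  (hg.meas hk β t x).mono_set Ioc_subset_Ioi_self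

lemma integ (hk : Kern k) (hβ : -1 < β + γ)
    (hD : ∀ s, 0 < s → ∀ r x, ‖avg k s (g r) x‖ ≤ D * s ^ γ) (t : ℝ) (x : E) :
    IntegrableOn (ig k β g t x) (Ioc 0 √t) :=
  (int_rpow hβ (2 * D) _ (Real.sqrt_nonneg t)).1.mono' (hg.meas' hk ..)
    ((ae_restrict_mem measurableSet_Ioc).mono fun s hs => wt_le hs.1 (hD s hs.1 _ _))

lemma cont (hk : Kern k) (hβ : -1 < β + γ)
    (hD : ∀ s, 0 < s → ∀ r x, ‖avg k s (g r) x‖ ≤ D * s ^ γ) :
    Continuous fun q : ℝ × E => duh k β g q.1 q.2 := by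
  refine continuous_iff_continuousAt.2 fun q => ?_
  have cs : ContinuousAt (fun q : ℝ × E => √q.1) q := by fun_prop
  have e : ∀ᶠ p : ℝ × E in 𝓝 q, ∫ s in Ioc 0 (√q.1 + 1), (Iic √p.1).indicator (ig k β g p.1 p.2) s =
      duh k β g p.1 p.2 := (cs.eventually (ge_mem_nhds (lt_add_one _))).mono fun p hp => by
    rw [setIntegral_indicator measurableSet_Iic, Ioc_inter_Iic, min_eq_right hp]
    rfl
  refine ContinuousAt.congr (continuousAt_of_dominated (.of_forall fun p =>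
    (hg.meas' hk ..).indicator measurableSet_Iic) (.of_forall fun p =>
      (ae_restrict_mem measurableSet_Ioc).mono fun s hs => (norm_indicator_le_norm_self ..).trans
        (wt_le hs.1 (hD s hs.1 _ _))) (int_rpow hβ (2 * D) _ (by positivity)).1
    (ae_restrict_of_ae ((Measure.ae_ne volume √q.1).mono fun s hs => ?_))) e
  rcases lt_or_gt_of_ne hs with l | l
  · refine ContinuousAt.congr (f := fun p : ℝ × E => ig k β g p.1 p.2 s)
      (((hg.cont_avg hk).comp (f := fun p : ℝ × E => ((p.1 - s ^ 2, p.2), s))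
        (by fun_prop)).const_smul _).continuousAt
      ((cs.eventually (le_mem_nhds l)).mono fun p hp => (indicator_of_mem (mem_Iic.2 hp) _).symm)
  · exact (continuousAt_const (y := 0)).congr ((cs.eventually (gt_mem_nhds l)).mono fun p hp =>
      (indicator_of_notMem (notMem_Iic.2 hp) _).symm)

lemma der [CompleteSpace F] {k' : E → E →L[ℝ] F} {γ' D' : ℝ} (hk : Kern k) (hk' : Kern k')
    (hd : ∀ z, HasFDerivAt k (k' z) z) (hβ : -1 < β + γ) (hβ' : -1 < β - 1 + γ')
    (hD : ∀ s, 0 < s → ∀ r x, ‖avg k s (g r) x‖ ≤ D * s ^ γ)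
    (hD' : ∀ s, 0 < s → ∀ r x, ‖avg k' s (g r) x‖ ≤ D' * s ^ γ') (t : ℝ) (x : E) :
    HasFDerivAt (duh k β g t) (duh k' (β - 1) g t x) x := by
  refine hasFDerivAt_integral_of_dominated_of_fderiv_le (F := ig k β g t)
    (F' := ig k' (β - 1) g t) (s := univ) univ_mem (.of_forall fun x => hg.meas' hk ..)
    (hg.integ hk hβ hD t x) (hg.meas' hk' ..)
    ((ae_restrict_mem measurableSet_Ioc).mono fun s hs y _ => wt_le hs.1 (hD' s hs.1 _ _))
    (int_rpow hβ' (2 * D') _ (Real.sqrt_nonneg t)).1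
    ((ae_restrict_mem measurableSet_Ioc).mono fun s hs y _ => ?_)
  have h := (hasFDerivAt_avg hk hk' hd (hg.ct (t - s ^ 2)) (hg.b _) hs.1 y).const_smul (2 * s ^ β)
  rwa [smul_smul, mul_assoc, ← div_eq_mul_inv, ← Real.rpow_sub_one hs.1.ne'] at h

lemma bd0 (hk : Kern k) (s : ℝ) (_ : 0 < s) (r : ℝ) (x : E) :
    ‖avg k s (g r) x‖ ≤ (A * ∫ z, ‖k z‖) * s ^ (0 : ℝ) := by
  simpa using norm_avg_le hk (hg.b r) s x

lemma bd1 [CompleteSpace F] (hk : Kern k) (h0 : ∫ z, k z = 0) (a0 : 0 < α) (a1 : α < 1) (s : ℝ)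
    (hs : 0 < s) (r : ℝ) (x : E) : ‖avg k s (g r) x‖ ≤ (A' * ∫ z, ‖z‖ ^ α * ‖k z‖) * s ^ α := by
  simpa only [abs_of_pos hs, mul_right_comm] using
    norm_avg_le_hol hk h0 (hg.ct r) (hg.b r) a0.le a1.le (hg.h r) s x

/-- integrable weights -/
lemma pb (hk : Kern k) (hβ : -1 < β) {T c : ℝ} (A0 : 0 ≤ A')
    (hc : 2 * (∫ z, ‖k z‖) * √T ^ (β + 1) / (β + 1) ≤ c) :
    PB α (Icc 0 T) univ (duh k β g) (c * A) (c * A') := by
  have hβ' : -1 < β + 0 := by linarith
  have L0 : 0 ≤ ∫ z, ‖k z‖ := by positivity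
  have key : ∀ t ∈ Icc 0 T, ∀ (u : ℝ → F) (B : ℝ), 0 ≤ B →
      (∀ s, 0 < s → ‖u s‖ ≤ (B * ∫ z, ‖k z‖) * s ^ (0 : ℝ)) →
      ‖∫ s in Ioc 0 √t, (2 * s ^ β) • u s‖ ≤ c * B := fun t ht u B B0 h => by
    refine (norm_int hβ' (Real.sqrt_nonneg t) fun s hs => wt_le hs (h s hs)).trans
      (le_trans ?_ (mul_le_mul_of_nonneg_right hc B0))
    have : 0 < β + 1 := by linarith
    calc _ = 2 * (∫ z, ‖k z‖) * √t ^ (β + 1) / (β + 1) * B := by
          rw [add_zero]
          ring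
      _ ≤ _ := by gcongr; exact ht.2
  refine ⟨(hg.cont hk hβ' (hg.bd0 hk)).continuousOn, fun t ht x _ => key t ht _ _
    ((abs_nonneg _).trans (hg.b 0 0)) fun s hs => hg.bd0 hk s hs _ _, fun t ht x _ y _ => ?_⟩
  rw [mul_assoc]
  refine le_of_eq_of_le ?_ (key t ht (fun s => avg k s (g (t - s ^ 2)) x -
    avg k s (g (t - s ^ 2)) y) _ (by positivity) fun s _ => by
      simpa using norm_avg_sub_avg_le hk (hg.ct _) (hg.b _) (hg.h _) s x y)
  simp only [smul_sub]
  exact congrArg _ (integral_sub (hg.integ hk hβ' (hg.bd0 hk) t x)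
    (hg.integ hk hβ' (hg.bd0 hk) t y)).symm

/-- the singular weight -/
lemma pb' [CompleteSpace F] {k' : E → E →L[ℝ] F} (hk : Kern k) (hk' : Kern k')
    (hd : ∀ z, HasFDerivAt k (k' z) z) (h0 : ∫ z, k z = 0) (a0 : 0 < α) (a1 : α < 1) {T c : ℝ}
    (A0 : 0 ≤ A')
    (hc : 4 * (∫ z, ‖z‖ ^ α * ‖k z‖) / α + 2 * (∫ z, ‖z‖ ^ α * ‖k' z‖) / (1 - α) ≤ c) :
    PB α (Icc 0 T) univ (duh k (-1) g) (c * T ^ (α / 2) * A') (c * A') := by
  have hβ : -1 < -1 + α := by linarith
  have b := hg.bd1 hk h0 a0 a1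
  have : 0 < 1 - α := by linarith
  set m := ∫ z, ‖z‖ ^ α * ‖k z‖
  set m' := ∫ z, ‖z‖ ^ α * ‖k' z‖
  have m0 : 0 ≤ m := by positivity
  have m1 : 0 ≤ m' := by positivity
  refine ⟨(hg.cont hk hβ b).continuousOn, fun t ht x _ => ?_, fun t ht x _ y _ => ?_⟩
  · refine (norm_int hβ (Real.sqrt_nonneg t) fun s hs => wt_le hs (b s hs _ _)).trans ?_
    have := ht.1
    have k : 2 * m / α ≤ c := le_trans (by gcongr; norm_num) ((le_add_of_nonneg_right
      (by positivity)).trans hc)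
    calc _ = 2 * m / α * t ^ (α / 2) * A' := by
          rw [neg_add_cancel_comm, Real.sqrt_eq_rpow, ← Real.rpow_mul this,
            show 1 / 2 * α = α / 2 by ring]
          ring
      _ ≤ _ := by gcongr; exacts [le_trans (by positivity) k, ht.2]
  · rcases eq_or_ne x y with rfl | hxy
    · simp [Real.zero_rpow a0.ne']
    refine (congrArg _ (integral_sub (hg.integ hk hβ b t x) (hg.integ hk hβ b t y)).symm).trans_le
      ((norm_sing (c := 2 * (2 * (A' * m))) (c' := 2 * (A' * m')) a0 a1 (by positivity)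
        (by positivity) (norm_pos_iff.2 (sub_ne_zero.2 hxy)) fun s hs => ?_).trans ?_)
    · rw [ig, ig, ← smul_sub, show α - 1 = -1 + α by ring, show α - 2 = -1 + (α - 1) by ring,
        mul_assoc 2 (A' * m')]
      exact ⟨wt_le hs ((norm_sub_le_of_le (b s hs _ _) (b s hs _ _)).trans_eq (by ring)),
        wt_le hs ((norm_avg_sub_avg_le' hk hk' hd a0.le a1.le (hg.ct _) (hg.b _) (hg.h _) hs
          x y).trans_eq (by ring))⟩
    · exact mul_le_mul_of_nonneg_right (le_of_eq_of_le (by ring)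
        (mul_le_mul_of_nonneg_right hc A0)) (by positivity)

end Gl

omit [InnerProductSpace ℝ E] [FiniteDimensional ℝ E] [MeasurableSpace E] [BorelSpace E] in
/-- extension of the data to all times -/
lemma ex_gl {T : ℝ} {f : ℝ → E → ℝ} (hT : 0 ≤ T) (h : PB α (Icc 0 T) univ f A A') :
    ∃ g, Gl α A A' g ∧ ∀ t ∈ Icc 0 T, g t = f t :=
  ⟨fun t => f (projIcc 0 T hT t), ⟨h.cont.comp_continuous (f := fun q : ℝ × E =>
    ((projIcc 0 T hT q.1 : ℝ), q.2)) (by fun_prop) fun _ => ⟨Subtype.prop _, trivial⟩,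
      fun _ _ => h.sup _ (Subtype.prop _) _ trivial,
      fun _ _ _ => h.hol _ (Subtype.prop _) _ trivial _ trivial⟩,
    fun t ht => by simp only [projIcc_of_mem hT ht]⟩

lemma duh_congr {T : ℝ} {f : ℝ → E → ℝ} (e : ∀ t ∈ Icc 0 T, g t = f t) (k : E → F) (β : ℝ)
    (ht : t ∈ Icc 0 T) : duh k β f t = duh k β g t :=
  funext fun _ => setIntegral_congr_fun measurableSet_Ioc fun s hs => by
    have := (Real.le_sqrt hs.1.le ht.1).1 hs.2
    simp only [e (t - s ^ 2) ⟨by linarith, by nlinarith [ht.2]⟩]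

omit [NormedSpace ℝ F] [InnerProductSpace ℝ E] [FiniteDimensional ℝ E] [MeasurableSpace E]
  [BorelSpace E] in
lemma pb_congr {I : Set ℝ} {u v : ℝ → E → F} (h : PB α I univ v A A') (e : ∀ t ∈ I, u t = v t) :
    PB α I univ u A A' :=
  ⟨h.cont.congr fun _ hq => congrFun (e _ hq.1) _, fun t ht => e t ht ▸ h.sup t ht,
    fun t ht => e t ht ▸ h.hol t ht⟩

end Da

open Da in
/-- **DUHa** -/
theorem duha {E : Type} [NormedAddCommGroup E] [InnerProductSpace ℝ E] [FiniteDimensional ℝ E]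
    [MeasurableSpace E] [BorelSpace E] : DUHa E := by
  intro α a0 a1
  have : 0 < 1 - α := by linarith
  have k0 := kern_Gk (E := E) tg0
  have k1 := kern_Gk (E := E) tg1
  have k2 := kern_Gk (E := E) tg2
  refine ⟨2 * (∫ z : E, ‖Gk q1 z‖) + (4 * (∫ z : E, ‖z‖ ^ α * ‖Gk q2 z‖) / α +
    2 * (∫ z : E, ‖z‖ ^ α * ‖Gk (pstep q2) z‖) / (1 - α)), by positivity,
    fun T A A' f hT A0 h => ?_⟩
  obtain ⟨g, hg, e⟩ := ex_gl hT h
  refine ⟨fun t ht x => ?_, pb_congr (hg.pb k0 (by norm_num) A0 (le_of_eq ?_)) fun _ =>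
    duh_congr e _ _, pb_congr (hg.pb k1 (by norm_num) A0 ?_) fun _ => duh_congr e _ _,
    pb_congr (hg.pb' k2 (kern_Gk (tg_pstep tg2)) (hasFDerivAt_Gk tg2) integral_k2 a0 a1 A0
      (le_add_of_nonneg_left (by positivity))) fun _ => duh_congr e _ _⟩
  · simp only [duh_congr e _ _ ht]
    have d1 := hg.der (β := 1) k0 k1 (hasFDerivAt_Gk tg0) (by norm_num) (by norm_num)
      (hg.bd0 k0) (hg.bd0 k1) t x
    have d2 := hg.der (β := 0) k1 k2 (hasFDerivAt_Gk tg1) (by norm_num) (by linarith)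
      (hg.bd0 k1) (hg.bd1 k2 integral_k2 a0 a1) t x
    rw [sub_self] at d1
    rw [zero_sub] at d2
    exact ⟨d1, d2⟩
  · have : ∫ z : E, ‖Gk q0 z‖ = 1 := by
      simpa [Gk, q0, abs_of_pos (G_pos _)] using integral_G (E := E)
    rw [this, one_add_one_eq_two, Real.rpow_two, Real.sq_sqrt hT]
    ring
  · rw [zero_add, Real.rpow_one, div_one]
    exact mul_le_mul_of_nonneg_right (le_add_of_nonneg_right (by positivity)) (Real.sqrt_nonneg T)

end Vale.Agent.P253W.FP
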