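import Vale.Agent.P253W.FP.Pb
import Vale.Agent.P272.K.R.Step
import Mathlib.Topology.ContinuousMap.Compact

/-!
# P253W, block FP, row DQ: difference quotients
-/

set_option maxSynthPendingDepth 3
set_option linter.unusedSectionVars false

open Set Metric Filter Topology
open scoped ContDiff
open Vale.Agent.P272.K.R
open Vale.Agent.P272.K.LIN (Jet jet)

noncomputable section

namespace Vale.Agent.P253W.FP

variable {E : Type} [NormedAddCommGroup E] [NormedSpace ℝ E] {α T K r R h : ℝ} {x₀ v : E}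
  {w wt : ℝ → E → ℝ} {I : Set ℝ}

/-- bounds on an open set give the local property -/
theorem PB.th {F : Type} [NormedAddCommGroup F] [NormedSpace ℝ F] {U : Set E} {f : ℝ → E → F}
    {A B : ℝ} (hU : IsOpen U) (hf : PB α I U f A B) : TH α I U F f := fun x hx => by
  obtain ⟨ρ, h0, h1⟩ := Metric.isOpen_iff.1 hU x hx
  exact ⟨ρ, h0, h1, max (max A B) 0, le_max_right _ _, (hf.mono_set subset_rfl h1).mono
    ((le_max_left _ _).trans (le_max_left _ _)) ((le_max_right _ _).trans (le_max_left _ _))⟩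

namespace Dq

theorem sub (hh : 0 < h) (hr : r + h * ‖v‖ ≤ R) : ball x₀ r ⊆ ball x₀ R :=
  ball_subset_ball (by nlinarith [norm_nonneg v])

theorem sh (hh : 0 < h) (hr : r + h * ‖v‖ ≤ R) {x : E} (hx : x ∈ ball x₀ r) :
    x + h • v ∈ ball x₀ R := add_smul_mem_ball hr hx ⟨hh.le, le_rfl⟩

theorem jet_dq {u : E → ℝ} (hh : 0 < h) (hr : r + h * ‖v‖ ≤ R) (hw : ContDiffOn ℝ 2 u (ball x₀ R))
    {x : E} (hx : x ∈ ball x₀ r) : jet (dq v h u) x = dq v h (jet u) x :=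
  Prod.ext rfl (Prod.ext (fderiv_dq hh hr hw x hx) (D2_dq hh hr hw x hx))

theorem cl_dq (hh : 0 < h) (hr : r + h * ‖v‖ ≤ R) (hw : Cl I (ball x₀ R) w wt) :
    Cl I (ball x₀ r) (fun t => dq v h (w t)) fun t x => h⁻¹ * (wt t (x + h • v) - wt t x) := by
  refine ⟨fun t ht => contDiffOn_dq hh hr (hw.c2 t ht), ?_, fun t ht x hx =>
    ((hw.dt t ht _ (sh hh hr hx)).sub (hw.dt t ht x (sub hh hr hx))).const_mul h⁻¹⟩
  have h1 := hw.cj.comp (f := fun q : ℝ × E => (q.1, q.2 + h • v)) (s := I ×ˢ ball x₀ r)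
    (by fun_prop) fun q hq => ⟨hq.1, sh hh hr hq.2⟩
  exact ((h1.sub (hw.cj.mono (prod_mono subset_rfl (sub hh hr)))).const_smul h⁻¹).congr
    fun q hq => jet_dq hh hr (hw.c2 _ hq.1) hq.2

theorem d1 {u : E → ℝ} (hw : ContDiffOn ℝ 2 u (ball x₀ R)) :
    ∀ x ∈ ball x₀ R, DifferentiableAt ℝ u x := fun _ hx =>
  (hw.contDiffAt (isOpen_ball.mem_nhds hx)).differentiableAt (by norm_num)

theorem d2 {u : E → ℝ} (hw : ContDiffOn ℝ 2 u (ball x₀ R)) :
    ∀ x ∈ ball x₀ R, DifferentiableAt ℝ (fderiv ℝ u) x := fun _ hx =>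
  ((hw.contDiffAt (isOpen_ball.mem_nhds hx)).fderiv_right (m := 1) (by norm_num)).differentiableAt
    (by norm_num)

theorem pb0 (hh : 0 < h) (hr : r + h * ‖v‖ ≤ R) (hw : Cl I (ball x₀ R) w wt)
    (hj : PB α I (ball x₀ R) (fun t => jet (w t)) K K) :
    PB α I (ball x₀ r) (fun t => dq v h (w t)) (K * ‖v‖) (K * ‖v‖) :=
  ⟨(cl_dq hh hr hw).cj.fst, fun t ht _ hx => norm_dq_le hh (d1 (hw.c2 t ht))
    (fun _ hτ => add_smul_mem_ball hr hx hτ) (hj.snd.fst.sup t ht),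
    fun t ht => Hol.dq hh (d1 (hw.c2 t ht)) (fun _ hx _ hτ => add_smul_mem_ball hr hx hτ)
      (hj.snd.fst.hol t ht)⟩

theorem pb1 (hh : 0 < h) (hr : r + h * ‖v‖ ≤ R) (hw : Cl I (ball x₀ R) w wt)
    (hj : PB α I (ball x₀ R) (fun t => jet (w t)) K K) :
    PB α I (ball x₀ r) (fun t => fderiv ℝ (dq v h (w t))) (K * ‖v‖) (K * ‖v‖) := by
  refine ⟨(cl_dq hh hr hw).cj.snd.fst, fun t ht x hx => ?_, fun t ht => ?_⟩
  · rw [fderiv_dq hh hr (hw.c2 t ht) x hx]
    exact norm_dq_le hh (d2 (hw.c2 t ht)) (fun _ hτ => add_smul_mem_ball hr hx hτ)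
      (hj.snd.snd.sup t ht)
  · exact (Hol.dq hh (d2 (hw.c2 t ht)) (fun _ hx _ hτ => add_smul_mem_ball hr hx hτ)
      (hj.snd.snd.hol t ht)).congr fun x hx => (fderiv_dq hh hr (hw.c2 t ht) x hx).symm

theorem hol_dq {F : Type} [NormedAddCommGroup F] [NormedSpace ℝ F] {f : E → F} (hh : 0 < h)
    (hr : r + h * ‖v‖ ≤ R) (hf : Hol α K f (ball x₀ R)) :
    Hol α (h⁻¹ * (K + K)) (dq v h f) (ball x₀ r) := fun x hx y hy => by
  have h1 : Hol α K (fun x => f (x + h • v)) (ball x₀ r) := fun x hx y hy => by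
    simpa using hf _ (sh hh hr hx) _ (sh hh hr hy)
  unfold dq
  rw [← smul_sub, norm_smul, norm_inv, Real.norm_of_nonneg hh.le, mul_assoc]
  exact mul_le_mul_of_nonneg_left (h1.sub (hf.mono (sub hh hr)) x hx y hy) (by positivity)

theorem fd_app {u : E → ℝ} (hw : ContDiffOn ℝ 2 u (ball x₀ R)) {x : E} (hx : x ∈ ball x₀ R) :
    HasFDerivAt (fun x => fderiv ℝ u x v) (D2 u x v) x := by
  refine ((d2 hw x hx).hasFDerivAt.clm_apply (hasFDerivAt_const v x)).congr_fderiv ?_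
  ext y
  simpa using ((hw.contDiffAt (isOpen_ball.mem_nhds hx)).isSymmSndFDerivAt (by simp)).eq y v

/-- the limit of the difference quotients, uniformly in time -/
theorem lim {C : ℝ} (hα : 0 < α) (hT : 0 ≤ T) (hC : 0 ≤ C) (hh : 0 < h) (hr : r + h * ‖v‖ ≤ R)
    {R' : ℝ} (hR : R + h * ‖v‖ ≤ R') (hw : Cl (Icc 0 T) (ball x₀ R') w wt)
    (hf : ∀ k : ℕ, PB α (Icc 0 T) (ball x₀ R) (fun t => dq v (h / 2 ^ k) (D2 (w t))) C C) :
    ∃ Z : ℝ → E → Bil E, PB α (Icc 0 T) (ball x₀ r) Z C C ∧ ∀ t ∈ Icc 0 T, ∀ x ∈ ball x₀ r,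
      HasFDerivAt (fun x => D2 (w t) x v) (Z t x) x := by
  let f : E → C(Icc 0 T, Bil E) := fun x => ContinuousMap.mkD (fun t => D2 (w t) x) 0
  have hk : ∀ k : ℕ, h / 2 ^ k ∈ Icc 0 h := fun k =>
    ⟨by positivity, div_le_self hh.le (one_le_pow₀ (by norm_num))⟩
  have e0 : ∀ x ∈ ball x₀ R', ∀ t, f x t = D2 (w t) x := fun x hx t =>
    ContinuousMap.mkD_apply_of_continuous (hw.cj.snd.snd.comp_continuous
      (f := fun t : Icc 0 T => ((t : ℝ), x)) (by fun_prop) fun t => ⟨t.2, hx⟩)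
  have e1 : ∀ (k : ℕ), ∀ x ∈ ball x₀ R, ∀ t, dq v (h / 2 ^ k) f x t =
      dq v (h / 2 ^ k) (D2 (w t)) x := fun k x hx t => by
    simp only [dq, ContinuousMap.smul_apply, ContinuousMap.sub_apply,
      e0 _ (add_smul_mem_ball hR hx (hk k)), e0 _ (sub hh hR hx)]
  have h1 : ∀ k : ℕ, Hol α C (dq v (h / 2 ^ k) f) (ball x₀ R) := fun k x hx y hy => by
    rw [ContinuousMap.norm_le _ (by positivity)]
    intro t
    rw [ContinuousMap.sub_apply, e1 k x hx, e1 k y hy]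
    exact (hf k).hol t t.2 x hx y hy
  obtain ⟨Z, hZ⟩ := dyadic_tendsto hα hh (sub hh hr) (fun x hx k => add_smul_mem_ball hr hx (hk k)) h1
  have h2 : Hol α C Z (ball x₀ r) :=
    Hol.of_tendsto (fun k => (h1 k).mono (sub hh hr)) fun x hx => hZ.tendsto_at hx
  have h3 : ∀ t : Icc 0 T, TendstoUniformlyOn (fun k : ℕ => dq v (h / 2 ^ k) (D2 (w t)))
      (fun x => Z x t) atTop (ball x₀ r) := fun t =>
    ((ContinuousMap.evalCLM ℝ t : C(Icc 0 T, Bil E) →L[ℝ] Bil E).uniformContinuous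
      |>.comp_tendstoUniformlyOn hZ).congr
      (Eventually.of_forall fun k x hx => e1 k x (sub hh hr hx) t)
  refine ⟨fun t x => Z x (projIcc 0 T hT t), ⟨?_, fun t ht x hx => ?_, fun t ht x hx y hy => ?_⟩,
    fun t ht x hx => ?_⟩
  · exact continuous_eval.comp_continuousOn
      (((h2.continuousOn hα).comp continuousOn_snd fun q hq => hq.2).prodMk
        ((continuous_projIcc (h := hT)).comp continuous_fst).continuousOn)
  · exact le_of_tendsto' ((h3 _).tendsto_at hx).norm fun k =>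
      (hf k).sup _ (projIcc 0 T hT t).2 x (sub hh hr hx)
  · exact ((Z x - Z y).norm_coe_le_norm _).trans (h2 x hx y hy)
  · have hd := d2 (hw.c2 t ht)
    have hs := (sub hh hr).trans (sub (x₀ := x₀) hh hR)
    simp only [projIcc_of_mem hT ht]
    exact hasFDerivAt_of_tendstoUniformlyOn (f := fun k : ℕ => dq v (h / 2 ^ k) (fderiv ℝ (w t)))
      isOpen_ball (h3 ⟨t, ht⟩) (fun k y hy => hasFDerivAt_dq (hd y (hs hy))
        (hd _ (add_smul_mem_ball hR (sub hh hr hy) (hk k))))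
      (fun y hy => tendsto_dq hh (hd y (hs hy))) hx

end Dq

open Dq in
/-- **DQ** -/
theorem dq_of (H : INT0 E) : DQ E := by
  intro α T l L K r h₀ x₀ v w wt A hα hα1 hT hl hr hh hv hw h0 hj hA hε
  obtain ⟨ε, ε0, H⟩ := H α hα hα1 l L hl
  obtain ⟨τ, τ0, hτ⟩ := hε ε ε0
  obtain ⟨C, C0, H⟩ := H τ r K τ0 hr
  have K0 : 0 ≤ K := (norm_nonneg _).trans (hj.sup 0 ⟨le_rfl, hT⟩ x₀ (mem_ball_self (by linarith)))
  have v0 := norm_nonneg v
  have M0 : 0 ≤ K * ‖v‖ := by positivity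
  have key : ∀ h ∈ Ioc 0 h₀, PB α (Icc 0 T) (ball x₀ (r / 2)) (fun t => dq v h (D2 (w t)))
      (C * (K + K * ‖v‖)) (C * (K + K * ‖v‖)) := fun h hm => by
    have hh := hm.1
    have hR : r + h * ‖v‖ ≤ 2 * r := by nlinarith [mul_le_mul_of_nonneg_right hm.2 v0]
    have e : ∀ t ∈ Icc 0 T, ∀ x ∈ ball x₀ r, D2 (dq v h (w t)) x = dq v h (D2 (w t)) x :=
      fun t ht => D2_dq hh hR (hw.c2 t ht)
    refine (H T _ x₀ (A h) _ _ hT (by positivity) (cl_dq hh hR hw) (fun x hx => ?_) (hA h hm).1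
      (hA h hm).2.1 (hτ h hm) (((hA h hm).2.2.congr fun t ht x hx => ?_).mono (by linarith)
        (by linarith)) ((pb0 hh hR hw hj).mono (by linarith) (by linarith))
      ((pb1 hh hR hw hj).mono (by linarith) (by linarith))
      ⟨_, fun t ht => (hol_dq hh hR (hj.snd.snd.hol t ht)).congr fun x hx =>
        (e t ht x hx).symm⟩).congr fun t ht x hx => e t ht x (ball_subset_ball (by linarith) hx)
    · simp [dq, h0 _ (sh hh hR hx), h0 _ (sub hh hR hx)]
    · rw [e t ht x hx]; rfl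
  obtain ⟨Z, hZ, hd⟩ := lim (h := h₀ / 4) (r := r / 4) (R := r / 2) hα hT (by positivity)
    (by positivity) (by linarith) (by linarith) hw fun k => key _ ⟨by positivity,
      (div_le_self (by positivity) (one_le_pow₀ (by norm_num))).trans (by linarith)⟩
  have hs : ball x₀ (r / 4) ⊆ ball x₀ (2 * r) := ball_subset_ball (by linarith)
  have hj' := hj.mono_set subset_rfl hs
  have e1 : ∀ t ∈ Icc 0 T, ∀ x ∈ ball x₀ (r / 4), HasFDerivAt (fun x => fderiv ℝ (w t) x v)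
      (D2 (w t) x v) x := fun t ht x hx => fd_app (hw.c2 t ht) (hs hx)
  have e2 : ∀ t ∈ Icc 0 T, ∀ x ∈ ball x₀ (r / 4),
      HasFDerivAt (fderiv ℝ fun x => fderiv ℝ (w t) x v) (Z t x) x := fun t ht x hx =>
    (hd t ht x hx).congr_of_eventuallyEq
      (mem_of_superset (isOpen_ball.mem_nhds hx) fun y hy => (e1 t ht y hy).fderiv)
  exact ⟨(hj'.snd.fst.clm (ContinuousLinearMap.apply ℝ ℝ v)).th isOpen_ball,
    fun t ht x hx => (e1 t ht x hx).differentiableAt,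
    ((hj'.snd.snd.clm (ContinuousLinearMap.apply ℝ (E →L[ℝ] ℝ) v)).congr fun t ht x hx =>
      (e1 t ht x hx).fderiv.symm).th isOpen_ball,
    fun t ht x hx => (e2 t ht x hx).differentiableAt,
    (hZ.congr fun t ht x hx => (e2 t ht x hx).fderiv.symm).th isOpen_ball⟩

end Vale.Agent.P253W.FP
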