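import Vale.Agent.P253W.FP.Defs

/-!
# P253W, block FP: algebra of the bounds `PB`
-/

set_option maxSynthPendingDepth 3
set_option linter.unusedSectionVars false

open Set Metric Filter Topology
open Vale.Agent.P272.K.R (Hol Bil D2)
open Vale.Agent.P272.K.LIN (Jet jet)

noncomputable section

namespace Vale.Agent.P253W.FP

variable {E : Type} [NormedAddCommGroup E] [NormedSpace ℝ E]
variable {F G H : Type} [NormedAddCommGroup F] [NormedAddCommGroup G] [NormedAddCommGroup H]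
variable {α : ℝ} {I J : Set ℝ} {s s' : Set E} {f g : ℝ → E → F} {A B A' B' : ℝ}

theorem PB.mono (h : PB α I s f A B) (hA : A ≤ A') (hB : B ≤ B') : PB α I s f A' B' :=
  ⟨h.cont, fun t ht x hx => (h.sup t ht x hx).trans hA, fun t ht => (h.hol t ht).mono_const hB⟩

theorem PB.mono_set (h : PB α I s f A B) (hI : J ⊆ I) (hs : s' ⊆ s) : PB α J s' f A B :=
  ⟨h.cont.mono (prod_mono hI hs), fun t ht x hx => h.sup t (hI ht) x (hs hx),
    fun t ht => (h.hol t (hI ht)).mono hs⟩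

theorem PB.congr (h : PB α I s f A B) (hfg : ∀ t ∈ I, ∀ x ∈ s, f t x = g t x) :
    PB α I s g A B :=
  ⟨h.cont.congr fun q hq => (hfg q.1 hq.1 q.2 hq.2).symm,
    fun t ht x hx => hfg t ht x hx ▸ h.sup t ht x hx,
    fun t ht => (h.hol t ht).congr (hfg t ht)⟩

theorem PB.const (α : ℝ) (I : Set ℝ) (s : Set E) (c : F) : PB α I s (fun _ _ => c) ‖c‖ 0 :=
  ⟨continuousOn_const, fun _ _ _ _ => le_rfl, fun _ _ => Vale.Agent.P272.K.R.hol_const _ _ _⟩

theorem PB.zero (α : ℝ) (I : Set ℝ) (s : Set E) : PB α I s (fun _ _ => (0 : F)) 0 0 := by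
  simpa using PB.const α I s (0 : F)

theorem PB.add (h : PB α I s f A B) (h' : PB α I s g A' B') :
    PB α I s (fun t x => f t x + g t x) (A + A') (B + B') :=
  ⟨h.cont.add h'.cont, fun t ht x hx =>
    (norm_add_le _ _).trans (add_le_add (h.sup t ht x hx) (h'.sup t ht x hx)),
    fun t ht => (h.hol t ht).add (h'.hol t ht)⟩

theorem PB.neg (h : PB α I s f A B) : PB α I s (fun t x => -f t x) A B :=
  ⟨h.cont.neg, fun t ht x hx => by rw [norm_neg]; exact h.sup t ht x hx,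
    fun t ht => (h.hol t ht).neg⟩

theorem PB.sub (h : PB α I s f A B) (h' : PB α I s g A' B') :
    PB α I s (fun t x => f t x - g t x) (A + A') (B + B') := by
  simpa [sub_eq_add_neg] using h.add h'.neg

theorem PB.sum {ι : Type*} (S : Finset ι) {f : ι → ℝ → E → F}
    (h : ∀ i ∈ S, PB α I s (f i) A B) :
    PB α I s (fun t x => ∑ i ∈ S, f i t x) (S.card * A) (S.card * B) := by
  classical
  induction S using Finset.induction_on with
  | empty => simpa using PB.zero (F := F) α I s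
  | insert i S hi ih =>
    have h1 := (h i (by simp)).add (ih fun j hj => h j (by simp [hj]))
    simp only [Finset.sum_insert hi, Finset.card_insert_of_notMem hi]
    refine h1.mono (le_of_eq ?_) (le_of_eq ?_) <;> push_cast <;> ring

theorem PB.prod {g : ℝ → E → G} (h : PB α I s f A B) (h' : PB α I s g A B) :
    PB α I s (fun t x => (f t x, g t x)) A B :=
  ⟨h.cont.prodMk h'.cont, fun t ht x hx => by
    rw [Prod.norm_def]; exact max_le (h.sup t ht x hx) (h'.sup t ht x hx),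
    fun t ht x hx y hy => by
      rw [Prod.mk_sub_mk, Prod.norm_def]
      exact max_le (h.hol t ht x hx y hy) (h'.hol t ht x hx y hy)⟩

theorem PB.fst {f : ℝ → E → F × G} (h : PB α I s f A B) : PB α I s (fun t x => (f t x).1) A B :=
  ⟨continuous_fst.comp_continuousOn h.cont,
    fun t ht x hx => (norm_fst_le _).trans (h.sup t ht x hx),
    fun t ht x hx y hy => (norm_fst_le (f t x - f t y)).trans (h.hol t ht x hx y hy)⟩

theorem PB.snd {f : ℝ → E → F × G} (h : PB α I s f A B) : PB α I s (fun t x => (f t x).2) A B :=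
  ⟨continuous_snd.comp_continuousOn h.cont,
    fun t ht x hx => (norm_snd_le _).trans (h.sup t ht x hx),
    fun t ht x hx y hy => (norm_snd_le (f t x - f t y)).trans (h.hol t ht x hx y hy)⟩

/-- the jet from its three components -/
theorem PB.jet {w : ℝ → E → ℝ} (h0 : PB α I s w A B) (h1 : PB α I s (fun t => fderiv ℝ (w t)) A B)
    (h2 : PB α I s (fun t => D2 (w t)) A B) : PB α I s (fun t => jet (w t)) A B :=
  h0.prod (h1.prod h2)

variable [NormedSpace ℝ F] [NormedSpace ℝ G] [NormedSpace ℝ H]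

theorem PB.clm (L : F →L[ℝ] G) (h : PB α I s f A B) :
    PB α I s (fun t x => L (f t x)) (‖L‖ * A) (‖L‖ * B) :=
  ⟨L.continuous.comp_continuousOn h.cont, fun t ht x hx =>
    (L.le_opNorm _).trans (mul_le_mul_of_nonneg_left (h.sup t ht x hx) (norm_nonneg _)),
    fun t ht => (h.hol t ht).clm L⟩

theorem PB.bilin (L : F →L[ℝ] G →L[ℝ] H) {g : ℝ → E → G} (h : PB α I s f A B)
    (h' : PB α I s g A' B') :
    PB α I s (fun t x => L (f t x) (g t x)) (‖L‖ * (A * A')) (‖L‖ * (A * B' + A' * B)) :=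
  ⟨(L.continuous.comp_continuousOn h.cont).clm_apply h'.cont, fun t ht x hx => by
    refine (L.le_opNorm₂ _ _).trans ?_
    rw [mul_assoc]
    exact mul_le_mul_of_nonneg_left (mul_le_mul (h.sup t ht x hx) (h'.sup t ht x hx)
      (norm_nonneg _) ((norm_nonneg _).trans (h.sup t ht x hx))) (norm_nonneg _),
    fun t ht => (h.hol t ht).bilin L (h'.hol t ht) (h.sup t ht) (h'.sup t ht)⟩

theorem PB.const_smul (c : ℝ) (h : PB α I s f A B) :
    PB α I s (fun t x => c • f t x) (|c| * A) (|c| * B) :=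
  ⟨h.cont.const_smul c, fun t ht x hx => by
    rw [norm_smul, Real.norm_eq_abs]
    exact mul_le_mul_of_nonneg_left (h.sup t ht x hx) (abs_nonneg _),
    fun t ht x hx y hy => by
      rw [← smul_sub, norm_smul, Real.norm_eq_abs, mul_assoc]
      exact mul_le_mul_of_nonneg_left (h.hol t ht x hx y hy) (abs_nonneg _)⟩

/-- Hölder bound of `c x • f x` -/
theorem hol_smul {c : E → ℝ} {f : E → F} {a b a' b' : ℝ} (hc : Hol α b c s) (hf : Hol α b' f s)
    (hc0 : ∀ x ∈ s, ‖c x‖ ≤ a) (hf0 : ∀ x ∈ s, ‖f x‖ ≤ a') :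
    Hol α (a * b' + a' * b) (fun x => c x • f x) s := fun x hx y hy => by
  have e : c x • f x - c y • f y = c x • (f x - f y) + (c x - c y) • f y := by
    rw [smul_sub, sub_smul]; abel
  have ha : 0 ≤ a := (norm_nonneg _).trans (hc0 x hx)
  have h1 : ‖c x • (f x - f y)‖ ≤ a * (b' * ‖x - y‖ ^ α) := by
    rw [norm_smul]; exact mul_le_mul (hc0 x hx) (hf x hx y hy) (norm_nonneg _) ha
  have h2 : ‖(c x - c y) • f y‖ ≤ (b * ‖x - y‖ ^ α) * a' := by
    rw [norm_smul]
    exact mul_le_mul (hc x hx y hy) (hf0 y hy) (norm_nonneg _)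
      ((norm_nonneg _).trans (hc x hx y hy))
  rw [e]
  calc _ ≤ _ := norm_add_le _ _
    _ ≤ a * (b' * ‖x - y‖ ^ α) + (b * ‖x - y‖ ^ α) * a' := add_le_add h1 h2
    _ = _ := by ring

/-- Hölder bound of `c x (f x)` -/
theorem hol_app {c : E → F →L[ℝ] G} {f : E → F} {a b a' b' : ℝ} (hc : Hol α b c s)
    (hf : Hol α b' f s) (hc0 : ∀ x ∈ s, ‖c x‖ ≤ a) (hf0 : ∀ x ∈ s, ‖f x‖ ≤ a') :
    Hol α (a * b' + a' * b) (fun x => c x (f x)) s := fun x hx y hy => by
  have e : c x (f x) - c y (f y) = c x (f x - f y) + (c x - c y) (f y) := by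
    simp [map_sub]
  have ha : 0 ≤ a := (norm_nonneg _).trans (hc0 x hx)
  have h1 : ‖c x (f x - f y)‖ ≤ a * (b' * ‖x - y‖ ^ α) :=
    (ContinuousLinearMap.le_opNorm _ _).trans
      (mul_le_mul (hc0 x hx) (hf x hx y hy) (norm_nonneg _) ha)
  have h2 : ‖(c x - c y) (f y)‖ ≤ (b * ‖x - y‖ ^ α) * a' :=
    (ContinuousLinearMap.le_opNorm _ _).trans (mul_le_mul (hc x hx y hy) (hf0 y hy)
      (norm_nonneg _) ((norm_nonneg _).trans (hc x hx y hy)))
  rw [e]
  calc _ ≤ _ := norm_add_le _ _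
    _ ≤ a * (b' * ‖x - y‖ ^ α) + (b * ‖x - y‖ ^ α) * a' := add_le_add h1 h2
    _ = _ := by ring

theorem PB.smul {c : ℝ → E → ℝ} (hc : PB α I s c A B) (h : PB α I s f A' B') :
    PB α I s (fun t x => c t x • f t x) (A * A') (A * B' + A' * B) :=
  ⟨hc.cont.smul h.cont, fun t ht x hx => by
    rw [norm_smul]
    exact mul_le_mul (hc.sup t ht x hx) (h.sup t ht x hx) (norm_nonneg _)
      ((norm_nonneg _).trans (hc.sup t ht x hx)),
    fun t ht => hol_smul (hc.hol t ht) (h.hol t ht) (hc.sup t ht) (h.sup t ht)⟩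

theorem PB.mul {c f : ℝ → E → ℝ} (hc : PB α I s c A B) (h : PB α I s f A' B') :
    PB α I s (fun t x => c t x * f t x) (A * A') (A * B' + A' * B) := hc.smul h

theorem PB.app {c : ℝ → E → F →L[ℝ] G} (hc : PB α I s c A B) (h : PB α I s f A' B') :
    PB α I s (fun t x => c t x (f t x)) (A * A') (A * B' + A' * B) :=
  ⟨hc.cont.clm_apply h.cont, fun t ht x hx =>
    (ContinuousLinearMap.le_opNorm _ _).trans (mul_le_mul (hc.sup t ht x hx) (h.sup t ht x hx)
      (norm_nonneg _) ((norm_nonneg _).trans (hc.sup t ht x hx))),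
    fun t ht => hol_app (hc.hol t ht) (h.hol t ht) (hc.sup t ht) (h.sup t ht)⟩

omit [NormedSpace ℝ F] in
/-- a function of the space variable only -/
theorem PB.of_hol (hα : 0 < α) (I : Set ℝ) {f : E → F} (h0 : ∀ x ∈ s, ‖f x‖ ≤ A)
    (h1 : Hol α B f s) : PB α I s (fun _ => f) A B :=
  ⟨(h1.continuousOn hα).comp continuous_snd.continuousOn fun _ hq => hq.2,
    fun _ _ x hx => h0 x hx, fun _ _ => h1⟩

omit [NormedSpace ℝ E] [NormedSpace ℝ F] in
/-- Lipschitz functions are Hölder on bounded sets -/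
theorem hol_of_lip {f : E → F} {K D : ℝ} (hα : 0 < α) (hα1 : α ≤ 1) (hK : 0 ≤ K) (hD : 1 ≤ D)
    (hs : ∀ x ∈ s, ∀ y ∈ s, ‖x - y‖ ≤ D) (h : ∀ x ∈ s, ∀ y ∈ s, ‖f x - f y‖ ≤ K * ‖x - y‖) :
    Hol α (K * D) f s := fun x hx y hy => by
  refine (h x hx y hy).trans ?_
  rw [mul_assoc]
  refine mul_le_mul_of_nonneg_left ?_ hK
  rcases (norm_nonneg (x - y)).eq_or_lt with h0 | h0
  · rw [← h0, Real.zero_rpow hα.ne']; simp
  · calc ‖x - y‖ = ‖x - y‖ ^ (1 - α) * ‖x - y‖ ^ α := by rw [← Real.rpow_add h0]; simp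
      _ ≤ D * ‖x - y‖ ^ α := by
        refine mul_le_mul_of_nonneg_right ?_ (by positivity)
        calc ‖x - y‖ ^ (1 - α) ≤ D ^ (1 - α) :=
              Real.rpow_le_rpow h0.le (hs x hx y hy) (by linarith)
          _ ≤ D ^ (1 : ℝ) := Real.rpow_le_rpow_of_exponent_le hD (by linarith)
          _ = D := Real.rpow_one D

omit [NormedSpace ℝ E] in
theorem norm_sub_le_of_ball {x y p : E} {r : ℝ} (hx : x ∈ ball p r) (hy : y ∈ ball p r) :
    ‖x - y‖ ≤ 2 * r := by
  have h1 := mem_ball_iff_norm.1 hx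
  have h2 := mem_ball_iff_norm.1 hy
  calc ‖x - y‖ = ‖(x - p) - (y - p)‖ := by congr 1; abel
    _ ≤ ‖x - p‖ + ‖y - p‖ := norm_sub_le _ _
    _ ≤ 2 * r := by linarith

omit [NormedSpace ℝ F] in
/-- extension by zero -/
theorem PB.extend (hα : 0 ≤ α) (hA : 0 ≤ A) (hB : 0 ≤ B) {p : E} {ρ r : ℝ} (hρ : ρ < r)
    (h : PB α I (ball p r) f A B) (h0 : ∀ t ∈ I, ∀ x ∉ closedBall p ρ, f t x = 0) :
    PB α I univ f A B := by
  refine ⟨fun q hq => ?_, fun t ht x _ => ?_, fun t ht => (h.hol t ht).extend hα hB hρ (h0 t ht)⟩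
  · by_cases hx : q.2 ∈ ball p r
    · refine (h.cont q ⟨hq.1, hx⟩).mono_of_mem_nhdsWithin ?_
      filter_upwards [self_mem_nhdsWithin, mem_nhdsWithin_of_mem_nhds
        (continuous_snd.continuousAt.preimage_mem_nhds (isOpen_ball.mem_nhds hx))] with q' h1 h2
      exact ⟨h1.1, h2⟩
    · have hx' : q.2 ∉ closedBall p ρ := fun h' => hx (closedBall_subset_ball hρ h')
      refine (continuousWithinAt_const (b := (0 : F))).congr_of_eventuallyEq ?_ (h0 _ hq.1 _ hx')
      filter_upwards [self_mem_nhdsWithin, mem_nhdsWithin_of_mem_nhds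
        (continuous_snd.continuousAt.preimage_mem_nhds
          (isClosed_closedBall.isOpen_compl.mem_nhds hx'))] with q' h1 h2
      exact h0 _ h1.1 _ h2
  · by_cases hx : x ∈ ball p r
    · exact h.sup t ht x hx
    · rw [h0 t ht x fun h' => hx (closedBall_subset_ball hρ h'), norm_zero]; exact hA

theorem Cl.mono {U V : Set E} {w wt : ℝ → E → ℝ} (h : Cl I U w wt) (hI : J ⊆ I) (hV : V ⊆ U) :
    Cl J V w wt :=
  ⟨fun t ht => (h.c2 t (hI ht)).mono hV, h.cj.mono (prod_mono hI hV),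
    fun t ht x hx => (h.dt t (hI ht) x (hV hx)).mono hI⟩

theorem Cl.congr {U : Set E} {w w' wt wt' : ℝ → E → ℝ} (h : Cl I U w wt) (hU : IsOpen U)
    (h0 : ∀ t ∈ I, ∀ x ∈ U, w t x = w' t x) (h1 : ∀ t ∈ I, ∀ x ∈ U, wt t x = wt' t x) :
    Cl I U w' wt' := by
  refine ⟨fun t ht => (h.c2 t ht).congr fun x hx => (h0 t ht x hx).symm,
    h.cj.congr fun q hq => ?_, fun t ht x hx => ?_⟩
  · refine Vale.Agent.P272.K.LIN.jet_congr ?_
    filter_upwards [hU.mem_nhds hq.2] with y hy using (h0 q.1 hq.1 y hy).symm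
  · rw [← h1 t ht x hx]
    exact (h.dt t ht x hx).congr (fun s hs => (h0 s hs x hx).symm) (h0 t ht x hx).symm

theorem j2_apply (b : Bil E) : (j2 b : Jet E) = (0, 0, b) := rfl

theorem norm_j2_apply (b : Bil E) : ‖(j2 b : Jet E)‖ = ‖b‖ := by
  simp [j2_apply, Prod.norm_def]

theorem norm_comp_j2_le (T : Jet E →L[ℝ] ℝ) : ‖T.comp j2‖ ≤ ‖T‖ := by
  refine ContinuousLinearMap.opNorm_le_bound _ (norm_nonneg _) fun b => ?_
  rw [← norm_j2_apply b]
  exact T.le_opNorm _

theorem jet_add {f g : E → ℝ} {y : E} (hf : ContDiffAt ℝ 2 f y) (hg : ContDiffAt ℝ 2 g y) :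
    jet (fun z => f z + g z) y = jet f y + jet g y := by
  have hf1 : ∀ᶠ z in 𝓝 y, DifferentiableAt ℝ f z :=
    (hf.eventually (by simp)).mono fun z hz => hz.differentiableAt (by norm_num)
  have hg1 : ∀ᶠ z in 𝓝 y, DifferentiableAt ℝ g z :=
    (hg.eventually (by simp)).mono fun z hz => hz.differentiableAt (by norm_num)
  have e1 : fderiv ℝ (fun z => f z + g z) =ᶠ[𝓝 y] fun z => fderiv ℝ f z + fderiv ℝ g z := by
    filter_upwards [hf1, hg1] with z h1 h2 using fderiv_fun_add h1 h2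
  have hf2 := (hf.fderiv_right (m := 1) (by norm_num)).differentiableAt (by norm_num)
  have hg2 := (hg.fderiv_right (m := 1) (by norm_num)).differentiableAt (by norm_num)
  unfold jet
  rw [e1.fderiv_eq, fderiv_fun_add hf2 hg2, e1.self_of_nhds]
  rfl

theorem jet_const_mul (c : ℝ) {f : E → ℝ} {y : E} (hf : ContDiffAt ℝ 2 f y) :
    jet (fun z => c * f z) y = c • jet f y := by
  have hf1 : ∀ᶠ z in 𝓝 y, DifferentiableAt ℝ f z :=
    (hf.eventually (by simp)).mono fun z hz => hz.differentiableAt (by norm_num)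
  have e1 : fderiv ℝ (fun z => c * f z) =ᶠ[𝓝 y] fun z => c • fderiv ℝ f z := by
    filter_upwards [hf1] with z h1 using fderiv_const_mul h1 c
  have hf2 := (hf.fderiv_right (m := 1) (by norm_num)).differentiableAt (by norm_num)
  unfold jet
  rw [e1.fderiv_eq, fderiv_fun_const_smul hf2, e1.self_of_nhds]
  rfl

theorem jet_zero (y : E) : jet (fun _ : E => (0 : ℝ)) y = 0 := by
  unfold jet
  have : fderiv ℝ (fun _ : E => (0 : ℝ)) = fun _ => 0 := by ext1 z; simp
  rw [this]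
  simp

theorem jet_sum {ι : Type*} (S : Finset ι) {f : ι → E → ℝ} {y : E}
    (hf : ∀ i ∈ S, ContDiffAt ℝ 2 (f i) y) :
    jet (fun z => ∑ i ∈ S, f i z) y = ∑ i ∈ S, jet (f i) y := by
  classical
  induction S using Finset.induction_on with
  | empty => simpa using jet_zero y
  | insert i S hi ih =>
    simp only [Finset.sum_insert hi]
    rw [jet_add (hf i (by simp)) (ContDiffAt.sum fun j hj => hf j (by simp [hj])),
      ih fun j hj => hf j (by simp [hj])]

end Vale.Agent.P253W.FP
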