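import Vale.Agent.P253W.FP.HDefs
import Vale.Agent.P253W.FP.Pb
import Vale.Agent.P272.K.V.LinAlg

/-!
# P253W, block FP, row DUH: the solution operator for constant coefficients
-/

set_option maxSynthPendingDepth 3
set_option linter.unusedSectionVars false

open Set Metric Filter Topology MeasureTheory Module
open Vale.Agent.P272.K.H
open Vale.Agent.P272.K.R (Hol Bil D2)

noncomputable section

namespace Vale.Agent.P253W.FP

namespace Duh

variable {E P F G : Type} [NormedAddCommGroup E] [NormedSpace ℝ E] [NormedAddCommGroup P]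
  [NormedAddCommGroup F] [NormedSpace ℝ F] [NormedAddCommGroup G] [NormedSpace ℝ G]
  {α A B K T t : ℝ} {I : Set ℝ}

theorem cont_comp [NormedSpace ℝ P] {f : ℝ → P → F} (S : E →L[ℝ] P)
    (h : ContinuousOn (fun q : ℝ × P => f q.1 q.2) (I ×ˢ univ)) :
    ContinuousOn (fun q : ℝ × E => f q.1 (S q.2)) (I ×ˢ univ) :=
  h.comp (f := fun q : ℝ × E => (q.1, S q.2)) (by fun_prop) fun _ hq => ⟨hq.1, trivial⟩

theorem pb_comp [NormedSpace ℝ P] {f : ℝ → P → F} (h : PB α I univ f A B) (h0 : 0 ≤ α) (h1 : α ≤ 1)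
    (hB : 0 ≤ B) (hK : 1 ≤ K) (S : E →L[ℝ] P) (hS : ‖S‖ ≤ K) (L : F →L[ℝ] G) {c : ℝ} (hc : 0 ≤ c)
    (hL : ∀ z, ‖L z‖ ≤ c * ‖z‖) :
    PB α I univ (fun t x => L (f t (S x))) (c * A) (c * (K * B)) := by
  refine ⟨L.continuous.comp_continuousOn (cont_comp S h.cont), fun t ht x _ => (hL _).trans
    (mul_le_mul_of_nonneg_left (h.sup t ht _ trivial) hc), fun t ht x _ y _ => ?_⟩
  rw [← map_sub, mul_assoc, mul_comm K, mul_assoc]
  refine (hL _).trans (mul_le_mul_of_nonneg_left ((h.hol t ht _ trivial _ trivial).trans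
    (mul_le_mul_of_nonneg_left ?_ hB)) hc)
  rw [← map_sub]
  refine (Real.rpow_le_rpow (norm_nonneg _) (S.le_of_opNorm_le hS _) h0).trans ?_
  rw [Real.mul_rpow (by linarith) (norm_nonneg _)]
  exact mul_le_mul_of_nonneg_right (Real.rpow_le_self_of_one_le hK h1) (by positivity)

theorem cont_t {f : ℝ → P → F} (hc : ContinuousOn (fun q : ℝ × P => f q.1 q.2) (I ×ˢ univ))
    (ht : t ∈ I) : Continuous (f t) :=
  hc.comp_continuous (f := fun y => (t, y)) (by fun_prop) fun _ => ⟨ht, trivial⟩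

/-- the model space -/
abbrev Eu (E : Type) [AddCommGroup E] [Module ℝ E] := EuclideanSpace ℝ (Fin (finrank ℝ E))

section euclid

variable [InnerProductSpace ℝ P] [FiniteDimensional ℝ P] [MeasurableSpace P] [BorelSpace P]
  {f g : ℝ → P → ℝ} {k : P → ℝ}

theorem mem_I (ht : t ∈ Icc 0 T) {s : ℝ} (hs : s ∈ Icc 0 √t) : t - s ^ 2 ∈ Icc 0 T :=
  ⟨sub_nonneg.2 ((Real.le_sqrt hs.1 ht.1).1 hs.2), by linarith [ht.2, sq_nonneg s]⟩

theorem int_duh (hk : Kern k) (hc : ContinuousOn (fun q : ℝ × P => f q.1 q.2) (Icc 0 T ×ˢ univ))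
    (hs : ∀ t ∈ Icc 0 T, ∀ x, ‖f t x‖ ≤ A) (ht : t ∈ Icc 0 T) (x : P) :
    IntegrableOn (fun s => (2 * s ^ (1 : ℝ)) • avg k s (f (t - s ^ 2)) x) (Ioc 0 √t) := by
  refine (ContinuousOn.integrableOn_Icc (ContinuousOn.smul
    (continuous_const.mul (Real.continuous_rpow_const zero_le_one)).continuousOn
    (continuousOn_of_dominated (fun s a => (integrable_avg hk (cont_t hc (mem_I ht a))
      (hs _ (mem_I ht a)) s x).1) (fun s a => .of_forall fun z => ?_) (hk.integrable.norm.const_mul A)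
      (.of_forall fun z => ?_)))).mono_set Ioc_subset_Icc_self
  · rw [norm_smul]
    exact mul_le_mul_of_nonneg_right (hs _ (mem_I ht a) _) (norm_nonneg _)
  · exact (hc.comp (f := fun s : ℝ => (t - s ^ 2, x - s • z)) (by fun_prop)
      fun s a => ⟨mem_I ht a, trivial⟩).smul continuousOn_const

theorem duh_lin (hk : Kern k) (c : ℝ)
    (hc : ContinuousOn (fun q : ℝ × P => f q.1 q.2) (Icc 0 T ×ˢ univ))
    (hs : ∀ t ∈ Icc 0 T, ∀ x, ‖f t x‖ ≤ A)
    (hc' : ContinuousOn (fun q : ℝ × P => g q.1 q.2) (Icc 0 T ×ˢ univ))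
    (hs' : ∀ t ∈ Icc 0 T, ∀ x, ‖g t x‖ ≤ B) (ht : t ∈ Icc 0 T) (x : P) :
    duh k 1 (fun s y => f s y + c * g s y) t x = duh k 1 f t x + c * duh k 1 g t x := by
  rw [duh, duh, duh, ← integral_const_mul, ← integral_add (int_duh hk hc hs ht x)
    ((int_duh hk hc' hs' ht x).const_mul c)]
  refine setIntegral_congr_fun measurableSet_Ioc fun s a => ?_
  have m := mem_I ht (Ioc_subset_Icc_self a)
  have : avg k s (fun y => f (t - s ^ 2) y + c * g (t - s ^ 2) y) x =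
      avg k s (f (t - s ^ 2)) x + c * avg k s (g (t - s ^ 2)) x := by
    rw [avg, avg, avg, ← integral_const_mul, ← integral_add (integrable_avg hk (cont_t hc m) (hs _ m)
      s x) ((integrable_avg hk (cont_t hc' m) (hs' _ m) s x).const_mul c)]
    simp only [smul_eq_mul, add_mul, mul_assoc]
  simp only [this, smul_eq_mul]
  ring

end euclid

variable [FiniteDimensional ℝ E]

/-- a frame with uniform bounds -/
theorem frame {l L : ℝ} (hl : 0 < l) : ∃ K : ℝ, 1 ≤ K ∧ ∀ B : Bil E →L[ℝ] ℝ, Ell l L B →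
    ∃ S : E ≃L[ℝ] Eu E, ‖(S : E →L[ℝ] Eu E)‖ ≤ K ∧
      ‖(S.symm : Eu E →L[ℝ] E)‖ ≤ K ∧ ∀ b : Bil E, (∀ x y, b x y = b y x) →
        B b = ∑ i, b (S.symm (EuclideanSpace.basisFun _ ℝ i))
          (S.symm (EuclideanSpace.basisFun _ ℝ i)) := by
  refine ⟨1 + |L| + l⁻¹, by linarith [abs_nonneg L, inv_pos.2 hl], fun B hB => ?_⟩
  obtain ⟨w, hw⟩ := P272.K.V.exists_frame B fun ξ h =>
    (mul_pos hl (pow_pos (norm_pos_iff.2 h) 2)).trans_le (hB.2 ξ)
  let e := EuclideanSpace.basisFun (Fin (finrank ℝ E)) ℝ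
  let S := (w.equiv e.toBasis (Equiv.refl _)).toContinuousLinearEquiv
  have hT : ∀ i, S.symm (e i) = w i := fun i =>
    S.symm_apply_eq.2 (w.equiv_apply i e.toBasis (Equiv.refl _)).symm
  have key : ∀ ξ : E →L[ℝ] ℝ, B (ξ.smulRight ξ) = ‖ξ.comp (S.symm : Eu E →L[ℝ] E)‖ ^ 2 := fun ξ => by
    rw [hw _ fun x y => by simp [mul_comm], e.norm_dual]
    simp [hT, sq]
  have hi := inv_pos.2 hl
  have hL := abs_nonneg L
  refine ⟨S, ContinuousLinearMap.opNorm_le_bound _ (by positivity) fun x => ?_,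
    ContinuousLinearMap.opNorm_le_bound _ (by positivity) fun y => ?_, fun b h => by
      simpa only [← hT] using hw b h⟩
  · have h1 := hB.2 ((innerSL ℝ (S x)).comp (S : E →L[ℝ] Eu E))
    have h2 := ((innerSL ℝ (S x)).comp (S : E →L[ℝ] Eu E)).le_opNorm x
    rw [key, ContinuousLinearMap.comp_assoc, S.coe_comp_coe_symm, ContinuousLinearMap.comp_id,
      innerSL_apply_norm, ← le_inv_mul_iff₀ hl] at h1
    have h3 : ‖(innerSL ℝ (S x)).comp (S : E →L[ℝ] Eu E)‖ ≤ (1 + |L| + l⁻¹) * ‖S x‖ :=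
      abs_le_of_sq_le_sq' (h1.trans (by
        rw [mul_pow]; exact mul_le_mul_of_nonneg_right (by nlinarith) (sq_nonneg _))) (by positivity)
        |>.2
    have h4 : ‖S x‖ * ‖S x‖ ≤ ‖S x‖ * ((1 + |L| + l⁻¹) * ‖x‖) := by
      simp only [ContinuousLinearMap.comp_apply, ContinuousLinearEquiv.coe_coe, innerSL_apply_apply,
        real_inner_self_eq_norm_mul_norm, norm_mul, norm_norm] at h2
      nlinarith [mul_le_mul_of_nonneg_right h3 (norm_nonneg x)]
    rcases (norm_nonneg (S x)).eq_or_lt with h | h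
    · exact h.ge.trans (by positivity)
    · exact le_of_mul_le_mul_left h4 h
  · obtain ⟨ξ, h1, h2⟩ := exists_dual_vector'' ℝ (S.symm y)
    have h3 : ‖ξ.comp (S.symm : Eu E →L[ℝ] E)‖ ≤ 1 + |L| + l⁻¹ := by
      refine (abs_le_of_sq_le_sq' ?_ (by positivity)).2
      have := B.le_of_opNorm_le (hB.1.trans (le_abs_self L)) (ξ.smulRight ξ)
      rw [ContinuousLinearMap.norm_smulRight_apply, key] at this
      nlinarith [le_abs_self (‖ξ.comp (S.symm : Eu E →L[ℝ] E)‖ ^ 2), Real.norm_eq_abs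
        (‖ξ.comp (S.symm : Eu E →L[ℝ] E)‖ ^ 2), mul_le_mul_of_nonneg_left
          (mul_le_one₀ h1 (norm_nonneg _) h1) hL]
    simpa [h2] using (ξ.comp (S.symm : Eu E →L[ℝ] E)).le_of_opNorm_le h3 y

end Duh

open Duh

theorem duh_of {E : Type} [NormedAddCommGroup E] [NormedSpace ℝ E] [FiniteDimensional ℝ E]
    (ha : ∀ m, DUHa (EuclideanSpace ℝ (Fin m))) (hb : ∀ m, DUHb (EuclideanSpace ℝ (Fin m))) :
    DUH E := by
  intro α h0 h1 l L hl
  obtain ⟨C, hC, ha⟩ := ha (finrank ℝ E) α h0 h1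
  obtain ⟨K, hK, hS⟩ := frame (E := E) (L := L) hl
  have K0 : 0 ≤ K := by linarith
  refine ⟨(C + 1) * K ^ 4, by positivity, fun B hB => ?_⟩
  obtain ⟨S, n1, n2, hB⟩ := hS B hB
  refine ⟨fun f t x => duh (Gk q0) 1 (fun s y => f s (S.symm y)) t (S x),
    fun T c A A' A₁ A₁' f g hf hg t ht x => duh_lin (kern_Gk tg0) c
      (cont_comp (S.symm : Eu E →L[ℝ] E) hf.cont) (fun t a y => hf.sup t a _ trivial)
      (cont_comp (S.symm : Eu E →L[ℝ] E) hg.cont) (fun t a y => hg.sup t a _ trivial) ht _,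
    fun T A A' f hT hA' hf => ?_⟩
  have hA := (norm_nonneg _).trans (hf.sup 0 ⟨le_rfl, hT⟩ 0 trivial)
  have one : ∀ z : ℝ, ‖ContinuousLinearMap.id ℝ ℝ z‖ ≤ 1 * ‖z‖ := fun z => by simp
  have hg := pb_comp hf h0.le h1.le hA' hK _ n2 _ zero_le_one one
  rw [one_mul, one_mul] at hg
  obtain ⟨d, p0, p1, p2⟩ := ha T A _ _ hT (by positivity) hg
  set g : ℝ → Eu E → ℝ := fun s y => f s (S.symm y)
  let L1 := (ContinuousLinearMap.compL ℝ E _ ℝ).flip (S : E →L[ℝ] Eu E)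
  let L2 := (ContinuousLinearMap.compL ℝ E _ _ L1).comp
    ((ContinuousLinearMap.compL ℝ E _ _).flip (S : E →L[ℝ] Eu E))
  have b1 : ∀ z, ‖L1 z‖ ≤ K * ‖z‖ := fun z => (z.opNorm_comp_le _).trans
    (by rw [mul_comm]; exact mul_le_mul_of_nonneg_right n1 (norm_nonneg _))
  have b2 : ∀ z, ‖L2 z‖ ≤ K ^ 2 * ‖z‖ := fun z =>
    ContinuousLinearMap.opNorm_le_bound _ (by positivity) fun x => (b1 _).trans (by
      rw [sq, mul_assoc, mul_assoc, mul_left_comm K ‖z‖]
      exact mul_le_mul_of_nonneg_left ((z.le_opNorm _).trans (mul_le_mul_of_nonneg_left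
        ((S : E →L[ℝ] Eu E).le_of_opNorm_le n1 x) (norm_nonneg _))) K0)
  have e1 : ∀ t ∈ Icc 0 T, fderiv ℝ (fun x => duh (Gk q0) 1 g t (S x)) =
      fun x => L1 (duh (Gk q1) 0 g t (S x)) := fun t ht => funext fun x =>
    ((d t ht _).1.comp x S.hasFDerivAt).fderiv
  have e2 : ∀ t ∈ Icc 0 T, ∀ x, D2 (fun x => duh (Gk q0) 1 g t (S x)) x =
      L2 (duh (Gk q2) (-1) g t (S x)) := fun t ht x => by
    rw [D2, e1 t ht]
    exact (L1.hasFDerivAt.comp x ((d t ht _).2.comp x S.hasFDerivAt)).fderiv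
  have c2 : ∀ t ∈ Icc 0 T, ContDiff ℝ 2 fun x => duh (Gk q0) 1 g t (S x) := fun t ht =>
    (contDiff_succ_iff_hasFDerivAt.2 ⟨_, contDiff_succ_iff_hasFDerivAt.2 ⟨_, contDiff_zero.2
      (cont_t p2.cont ht), fun x => (d t ht x).2⟩, fun x => (d t ht x).1⟩).comp S.contDiff
  have q0 := pb_comp p0 h0.le h1.le (by positivity) hK _ n1 _ zero_le_one one
  have q1 := (pb_comp p1 h0.le h1.le (by positivity) hK _ n1 _ K0 b1).congr
    fun t ht x _ => (congrFun (e1 t ht) x).symm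
  have q2 := (pb_comp p2 h0.le h1.le (by positivity) hK _ n1 _ (by positivity) b2).congr
    fun t ht x _ => (e2 t ht x).symm
  have k : ∀ (i : ℕ) (c X : ℝ), i ≤ 4 → c ≤ C + 1 → 0 ≤ X → c * K ^ i * X ≤ (C + 1) * K ^ 4 * X :=
    fun i c X a b e => mul_le_mul_of_nonneg_right (mul_le_mul b (pow_le_pow_right₀ hK a)
      (by positivity) (by positivity)) e
  have := Real.rpow_nonneg hT (α / 2)
  refine ⟨fun x => by simp [duh], ⟨fun t ht => (c2 t ht).contDiffOn,
    q0.cont.prodMk (q1.cont.prodMk q2.cont), fun t ht x _ => ?_⟩,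
    q0.mono (by rw [one_mul]) ?_, q1.mono ?_ ?_, q2.mono ?_ ?_⟩
  · refine (hb _ α T A _ g _ (EuclideanSpace.basisFun _ ℝ) (S x) h0 h1 (by positivity) hg
      (p2.cont.comp (f := fun t => (t, S x)) (by fun_prop) fun _ a => ⟨a, trivial⟩) t
        ht).congr_deriv ?_
    rw [hB (D2 _ x) ((c2 t ht).contDiffAt.isSymmSndFDerivAt (by simp)).eq, e2 t ht, trL_apply]
    simp [g, L1, L2]
  · linarith [k 2 1 (T * A') (by norm_num) (by linarith) (by positivity)]
  · linarith [k 1 C (√T * A) (by norm_num) (by linarith) (by positivity)]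
  · linarith [k 3 C (√T * A') (by norm_num) (by linarith) (by positivity)]
  · linarith [k 3 C (T ^ (α / 2) * A') (by norm_num) (by linarith) (by positivity)]
  · linarith [k 4 C A' (by norm_num) (by linarith) (by positivity)]

end Vale.Agent.P253W.FP
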