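import Vale.Agent.P253W.FP.HDefs

/-!
# P253W, block FP: the time derivative of the integral of Duhamel (`DUHb`)
-/

set_option maxSynthPendingDepth 3

open Set Metric Filter Topology MeasureTheory
open Vale.Agent.P272.K.H

noncomputable section

namespace Vale.Agent.P253W.FP

namespace DuhB

theorem int_rpow {a b C : ℝ} (ha : 0 < a) (hb : 0 ≤ b) :
    IntegrableOn (fun s : ℝ => C * s ^ (a - 1)) (Ioc 0 b) := by
  have := (intervalIntegral.intervalIntegrable_rpow' (a := 0) (b := b)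
    (by linarith : -1 < a - 1)).const_mul C
  rwa [intervalIntegrable_iff_integrableOn_Ioc_of_le hb] at this

theorem inv_mul_le {F : Type*} [NormedAddCommGroup F] [NormedSpace ℝ F] {a C s : ℝ} {y : F}
    (hs : 0 < s) (h : ‖y‖ ≤ C * s ^ a) : ‖s⁻¹ • y‖ ≤ C * s ^ (a - 1) := by
  rw [norm_smul, norm_inv, Real.norm_of_nonneg hs.le, Real.rpow_sub hs, Real.rpow_one,
    ← mul_div_assoc, div_eq_inv_mul]
  exact mul_le_mul_of_nonneg_left h (inv_pos.2 hs).le

/-- Fubini on a subset of a rectangle -/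
theorem fub {K : ℝ × ℝ → ℝ} (hK : Measurable K) {S : Set (ℝ × ℝ)} (hS : MeasurableSet S)
    {g : ℝ → ℝ} {b t : ℝ} (hg : IntegrableOn g (Ioc 0 b))
    (hb : ∀ s r, 0 < s → ‖K (s, r)‖ ≤ g s) :
    ∫ s in Ioc 0 b, ∫ r in Ioc 0 t ∩ {r | (s, r) ∈ S}, K (s, r) =
      ∫ r in Ioc 0 t, ∫ s in Ioc 0 b ∩ {s | (s, r) ∈ S}, K (s, r) := by
  have hi : Integrable (S.indicator K)
      ((volume.restrict (Ioc (0 : ℝ) b)).prod (volume.restrict (Ioc (0 : ℝ) t))) := by
    refine Integrable.indicator ?_ hS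
    refine (Integrable.comp_fst hg _).mono' hK.aestronglyMeasurable ?_
    rw [Measure.prod_restrict]
    filter_upwards [ae_restrict_mem (measurableSet_Ioc.prod measurableSet_Ioc)] with p hp
    exact hb p.1 p.2 hp.1.1
  have h := integral_integral_swap (f := fun s r => S.indicator K (s, r)) hi
  have e1 : ∀ s : ℝ, ∫ r in Ioc 0 t, S.indicator K (s, r) =
      ∫ r in Ioc 0 t ∩ {r | (s, r) ∈ S}, K (s, r) := fun s =>
    setIntegral_indicator (f := fun r => K (s, r)) (measurable_prodMk_left hS)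
  have e2 : ∀ r : ℝ, ∫ s in Ioc 0 b, S.indicator K (s, r) =
      ∫ s in Ioc 0 b ∩ {s | (s, r) ∈ S}, K (s, r) := fun r =>
    setIntegral_indicator (f := fun s => K (s, r)) (measurable_prodMk_right hS)
  simpa only [e1, e2] using h

theorem inter_sqrt {t τ : ℝ} (h : τ ≤ t) (h0 : 0 ≤ τ) :
    Ioc 0 √t ∩ {s | s ^ 2 ≤ τ} = Ioc 0 √τ := by
  ext s
  simp only [mem_inter_iff, mem_Ioc, mem_ofPred_eq]
  constructor
  · rintro ⟨⟨h1, -⟩, h3⟩
    exact ⟨h1, Real.le_sqrt_of_sq_le h3⟩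
  · rintro ⟨h1, h2⟩
    exact ⟨⟨h1, h2.trans (Real.sqrt_le_sqrt h)⟩, (Real.le_sqrt h1.le h0).1 h2⟩

/-- the integrated form of the heat equation -/
theorem core {φ ψ : ℝ → ℝ → ℝ} (cφ : Continuous (Function.uncurry φ))
    (cψ : Continuous (Function.uncurry ψ)) {C a : ℝ} (ha : 0 < a)
    (hb : ∀ r s, 0 < s → ‖ψ r s‖ ≤ C * s ^ a)
    (hd : ∀ r s, 0 < s → HasDerivAt (φ r) (s⁻¹ * ψ r s) s) {t : ℝ} (ht : 0 ≤ t) :
    ∫ s in Ioc 0 √t, 2 * s * φ (t - s ^ 2) s =
      (∫ τ in Ioc 0 t, ∫ s in Ioc 0 √τ, s⁻¹ * ψ (τ - s ^ 2) s) + ∫ τ in Ioc 0 t, φ τ 0 := by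
  have hg := int_rpow (C := C) ha (Real.sqrt_nonneg t)
  have m1 : Measurable fun p : ℝ × ℝ => p.1⁻¹ * ψ (p.2 - p.1 ^ 2) p.1 :=
    measurable_fst.inv.mul (cψ.comp (f := fun p : ℝ × ℝ => (p.2 - p.1 ^ 2, p.1))
      (by fun_prop)).measurable
  have m2 : Measurable fun p : ℝ × ℝ => p.1⁻¹ * ψ p.2 p.1 :=
    measurable_fst.inv.mul (cψ.comp continuous_swap).measurable
  have f1 := fub (t := t) m1 (S := {p | p.1 ^ 2 ≤ p.2})
    (isClosed_le (by fun_prop) (by fun_prop)).measurableSet hg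
    fun s r hs => inv_mul_le hs (hb _ s hs)
  have f2 := fub (t := t) m2 (S := {p | p.1 ^ 2 ≤ t - p.2})
    (isClosed_le (by fun_prop) (by fun_prop)).measurableSet hg
    fun s r hs => inv_mul_le hs (hb _ s hs)
  simp only [mem_ofPred_eq] at f1 f2
  have e1 : ∫ τ in Ioc 0 t, ∫ s in Ioc 0 √τ, s⁻¹ * ψ (τ - s ^ 2) s =
      ∫ τ in Ioc 0 t, ∫ s in Ioc 0 √t ∩ {s | s ^ 2 ≤ τ}, s⁻¹ * ψ (τ - s ^ 2) s :=
    setIntegral_congr_fun measurableSet_Ioc fun τ hτ => by
      simp only [inter_sqrt hτ.2 hτ.1.le]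
  have e2 : ∫ s in Ioc 0 √t, ∫ r in Ioc 0 t ∩ {r | s ^ 2 ≤ r}, s⁻¹ * ψ (r - s ^ 2) s =
      ∫ s in Ioc 0 √t, ∫ r in Ioc 0 t ∩ {r | s ^ 2 ≤ t - r}, s⁻¹ * ψ r s := by
    refine setIntegral_congr_fun measurableSet_Ioc fun s hs => ?_
    have h1 : s ^ 2 ≤ t := (Real.le_sqrt hs.1.le ht).1 hs.2
    have h2 : 0 < s ^ 2 := pow_pos hs.1 2
    have h3 : Ioc 0 t ∩ {r | s ^ 2 ≤ r} = Icc (s ^ 2) t := by
      ext r
      simp only [mem_inter_iff, mem_Ioc, mem_ofPred_eq, mem_Icc]
      exact ⟨fun h => ⟨h.2, h.1.2⟩, fun h => ⟨⟨h2.trans_le h.1, h.2⟩, h.1⟩⟩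
    have h4 : Ioc 0 t ∩ {r | s ^ 2 ≤ t - r} = Ioc 0 (t - s ^ 2) := by
      ext r
      simp only [mem_inter_iff, mem_Ioc, mem_ofPred_eq]
      exact ⟨fun h => ⟨h.1.1, by linarith [h.2]⟩,
        fun h => ⟨⟨h.1, by linarith [h.2]⟩, by linarith [h.2]⟩⟩
    simp only [h3, h4]
    rw [integral_Icc_eq_integral_Ioc, ← intervalIntegral.integral_of_le h1,
      intervalIntegral.integral_comp_sub_right (fun r => s⁻¹ * ψ r s), sub_self,
      intervalIntegral.integral_of_le (by linarith)]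
  have e3 : ∫ r in Ioc 0 t, ∫ s in Ioc 0 √t ∩ {s | s ^ 2 ≤ t - r}, s⁻¹ * ψ r s =
      ∫ r in Ioc 0 t, (φ r √(t - r) - φ r 0) := by
    refine setIntegral_congr_fun measurableSet_Ioc fun r hr => ?_
    simp only [inter_sqrt (sub_le_self t hr.1.le) (sub_nonneg.2 hr.2)]
    have h0 := Real.sqrt_nonneg (t - r)
    have c1 : Continuous (φ r) := cφ.comp (Continuous.prodMk_right r)
    have c2 : Continuous (ψ r) := cψ.comp (Continuous.prodMk_right r)
    rw [← intervalIntegral.integral_of_le h0]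
    refine intervalIntegral.integral_eq_sub_of_hasDerivAt_of_le h0 c1.continuousOn
      (fun s hs => hd r s hs.1) ?_
    rw [intervalIntegrable_iff_integrableOn_Ioc_of_le h0]
    refine (int_rpow (C := C) ha h0).mono'
      (measurable_inv.mul c2.measurable).aestronglyMeasurable ?_
    filter_upwards [ae_restrict_mem measurableSet_Ioc] with s hs
    exact inv_mul_le hs.1 (hb _ s hs.1)
  have c3 : Continuous fun r => φ r √(t - r) :=
    cφ.comp (f := fun r => (r, √(t - r))) (by fun_prop)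
  have c4 : Continuous fun r => φ r 0 := cφ.comp (Continuous.prodMk_left 0)
  have e4 := intervalIntegral.integral_comp_mul_deriv (a := 0) (b := √t)
    (f := fun s => t - s ^ 2) (f' := fun s => -(2 * s)) (g := fun r => φ r √(t - r))
    (fun s _ => by simpa using (hasDerivAt_pow 2 s).const_sub t) (by fun_prop) c3
  rw [Real.sq_sqrt ht, sub_self, zero_pow two_ne_zero, sub_zero,
    intervalIntegral.integral_symm 0 t, intervalIntegral.integral_of_le ht,
    intervalIntegral.integral_of_le (Real.sqrt_nonneg t)] at e4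
  rw [e1, ← f1, e2, f2, e3, integral_sub c3.integrableOn_Ioc c4.integrableOn_Ioc, sub_add_cancel,
    ← neg_inj, ← e4, ← integral_neg]
  refine setIntegral_congr_fun measurableSet_Ioc fun s hs => ?_
  simp only [Function.comp_apply, sub_sub_cancel, Real.sqrt_sq hs.1.le]
  ring

/-- the fundamental theorem of calculus on a closed interval -/
theorem ftc {g u : ℝ → ℝ} {T t : ℝ} (hg : ContinuousOn g (Icc 0 T))
    (hu : ∀ s ∈ Icc 0 T, u s = ∫ τ in Ioc 0 s, g τ) (ht : t ∈ Icc 0 T) :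
    HasDerivWithinAt u (g t) (Icc 0 T) t := by
  have hT : (0 : ℝ) ≤ T := ht.1.trans ht.2
  have c : Continuous fun s => g (projIcc 0 T hT s) :=
    hg.comp_continuous (continuous_subtype_val.comp continuous_projIcc) fun s => (projIcc 0 T hT s).2
  have h := intervalIntegral.integral_hasDerivAt_right (c.intervalIntegrable 0 t)
    (c.stronglyMeasurableAtFilter _ _) c.continuousAt
  rw [projIcc_of_mem hT ht] at h
  refine h.hasDerivWithinAt.congr_of_mem (fun s hs => ?_) ht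
  rw [hu s hs, intervalIntegral.integral_of_le hs.1]
  refine setIntegral_congr_fun measurableSet_Ioc fun τ hτ => ?_
  simp only [projIcc_of_mem hT (⟨hτ.1.le, hτ.2.trans hs.2⟩ : τ ∈ Icc 0 T)]

variable {E : Type} [NormedAddCommGroup E] [InnerProductSpace ℝ E] [FiniteDimensional ℝ E]
  [MeasurableSpace E] [BorelSpace E]

theorem cont_avg {F : Type*} [NormedAddCommGroup F] [NormedSpace ℝ F] {k : E → F} (hk : Kern k)
    {g : ℝ → E → ℝ} (hg : Continuous (Function.uncurry g)) {A : ℝ} (hA : ∀ r y, |g r y| ≤ A)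
    (x : E) : Continuous (Function.uncurry fun r s => avg k s (g r) x) := by
  refine continuous_of_dominated (F := fun (p : ℝ × ℝ) z => g p.1 (x - p.2 • z) • k z)
    (bound := fun z => A * ‖k z‖) (fun p => ?_) (fun p => Eventually.of_forall fun z => ?_)
    (hk.integrable.norm.const_mul A) (Eventually.of_forall fun z => ?_)
  · exact (integrable_avg hk (hg.comp (Continuous.prodMk_right p.1)) (hA p.1) p.2
      x).aestronglyMeasurable
  · rw [norm_smul, Real.norm_eq_abs]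
    exact mul_le_mul_of_nonneg_right (hA _ _) (norm_nonneg _)
  · exact (hg.comp (f := fun p : ℝ × ℝ => (p.1, x - p.2 • z)) (by fun_prop)).smul continuous_const

theorem integral_kap {ι : Type} [Fintype ι] (b : OrthonormalBasis ι ℝ E) :
    ∫ z : E, kap z = 0 := by
  have h := (trL b).integral_comp_comm (kern_Gk (E := E) tg2).integrable
  simp only [trL_k2 b, integral_k2, map_zero, integral_const_mul] at h
  linarith

/-- the trace of the second order integral -/
theorem tr_duh {ι : Type} [Fintype ι] (b : OrthonormalBasis ι ℝ E) {g : ℝ → E → ℝ}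
    (hg : Continuous (Function.uncurry g)) {a A B : ℝ} (ha : 0 < a) (ha1 : a < 1)
    (hA : ∀ r y, |g r y| ≤ A) (hB : ∀ r, HolB a B (g r)) (t : ℝ) (x : E) :
    trL b (duh (Gk q2) (-1) g t x) = ∫ s in Ioc 0 √t, s⁻¹ * avg kap s (g (t - s ^ 2)) x := by
  have cg : ∀ r, Continuous (g r) := fun r => hg.comp (Continuous.prodMk_right r)
  have htr : ∀ r s, trL b (avg (Gk q2) s (g r) x) = 1 / 2 * avg kap s (g r) x := by
    intro r s
    unfold avg
    rw [← ContinuousLinearMap.integral_comp_comm _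
      (integrable_avg (kern_Gk tg2) (cg r) (hA r) s x), ← integral_const_mul]
    congr 1
    ext z
    rw [map_smul, trL_k2]
    simp only [smul_eq_mul]
    ring
  have c1 : Continuous fun s : ℝ => avg (Gk q2) s (g (t - s ^ 2)) x :=
    (cont_avg (kern_Gk tg2) hg hA x).comp (f := fun s : ℝ => (t - s ^ 2, s)) (by fun_prop)
  have hi : IntegrableOn (fun s : ℝ => s⁻¹ • avg (Gk q2) s (g (t - s ^ 2)) x) (Ioc 0 √t) := by
    refine (int_rpow (C := B * ∫ z : E, ‖z‖ ^ a * ‖Gk q2 z‖) ha (Real.sqrt_nonneg t)).mono'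
      (measurable_inv.aestronglyMeasurable.smul c1.aestronglyMeasurable) ?_
    filter_upwards [ae_restrict_mem measurableSet_Ioc] with s hs
    refine inv_mul_le hs.1 ?_
    have h := norm_avg_le_hol (kern_Gk tg2) integral_k2 (cg _) (hA (t - s ^ 2)) ha.le ha1.le
      (hB _) s x
    rw [abs_of_pos hs.1] at h
    linarith
  have e : duh (Gk q2) (-1) g t x =
      (2 : ℝ) • ∫ s in Ioc 0 √t, s⁻¹ • avg (Gk q2) s (g (t - s ^ 2)) x := by
    rw [duh, ← integral_smul]
    simp only [Real.rpow_neg_one, smul_smul]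
  rw [e, map_smul, ← ContinuousLinearMap.integral_comp_comm _ hi, smul_eq_mul,
    ← integral_const_mul]
  congr 1
  ext s
  rw [map_smul, htr, smul_eq_mul]
  ring

theorem duh_congr {F : Type} [NormedAddCommGroup F] [NormedSpace ℝ F] (k : E → F) (β : ℝ)
    {f g : ℝ → E → ℝ} {T t : ℝ} (h : ∀ r ∈ Icc 0 T, f r = g r) (ht : t ∈ Icc 0 T) (x : E) :
    duh k β f t x = duh k β g t x := by
  refine setIntegral_congr_fun measurableSet_Ioc fun s hs => ?_
  have h1 : s ^ 2 ≤ t := (Real.le_sqrt hs.1.le ht.1).1 hs.2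
  simp only [h (t - s ^ 2) ⟨sub_nonneg.2 h1, (sub_le_self t (sq_nonneg s)).trans ht.2⟩]

end DuhB

open DuhB in
/-- **DUHb** -/
theorem duhb (E : Type) [NormedAddCommGroup E] [InnerProductSpace ℝ E] [FiniteDimensional ℝ E]
    [MeasurableSpace E] [BorelSpace E] : DUHb E := by
  intro α T A A' f ι _ b x ha ha1 _ hf hc t ht
  have hT : (0 : ℝ) ≤ T := ht.1.trans ht.2
  set g : ℝ → E → ℝ := fun r => f (projIcc 0 T hT r) with hg
  have hfg : ∀ r ∈ Icc 0 T, f r = g r := fun r hr => by simp only [hg, projIcc_of_mem hT hr]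
  have cg : Continuous (Function.uncurry g) :=
    hf.cont.comp_continuous (f := fun q : ℝ × E => ((projIcc 0 T hT q.1 : ℝ), q.2))
      (((continuous_subtype_val.comp continuous_projIcc).comp continuous_fst).prodMk
        continuous_snd) fun q => ⟨(projIcc 0 T hT q.1).2, mem_univ _⟩
  have hA : ∀ r y, |g r y| ≤ A := fun r y => hf.sup _ (projIcc 0 T hT r).2 y (mem_univ _)
  have hB : ∀ r, HolB α A' (g r) := fun r y z =>
    hf.hol _ (projIcc 0 T hT r).2 y (mem_univ _) z (mem_univ _)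
  have cg' : ∀ r, Continuous (g r) := fun r => cg.comp (Continuous.prodMk_right r)
  have c1 : ContinuousOn (fun t => trL b (duh (Gk q2) (-1) f t x)) (Icc 0 T) :=
    (trL b).continuous.comp_continuousOn hc
  have c2 : ContinuousOn (fun t => f t x) (Icc 0 T) :=
    hf.cont.comp (f := fun t : ℝ => (t, x)) (by fun_prop) fun t ht => ⟨ht, mem_univ _⟩
  refine ftc (g := fun t => trL b (duh (Gk q2) (-1) f t x) + f t x) (c1.add c2)
    (fun s hs => ?_) ht
  have h := core (cont_avg (kern_Gk tg0) cg hA x) (cont_avg kern_kap cg hA x)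
    (C := A' * ∫ z : E, ‖z‖ ^ α * ‖kap z‖) ha (fun r s hs => by
      have h := norm_avg_le_hol kern_kap (integral_kap b) (cg' r) (hA r) ha.le ha1.le (hB r) s x
      rw [abs_of_pos hs] at h
      linarith)
    (fun r s hs => hasDerivAt_avg_s (kern_Gk tg0) kern_kap (hasFDerivAt_Gk tg0) kap_eq (cg' r)
      (hA r) hs x) hs.1
  have sub : Ioc 0 s ⊆ Icc 0 T := fun τ hτ => ⟨hτ.1.le, hτ.2.trans hs.2⟩
  have i1 := (c1.integrableOn_compact (μ := volume) isCompact_Icc).mono_set sub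
  have i2 := (c2.integrableOn_compact (μ := volume) isCompact_Icc).mono_set sub
  rw [integral_add i1 i2, duh_congr _ _ hfg hs, duh]
  simp only [Real.rpow_one, smul_eq_mul]
  rw [h]
  congr 1
  · refine setIntegral_congr_fun measurableSet_Ioc fun τ hτ => ?_
    simp only [duh_congr _ _ hfg (sub hτ), tr_duh b cg ha ha1 hA hB]
  · refine setIntegral_congr_fun measurableSet_Ioc fun τ hτ => ?_
    simp only [avg, zero_smul, sub_zero, smul_eq_mul, integral_const_mul, integral_k0, mul_one,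
      hfg τ (sub hτ)]

end Vale.Agent.P253W.FP
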