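import Vale.Agent.P253W.FP.Ex2

/-!
# P253W, block FP: existence for a short time
-/

set_option maxSynthPendingDepth 3
set_option linter.unusedSectionVars false

open Set Metric Filter Topology
open scoped ContDiff
open Vale.Agent.P272.K.R (Hol Bil D2)
open Vale.Agent.P272.K.LIN (Jet jet JM)

noncomputable section

namespace Vale.Agent.P253W.FP

variable {E : Type} [NormedAddCommGroup E] [NormedSpace ℝ E] [FiniteDimensional ℝ E]

theorem Adm.mono {α KF KF' δ T ε : ℝ} {B : Bil E →L[ℝ] ℝ} {F : ℝ → E → Jet E → ℝ}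
    {A : ℝ → E → Jet E → Jet E →L[ℝ] ℝ} (h : Adm α KF δ T ε B F A) (hK : KF ≤ KF') :
    Adm α KF' δ T ε B F A :=
  ⟨h.der, h.cont, fun t ht y hy z hz => (h.bdA t ht y hy z hz).trans hK,
    fun t ht y hy z hz y' hy' z' hz' => (h.holA t ht y hy z hz y' hy' z' hz').trans
      (mul_le_mul_of_nonneg_right hK (by positivity)),
    fun t ht y hy => (h.bdF t ht y hy).trans hK, fun t ht => (h.holF t ht).mono_const hK, h.near⟩

theorem contDiff_JM_jet {θ : E → ℝ} (hs : ContDiff ℝ 3 θ) :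
    ContDiff ℝ 1 fun y => JM (jet θ y) := by
  have h1 : ContDiff ℝ 2 (fderiv ℝ θ) := hs.fderiv_right (by norm_num)
  have h2 : ContDiff ℝ 1 (fderiv ℝ (fderiv ℝ θ)) := h1.fderiv_right (by norm_num)
  have hj : ContDiff ℝ 1 fun y => jet θ y :=
    (hs.of_le (by norm_num)).prodMk ((h1.of_le (by norm_num)).prodMk h2)
  have h3 : ContDiff ℝ 1 (JM (E := E)) :=
    Vale.Agent.P272.K.LIN.contDiff_JM.of_le (by exact_mod_cast le_top)
  exact ContDiff.comp (g := JM) h3 hj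

theorem exists_cut {α : ℝ} (hα : 0 < α) (hα1 : α ≤ 1) : ∃ (θ : E → ℝ) (cθ : ℝ), 1 ≤ cθ ∧
    ContDiff ℝ 2 θ ∧ (∀ y, ‖y‖ ≤ 2 → θ y = 1) ∧ (∀ y, 3 < ‖y‖ → θ y = 0) ∧ (∀ y, ‖θ y‖ ≤ 1) ∧
    Hol α cθ θ (ball 0 4) ∧ (∀ y ∈ ball (0 : E) 4, ‖JM (jet θ y)‖ ≤ cθ) ∧
    Hol α cθ (fun y => JM (jet θ y)) (ball 0 4) := by
  let η : ContDiffBump (0 : E) := ⟨2, 3, by norm_num, by norm_num⟩
  have hs : ContDiff ℝ 3 (η : E → ℝ) := η.contDiff
  obtain ⟨C1, h10, h1⟩ := Vale.Agent.P272.K.R.uh_of_contDiff (ι := Unit) (f := (η : E → ℝ)) hα hα1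
    (hs.of_le (by norm_num)) 0 4
  obtain ⟨C2, h20, h2⟩ := Vale.Agent.P272.K.R.uh_of_contDiff (ι := Unit) hα hα1
    (contDiff_JM_jet hs) 0 4
  refine ⟨η, 1 + C1 + C2, by linarith, hs.of_le (by norm_num), fun y hy => ?_, fun y hy => ?_,
    fun y => ?_, (h1 ()).1.mono_const (by linarith),
    fun y hy => ((h2 ()).2 y hy).trans (by linarith), (h2 ()).1.mono_const (by linarith)⟩
  · exact η.one_of_mem_closedBall (mem_closedBall_zero_iff.2 hy)
  · exact η.zero_of_le_dist (by rw [dist_zero_right]; exact hy.le)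
  · rw [Real.norm_eq_abs, abs_of_nonneg η.nonneg]; exact η.le_one

theorem ev_small {α : ℝ} (hα : 0 < α) (a : ℝ) {b : ℝ} (hb : 0 < b) :
    ∀ᶠ τ : ℝ in 𝓝[>] 0, τ ^ (α / 2) * a ≤ b := by
  have h1 : Tendsto (fun τ : ℝ => τ ^ (α / 2) * a) (𝓝 0) (𝓝 ((0 : ℝ) ^ (α / 2) * a)) :=
    (Real.continuousAt_rpow_const 0 (α / 2) (Or.inr (by linarith))).tendsto.mul_const a
  rw [Real.zero_rpow (by linarith), zero_mul] at h1
  exact ((h1.mono_left nhdsWithin_le_nhds).eventually_lt_const hb).mono fun _ h => h.le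

variable {X : Type} [TopologicalSpace X] [T2Space X] {K : ℝ} {N₀ : ℕ}

theorem UA.fi_pb (𝒜 : UA E X K N₀) {α τ N : ℝ} (hα : 0 < α) (hα1 : α ≤ 1) (hN : 0 ≤ N)
    {g : ℝ → X → ℝ} (hg : 𝒜.GH α τ g N) (i : 𝒜.ι) :
    PB α (Icc 0 τ) univ (𝒜.fi g i) N ((1 + |K| * 8) * N) := by
  have h1 : Hol α (|K| * 8) (𝒜.χ i) (ball 0 4) :=
    hol_of_lip hα hα1 (abs_nonneg K) (by norm_num)
      (fun x hx y hy => (norm_sub_le_of_ball hx hy).trans (by norm_num)) fun x hx y hy => by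
        have := 𝒜.χl i x hx y hy
        rw [Real.rpow_one] at this
        exact this.trans (mul_le_mul_of_nonneg_right (le_abs_self K) (norm_nonneg _))
  have h2 := (PB.of_hol hα (Icc 0 τ) (fun y _ => 𝒜.χb i y) h1).mul (hg i)
  refine PB.extend hα.le hN (by positivity) (ρ := 2) (by norm_num : (2 : ℝ) < 4)
    (h2.mono (le_of_eq (one_mul N)) (le_of_eq (by ring))) fun t _ y hy => ?_
  rw [UA.fi, 𝒜.χ0 i y (not_le.1 fun h => hy (mem_closedBall_zero_iff.2 h)), zero_mul]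

variable (E) in
/-- **existence for a short time** -/
theorem ex_of (hD : DUH E) (hT : TR E) (hP : PIC E) : EX E := by
  intro α K l L N₀ hα hα1 hl
  obtain ⟨C, hC, hD⟩ := hD α hα hα1 l L hl
  obtain ⟨CT, hCT, hT⟩ := hT α K hα hα1.le
  obtain ⟨θ, cθ, hc, θs, θ1, θ0, θb, θh, Mb, Mh⟩ := exists_cut (E := E) hα hα1.le
  set cχ : ℝ := 1 + |K| * 8 with hcχ
  have hχ : 1 ≤ cχ := by rw [hcχ]; linarith [abs_nonneg K]
  set M : ℝ := (C + 1) * cχ with hM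
  have hM0 : 0 ≤ M := by positivity
  set ε : ℝ := 1 / (4 * (N₀ * CT * M) + 1) with hε
  have hε0 : 0 < ε := by positivity
  have hε1 : N₀ * CT * M * ε ≤ 1 / 4 := by
    rw [hε, mul_one_div, div_le_div_iff₀ (by positivity) (by norm_num)]; linarith
  refine ⟨ε, hε0, fun KF δ T hδ hT0 => ?_⟩
  set N : ℝ := 2 * |KF| with hNd
  have hK0 : 0 ≤ |KF| := abs_nonneg _
  have hN : 0 ≤ N := by positivity
  set KA : ℝ := |KF| * (1 + N₀ * (3 * CT * cθ * M * N)) with hKA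
  obtain ⟨τ, ⟨⟨⟨e1, e2⟩, e3⟩, e4⟩, hτ0⟩ := (((((ev_small hα (N₀ * (M * (|KF| * cθ + ε)))
    (by norm_num : (0 : ℝ) < 1 / 2)).and (ev_small hα (N₀ * (CT * (M *
      (2 * |KF| * cθ + cθ * KA + KA + ε * cθ)))) (by norm_num : (0 : ℝ) < 1 / 4))).and
    (ev_small hα (N₀ * (CT * cθ * M * N)) (half_pos hδ))).and
    (Icc_mem_nhdsGT (lt_min hT0 one_pos))).and self_mem_nhdsWithin).exists
  replace hτ0 : 0 < τ := hτ0
  have hτT : τ ≤ T := e4.2.trans (min_le_left _ _)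
  have hτ1 : τ ≤ 1 := e4.2.trans (min_le_right _ _)
  refine ⟨τ, N₀ * (3 * CT * cθ * M * N), hτ0, hτT, fun X _ _ 𝒜 B F A hB hF hI => ?_⟩
  replace hF := fun i => (hF i).mono (le_abs_self KF)
  choose H hH1 hH2 using fun i => hD (B i) (hB i)
  set σ : ℝ := τ ^ (α / 2) with hσ
  have σ0 : 0 ≤ σ := by positivity
  have σ1 : σ ≤ 1 := Real.rpow_le_one hτ0.le hτ1 (by linarith)
  have σ2 : √τ ≤ σ := by
    rw [Real.sqrt_eq_rpow]
    exact Real.rpow_le_rpow_of_exponent_ge hτ0 hτ1 (by linarith)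
  have σ3 : τ ≤ σ := by
    calc τ = τ ^ (1 : ℝ) := (Real.rpow_one τ).symm
      _ ≤ σ := Real.rpow_le_rpow_of_exponent_ge hτ0 hτ1 (by linarith)
  have hSu : 𝒜.Su θ B H α τ (σ * M) M CT cθ := by
    refine ⟨hα, by positivity, mul_le_of_le_one_left hM0 σ1, hCT, hc, θs, θ1, θ0, θb, θh, Mb, Mh,
      fun i c g k N' d hN' hd hg hk t ht => ?_, fun i g N' hN' hg => ?_,
      fun i j => (hT N₀ X 𝒜 i j).1, fun i j => (hT N₀ X 𝒜 i j).2.1,
      fun i j => (hT N₀ X 𝒜 i j).2.2⟩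
    · funext y
      have h1 := hH1 i τ c _ _ _ _ _ _ (𝒜.fi_pb hα hα1.le hN' hg i) (𝒜.fi_pb hα hα1.le hd hk i)
        t ht y
      have h2 : 𝒜.fi (fun s x => g s x + c * k s x) i =
          fun s y => 𝒜.fi g i s y + c * 𝒜.fi k i s y := by
        funext s z; simp only [UA.fi]; ring
      rw [UA.vi, h2]
      exact h1
    · obtain ⟨a0, a1, a2, a3, a4⟩ := hH2 i τ _ _ _ hτ0.le (by positivity)
        (𝒜.fi_pb hα hα1.le hN' hg i)
      have b : ∀ a b x : ℝ, 0 ≤ x → x ≤ σ → 0 ≤ a → a ≤ C + 1 → 0 ≤ b → b ≤ cχ →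
          a * x * (b * N') ≤ σ * M * N' := fun a b x x0 x1 _ ha b0 hb => by
        calc a * x * (b * N') = x * (a * b) * N' := by ring
          _ ≤ σ * ((C + 1) * cχ) * N' := by gcongr
      have c0 : 0 ≤ cχ := by linarith
      refine ⟨a0, a1, PB.prod (a2.mono ?_ (b C cχ τ hτ0.le σ3 hC (by linarith) c0 le_rfl))
        (PB.prod (a3.mono ?_ (b C cχ _ (Real.sqrt_nonneg _) σ2 hC (by linarith) c0 le_rfl))
          ((PB.zero _ _ _).mono (by positivity) (by positivity))),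
        a4.mono (b C cχ σ σ0 le_rfl hC (by linarith) c0 le_rfl) ?_⟩
      · simpa using b 1 1 τ hτ0.le σ3 zero_le_one (by linarith) zero_le_one hχ
      · simpa using b C 1 _ (Real.sqrt_nonneg τ) σ2 hC (by linarith) zero_le_one hχ
      · rw [hM, ← mul_assoc]; gcongr; linarith
  have d1 : N₀ * (CT * cθ * (σ * M) * N) ≤ δ / 2 := by
    refine le_of_eq_of_le ?_ e3; ring
  have d2 : N₀ * (CT * cθ * (σ * M) * N) < δ := by linarith
  have s1 : N₀ * (σ * M * (|KF| * cθ + ε)) ≤ 1 / 2 := by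
    refine le_of_eq_of_le ?_ e1; ring
  have s2 : N₀ * (CT * (ε * M + σ * M * (2 * |KF| * cθ + cθ * KA + KA + ε * cθ))) ≤ 1 / 2 := by
    calc _ = N₀ * CT * M * ε + σ * (N₀ * (CT * (M * (2 * |KF| * cθ + cθ * KA + KA + ε * cθ)))) := by
          ring
      _ ≤ 1 / 4 + 1 / 4 := add_le_add hε1 e2
      _ = 1 / 2 := by norm_num
  have con := fun g g' d hd hg hg' hk => hSu.contr hF hI hτT hN d2 hK0 hε0.le hKA s1 s2 (g := g)
    (g' := g') (d := d) hd hg hg' hk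
  obtain ⟨g, hg, hfix⟩ := hP α N (Icc 0 τ) (ball 0 4) X 𝒜.ι (fun i y => (𝒜.e i).symm y)
    (𝒜.Ψ θ B H F) hN (fun g hg i => by
      have h0 : 𝒜.GH α τ (fun _ _ => (0 : ℝ)) N := fun i => (PB.zero _ _ _).mono hN hN
      have h1 := con g (fun _ _ => 0) N hN hg h0 (fun i => by simpa using hg i) i
      have h2 := hSu.Ψ_zero hF hI hτT hN d2 le_rfl i
      exact ((h2.add h1).congr fun t _ y _ => by ring).mono (by rw [hNd]; linarith)
        (by rw [hNd]; linarith))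
    fun g g' d hd hg hg' hk => con g g' d hd hg hg' hk
  refine ⟨𝒜.Q θ H g, hSu.Q_zero hN hg, fun i => ⟨⟨fun t ht => hSu.Q_c2 hN hg i ht,
    (hSu.Q_jet hN hg i).cont, fun t ht y hy => (hSu.Q_dt hN hg i ht hy).congr_deriv ?_⟩,
    (hSu.Q_jet hN hg i).mono d1 le_rfl⟩⟩
  rw [← hfix i t ht y hy, hSu.Ψ_loc hF hI hτT hN d2 hg i ht hy]
  ring

end Vale.Agent.P253W.FP
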