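import Vale.Agent.P253W.FP.Pb

/-!
# P253W, block FP, rows GLUE and ADM
-/

set_option maxSynthPendingDepth 3
set_option linter.unusedSectionVars false

open Set Metric Filter Topology
open scoped ContDiff
open Vale.Agent.P272.K.R (Hol Bil D2)
open Vale.Agent.P272.K.LIN (Jet jet)

noncomputable section

namespace Vale.Agent.P253W.FP

variable {E : Type} [NormedAddCommGroup E] [NormedSpace ℝ E]

theorem Cl.union {a b c : ℝ} {U : Set E} {w wt : ℝ → E → ℝ} (hab : a ≤ b) (hbc : b ≤ c)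
    (h1 : Cl (Icc a b) U w wt) (h2 : Cl (Icc b c) U w wt) : Cl (Icc a c) U w wt := by
  have k1 : ∀ {I : Set ℝ}, IsClosed I → Cl I U w wt → ∀ q : ℝ × E, q.2 ∈ U →
      ContinuousWithinAt (fun q : ℝ × E => jet (w q.1) q.2) (I ×ˢ U) q := by
    intro I hI h q hq
    by_cases ht : q.1 ∈ I
    · exact h.cj q ⟨ht, hq⟩
    · refine continuousWithinAt_of_notMem_closure fun h' => ht ?_
      rw [closure_prod_eq, hI.closure_eq] at h'
      exact h'.1
  have k2 : ∀ {I : Set ℝ}, IsClosed I → Cl I U w wt → ∀ t, ∀ x ∈ U,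
      HasDerivWithinAt (fun s => w s x) (wt t x) I t := by
    intro I hI h t x hx
    by_cases ht : t ∈ I
    · exact h.dt t ht x hx
    · exact HasFDerivWithinAt.of_notMem_closure (by rwa [hI.closure_eq])
  rw [← Icc_union_Icc_eq_Icc hab hbc]
  refine ⟨fun t ht => ht.elim (h1.c2 t) (h2.c2 t), fun q hq => ?_,
    fun t _ x hx => (k2 isClosed_Icc h1 t x hx).union (k2 isClosed_Icc h2 t x hx)⟩
  rw [union_prod]
  exact (k1 isClosed_Icc h1 q hq.2).union (k1 isClosed_Icc h2 q hq.2)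

theorem glue : GLUE E := by
  intro T τ μ U w wt v vt hT hτ hμ hU hw hv h0 c hc
  have hTm : T ∈ Icc 0 T := ⟨hT, le_rfl⟩
  have hm : MapsTo (fun t => (t - T) / μ) (Icc T (T + μ * τ)) (Icc 0 τ) := fun t ht =>
    ⟨div_nonneg (sub_nonneg.2 ht.1) hμ.le, (div_le_iff₀' hμ).2 (by linarith [ht.2])⟩
  have h2 : Cl (Icc T (T + μ * τ)) U (fun t x => w T x + c * v ((t - T) / μ) x)
      (fun t x => c / μ * vt ((t - T) / μ) x) := by
    refine ⟨fun t ht => (hw.c2 T hTm).add (contDiffOn_const.mul (hv.c2 _ (hm ht))), ?_,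
      fun t ht x hx => ?_⟩
    · have c1 : ContinuousOn (fun q : ℝ × E => jet (w T) q.2) (Icc T (T + μ * τ) ×ˢ U) :=
        hw.cj.comp (f := fun q : ℝ × E => (T, q.2)) (by fun_prop) fun q hq => ⟨hTm, hq.2⟩
      have c2 : ContinuousOn (fun q : ℝ × E => jet (v ((q.1 - T) / μ)) q.2)
          (Icc T (T + μ * τ) ×ˢ U) :=
        hv.cj.comp (f := fun q : ℝ × E => ((q.1 - T) / μ, q.2)) (by fun_prop)
          fun q hq => ⟨hm hq.1, hq.2⟩
      refine (c1.add (c2.const_smul c)).congr fun q hq => ?_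
      have hq' := hU.mem_nhds hq.2
      have a2 := (hv.c2 _ (hm hq.1)).contDiffAt hq'
      exact (jet_add ((hw.c2 T hTm).contDiffAt hq') (contDiffAt_const.mul a2)).trans
        (by rw [jet_const_mul c a2]; rfl)
    · have d1 : HasDerivWithinAt (fun t => (t - T) / μ) (1 / μ) (Icc T (T + μ * τ)) t :=
        (((hasDerivAt_id' t).sub_const T).div_const μ).hasDerivWithinAt
      refine ((((hv.dt _ (hm ht) x hx).comp t d1 hm).const_mul c).const_add (w T x)).congr_deriv ?_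
      ring
  refine Cl.union hT (le_add_of_nonneg_right (by positivity))
    (hw.congr hU (fun t ht x _ => (if_pos ht.2).symm) fun t ht x _ => (if_pos ht.2).symm)
    (h2.congr hU (fun t ht x hx => ?_) fun t ht x hx => ?_)
  · split_ifs with h
    · rw [le_antisymm h ht.1, sub_self, zero_div, h0 x hx, mul_zero, add_zero]
    · rfl
  · split_ifs with h
    · rw [le_antisymm h ht.1, sub_self, zero_div, hc x hx]
    · rfl

/-- uniform bounds near a compact set -/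
theorem Adm.near_bound {X G : Type} [NormedAddCommGroup X] [NormedAddCommGroup G] {V Q : Set X}
    {g : X → G} (hV : IsOpen V) (hg : ContinuousOn g V) (hQ : IsCompact Q) (hQV : Q ⊆ V) :
    ∃ ρ M : ℝ, 0 < ρ ∧ 0 ≤ M ∧ ∀ q ∈ Q, ∀ p ∈ ball q ρ, p ∈ V ∧ ‖g p‖ ≤ M := by
  obtain ⟨M, hM⟩ := hQ.exists_bound_of_continuousOn (hg.mono hQV)
  obtain ⟨ρ, hρ, h⟩ := hQ.exists_thickening_subset_open
    (hg.norm.isOpen_inter_preimage hV (isOpen_Iio (a := |M| + 1)))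
    fun q hq => ⟨hQV hq, ((hM q hq).trans (le_abs_self M)).trans_lt (lt_add_one _)⟩
  exact ⟨ρ, |M| + 1, hρ, by positivity, fun q hq p hp =>
    let h' := h (ball_subset_thickening hq ρ hp)
    ⟨h'.1, le_of_lt h'.2⟩⟩

theorem adm [FiniteDimensional ℝ E] : ADM E := by
  intro P _ _ V Φ Q hV hΦ hQ hQV
  have s1 : ContDiffOn ℝ ∞ (fderiv ℝ Φ) V := hΦ.fderiv_of_isOpen hV (by simp)
  have s2 : ContinuousOn (fun p => ‖fderiv ℝ (fderiv ℝ Φ) p‖) V :=
    ContinuousOn.norm (E := P × Bil E →L[ℝ] P × Bil E →L[ℝ] ℝ)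
      (s1.continuousOn_fderiv_of_isOpen hV (by simp))
  obtain ⟨ρ, M, hρ, hM, hb⟩ := Adm.near_bound hV
    (hΦ.continuousOn.norm.add (s1.continuousOn.norm.add s2))
    (hQ.prod (isCompact_singleton (x := 0))) (fun q hq => by
      obtain ⟨a, b⟩ := q
      obtain rfl : b = 0 := hq.2
      exact (hQV a hq.1).1)
  replace hb : ∀ a₀ ∈ Q, ∀ p ∈ ball ((a₀, 0) : P × Bil E) ρ, p ∈ V ∧ ‖Φ p‖ ≤ M ∧
      ‖fderiv ℝ Φ p‖ ≤ M ∧ ‖fderiv ℝ (fderiv ℝ Φ) p‖ ≤ M := fun a₀ ha p hp => by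
    obtain ⟨h1, h2⟩ := hb (a₀, 0) ⟨ha, rfl⟩ p hp
    have h3 : ‖Φ p‖ + (‖fderiv ℝ Φ p‖ + ‖fderiv ℝ (fderiv ℝ Φ) p‖) ≤ M := (le_abs_self _).trans h2
    have := norm_nonneg (Φ p)
    have := norm_nonneg (fderiv ℝ Φ p)
    have := norm_nonneg (fderiv ℝ (fderiv ℝ Φ) p)
    exact ⟨h1, by linarith, by linarith, by linarith⟩
  have d0 : ∀ p ∈ V, DifferentiableAt ℝ Φ p := fun p hp =>
    (hΦ.contDiffAt (hV.mem_nhds hp)).differentiableAt (by simp)
  have d1 : ∀ p ∈ V, DifferentiableAt ℝ (fderiv ℝ Φ) p := fun p hp =>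
    (s1.contDiffAt (hV.mem_nhds hp)).differentiableAt (by simp)
  have l0 : ∀ a₀ ∈ Q, ∀ p ∈ ball ((a₀, 0) : P × Bil E) ρ, ∀ p' ∈ ball ((a₀, 0) : P × Bil E) ρ,
      ‖Φ p - Φ p'‖ ≤ M * ‖p - p'‖ := fun a₀ ha p hp p' hp' =>
    (convex_ball _ _).norm_image_sub_le_of_norm_fderiv_le (fun q hq => d0 q (hb a₀ ha q hq).1)
      (fun q hq => (hb a₀ ha q hq).2.2.1) hp' hp
  have l1 : ∀ a₀ ∈ Q, ∀ p ∈ ball ((a₀, 0) : P × Bil E) ρ, ∀ p' ∈ ball ((a₀, 0) : P × Bil E) ρ,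
      ‖fderiv ℝ Φ p - fderiv ℝ Φ p'‖ ≤ M * ‖p - p'‖ := fun a₀ ha p hp p' hp' =>
    (convex_ball _ _).norm_image_sub_le_of_norm_fderiv_le (fun q hq => d1 q (hb a₀ ha q hq).1)
      (fun q hq => (hb a₀ ha q hq).2.2.2) hp' hp
  -- ellipticity
  have cs : Continuous fun ξ : E →L[ℝ] ℝ => ξ.smulRight ξ :=
    (isBoundedBilinearMap_smulRight (𝕜 := ℝ) (E := E) (F := E →L[ℝ] ℝ)).continuous.comp
      (continuous_id.prodMk continuous_id)
  have cg : ContinuousOn (fun q : P × (E →L[ℝ] ℝ) => fderiv ℝ Φ (q.1, 0) (0, q.2.smulRight q.2))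
      (Q ×ˢ sphere 0 1) :=
    (s1.continuousOn.comp (f := fun q : P × (E →L[ℝ] ℝ) => (q.1, 0)) (by fun_prop)
      fun q hq => (hQV _ hq.1).1).clm_apply
      (continuous_const.prodMk (cs.comp continuous_snd)).continuousOn
  obtain ⟨l, hl, hl'⟩ := (hQ.prod (isCompact_sphere 0 1)).exists_forall_le' cg (a := 0)
    fun q hq => (hQV _ hq.1).2 _ (ne_of_mem_sphere hq.2 one_ne_zero)
  refine ⟨l, M, hl, fun ε hε => ?_⟩
  set δ := min (ρ / 2) (ε / (M + 1)) with hδ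
  have hδ0 : 0 < δ := lt_min (by positivity) (by positivity)
  have hδ1 : δ < ρ := (min_le_left _ _).trans_lt (half_lt_self hρ)
  have hδ2 : M * δ ≤ ε := by
    have := (le_div_iff₀' (by positivity)).1 (min_le_right (ρ / 2) (ε / (M + 1)))
    nlinarith
  refine ⟨δ, δ, hδ0, hδ0, fun α K => ⟨M + (M + 1) * |K|, fun T a₀ ha₀ a c f ha hc hf hn => ?_⟩⟩
  set J : Jet E →L[ℝ] P × Bil E := (ContinuousLinearMap.inr ℝ P (Bil E)).comp
    ((ContinuousLinearMap.snd ℝ _ _).comp (ContinuousLinearMap.snd ℝ _ _)) with hJ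
  have nJ : ∀ L : P × Bil E →L[ℝ] ℝ, ‖L.comp J‖ ≤ ‖L‖ := fun L =>
    ContinuousLinearMap.opNorm_le_bound _ (norm_nonneg _) fun z => (L.le_opNorm _).trans (by
      gcongr
      simpa [hJ] using (norm_snd_le _).trans (norm_snd_le z))
  have nF : ∀ r : ℝ, ‖r • ContinuousLinearMap.fst ℝ ℝ ((E →L[ℝ] ℝ) × Bil E)‖ ≤ ‖r‖ := fun r =>
    ContinuousLinearMap.opNorm_le_bound _ (norm_nonneg _) fun z => by
      simpa using mul_le_mul_of_nonneg_left (norm_fst_le z) (norm_nonneg r)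
  have n2 : ∀ z : Jet E, ‖z.2.2‖ ≤ ‖z‖ := fun z => (norm_snd_le _).trans (norm_snd_le z)
  have hd : ∀ t ∈ Icc 0 T, ∀ y ∈ ball (0 : E) 4, ∀ z ∈ ball (0 : Jet E) δ,
      ‖((a t y, z.2.2) : P × Bil E) - (a₀, 0)‖ ≤ δ := fun t ht y hy z hz => by
    rw [Prod.mk_sub_mk, sub_zero, Prod.norm_mk]
    exact max_le (hn t ht y hy) ((n2 z).trans (mem_ball_zero_iff.1 hz).le)
  have hm : ∀ t ∈ Icc 0 T, ∀ y ∈ ball (0 : E) 4, ∀ z ∈ ball (0 : Jet E) δ,
      ((a t y, z.2.2) : P × Bil E) ∈ ball ((a₀, 0) : P × Bil E) ρ := fun t ht y hy z hz =>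
    mem_ball_iff_norm.2 ((hd t ht y hy z hz).trans_lt hδ1)
  have hK := le_abs_self K
  have hK0 := abs_nonneg K
  have z0 : (0 : Jet E) ∈ ball (0 : Jet E) δ := mem_ball_self hδ0
  refine ⟨((fderiv ℝ Φ (a₀, 0)).comp J).comp j2, fun t y z => (fderiv ℝ Φ (a t y, z.2.2)).comp J +
    c t y • ContinuousLinearMap.fst ℝ ℝ _, ⟨(norm_comp_j2_le _).trans ((nJ _).trans
      (hb a₀ ha₀ _ (mem_ball_self hρ)).2.2.1), fun ξ => ?_⟩, fun t ht y hy z hz => ?_, ?_,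
    fun t ht y hy z hz => ?_, fun t ht y hy z hz y' hy' z' hz' => ?_, fun t ht y hy => ?_,
    fun t ht y hy y' hy' => ?_, fun t ht y hy z hz => ?_⟩
  · change l * ‖ξ‖ ^ 2 ≤ fderiv ℝ Φ (a₀, 0) (0, ξ.smulRight ξ)
    by_cases h : ξ = 0
    · have : (0 : E →L[ℝ] ℝ).smulRight (0 : E →L[ℝ] ℝ) = 0 := by ext; simp
      simp [h, this, Prod.mk_zero_zero]
    · have hn0 := norm_ne_zero_iff.2 h
      have h1 := hl' (a₀, ‖ξ‖⁻¹ • ξ) ⟨ha₀, by simp [norm_smul, hn0]⟩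
      have e : ((0 : P), ξ.smulRight ξ) = ‖ξ‖ ^ 2 • ((0 : P), (‖ξ‖⁻¹ • ξ).smulRight (‖ξ‖⁻¹ • ξ)) := by
        ext
        · simp
        · simp
          field_simp
      rw [e, map_smul, smul_eq_mul, mul_comm]
      gcongr
  · have h1 : HasFDerivAt (fun z : Jet E => ((a t y, z.2.2) : P × Bil E)) J z := by
      simpa [hJ] using J.hasFDerivAt.const_add (a t y, 0)
    have h2 := (d0 _ (hb a₀ ha₀ _ (hm t ht y hy z hz)).1).hasFDerivAt.comp z h1
    exact (h2.add ((hasFDerivAt_fst (p := z)).const_mul (c t y))).add_const _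
  · have pr : ∀ {G : Type} [NormedAddCommGroup G] {g : ℝ → E → G},
        PB α (Icc 0 T) (ball 0 4) g K K → ContinuousOn (fun q : ℝ × E × Jet E => g q.1 q.2.1)
          (Icc 0 T ×ˢ ball 0 4 ×ˢ ball 0 δ) := fun h =>
      h.cont.comp (f := fun q : ℝ × E × Jet E => (q.1, q.2.1)) (by fun_prop) fun q hq => ⟨hq.1, hq.2.1⟩
    refine ((hΦ.continuousOn.comp ((pr ha).prodMk (by fun_prop)) fun q hq =>
      (hb a₀ ha₀ _ (hm _ hq.1 _ hq.2.1 _ hq.2.2)).1).add ((pr hc).mul (by fun_prop))).add (pr hf)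
  · have h1 := (nJ _).trans (hb a₀ ha₀ _ (hm t ht y hy z hz)).2.2.1
    have h2 := (nF _).trans (hc.sup t ht y hy)
    refine (norm_add_le_of_le h1 h2).trans ?_
    nlinarith
  · have h1 := (nJ _).trans (l1 a₀ ha₀ _ (hm t ht y hy z hz) _ (hm t ht y' hy' z' hz'))
    have h2 := (nF _).trans (hc.hol t ht y hy y' hy')
    have h3 := ha.hol t ht y hy y' hy'
    have h4 : 0 ≤ ‖y - y'‖ ^ α := by positivity
    have h5 : ‖((a t y, z.2.2) : P × Bil E) - (a t y', z'.2.2)‖ ≤ |K| * ‖y - y'‖ ^ α + ‖z - z'‖ := by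
      rw [Prod.mk_sub_mk, Prod.norm_mk]
      refine max_le ?_ ((n2 (z - z')).trans (le_add_of_nonneg_left (by positivity)))
      nlinarith [norm_nonneg (z - z')]
    have e : (fderiv ℝ Φ (a t y, z.2.2)).comp J + c t y • ContinuousLinearMap.fst ℝ ℝ _ -
        ((fderiv ℝ Φ (a t y', z'.2.2)).comp J + c t y' • ContinuousLinearMap.fst ℝ ℝ _) =
        (fderiv ℝ Φ (a t y, z.2.2) - fderiv ℝ Φ (a t y', z'.2.2)).comp J +
          (c t y - c t y') • ContinuousLinearMap.fst ℝ ℝ ((E →L[ℝ] ℝ) × Bil E) := by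
      refine ContinuousLinearMap.ext fun u => ?_
      simp
      ring
    rw [e]
    refine (norm_add_le_of_le (h1.trans (mul_le_mul_of_nonneg_left h5 hM)) h2).trans ?_
    nlinarith [norm_nonneg (z - z'), mul_nonneg hM h4,
      mul_nonneg (mul_nonneg hM hK0) (norm_nonneg (z - z')), mul_nonneg hK0 (norm_nonneg (z - z'))]
  · have h1 := (hb a₀ ha₀ _ (hm t ht y hy 0 z0)).2.1
    have h2 := hf.sup t ht y hy
    simp only [Prod.fst_zero, mul_zero, add_zero]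
    refine (norm_add_le_of_le h1 h2).trans ?_
    nlinarith
  · have h1 := l0 a₀ ha₀ _ (hm t ht y hy 0 z0) _ (hm t ht y' hy' 0 z0)
    have h2 := hf.hol t ht y hy y' hy'
    have h3 := ha.hol t ht y hy y' hy'
    have h4 : 0 ≤ ‖y - y'‖ ^ α := by positivity
    rw [Prod.mk_sub_mk, sub_self, Prod.norm_mk, norm_zero, max_eq_left (norm_nonneg _)] at h1
    simp only [Prod.fst_zero, mul_zero, add_zero]
    rw [add_sub_add_comm]
    refine (norm_add_le_of_le (h1.trans (mul_le_mul_of_nonneg_left h3 hM)) h2).trans ?_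
    nlinarith [mul_nonneg hM h4, mul_nonneg (sub_nonneg.2 hK) h4,
      mul_nonneg hM (mul_nonneg (sub_nonneg.2 hK) h4)]
  · have e : ((fderiv ℝ Φ (a t y, z.2.2)).comp J + c t y • ContinuousLinearMap.fst ℝ ℝ _).comp j2 -
        ((fderiv ℝ Φ (a₀, 0)).comp J).comp j2 =
        ((fderiv ℝ Φ (a t y, z.2.2) - fderiv ℝ Φ (a₀, 0)).comp J).comp j2 := by
      ext1 b
      simp [j2_apply]
    rw [e]
    exact (norm_comp_j2_le _).trans ((nJ _).trans
      ((l1 a₀ ha₀ _ (hm t ht y hy z hz) _ (mem_ball_self hρ)).trans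
        ((mul_le_mul_of_nonneg_left (hd t ht y hy z hz) hM).trans hδ2)))

end Vale.Agent.P253W.FP
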