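import Vale.Agent.P253W.FP.Pb

/-!
# P253W, block FP, row INT0: the interior estimate by freezing the coefficients
-/

set_option maxSynthPendingDepth 3
set_option linter.unusedSectionVars false

open Set Metric Filter Topology
open scoped ContDiff
open Vale.Agent.P272.K.R (Hol Bil D2 uh_of_contDiff)
open Vale.Agent.P272.K.LIN (Jet jet JM jet_mul jet_congr contDiff_JM contDiffAt_jet)

noncomputable section

namespace Vale.Agent.P253W.FP

namespace I0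

variable {E : Type} [NormedAddCommGroup E] [NormedSpace ℝ E] [FiniteDimensional ℝ E]

/-- the constant coefficient estimate for one operator -/
def Pc (α C : ℝ) (B : Bil E →L[ℝ] ℝ) : Prop :=
  ∀ (s T M A K : ℝ) (v vt : ℝ → E → ℝ), s ≤ T → 0 ≤ K → Cl (Icc s T) univ v vt →
    (∀ x, v s x = 0) → (∀ t ∈ Icc s T, ∀ x, |v t x| ≤ M) →
    PB α (Icc s T) univ (fun t x => vt t x - B (D2 (v t) x)) A K →
    ∀ t ∈ Icc s T, Hol α (C * K) (D2 (v t)) univ

theorem cont_D2 {I : Set ℝ} {U : Set E} {w wt : ℝ → E → ℝ} (h : Cl I U w wt) :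
    ContinuousOn (fun q : ℝ × E => D2 (w q.1) q.2) (I ×ˢ U) :=
  (continuous_snd.comp continuous_snd).comp_continuousOn h.cj

/-- operators with small oscillation -/
theorem perturb [Nontrivial E] {α C : ℝ} (hα : 0 < α) (hC : 0 ≤ C) {B : Bil E →L[ℝ] ℝ}
    (hB : Pc α C B) {s t₁ : ℝ} (hs : s ≤ t₁) {x₁ : E} {ρ' ρ : ℝ} (hρ : ρ' < ρ) (hρ0 : 0 < ρ)
    {A : ℝ → E → Bil E →L[ℝ] ℝ} {e K : ℝ} (hK : 0 ≤ K) (he : 0 ≤ e)
    (hA : PB α (Icc s t₁) (ball x₁ ρ) (fun t x => A t x - B) e K)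
    (hsmall : C * (e + K * (3 * ρ) ^ α) ≤ 1 / 2) {v vt : ℝ → E → ℝ}
    (hv : Cl (Icc s t₁) univ v vt) (hv0 : ∀ x, v s x = 0) {M : ℝ}
    (hM : ∀ t ∈ Icc s t₁, ∀ x, |v t x| ≤ M)
    (hz : ∀ t ∈ Icc s t₁, ∀ x ∉ closedBall x₁ ρ', D2 (v t) x = 0 ∧ vt t x = 0) {T₀ : ℝ}
    (hT₀ : 0 ≤ T₀) (hvT : ∀ t ∈ Icc s t₁, Hol α T₀ (D2 (v t)) univ) {G₀ G : ℝ} (hG₀ : 0 ≤ G₀)
    (hG : 0 ≤ G) (hg : PB α (Icc s t₁) (ball x₁ ρ) (fun t x => vt t x - A t x (D2 (v t) x)) G₀ G) :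
    ∀ t ∈ Icc s t₁, Hol α (2 * C * G) (D2 (v t)) univ := by
  have step : ∀ T, 0 ≤ T → (∀ t ∈ Icc s t₁, Hol α T (D2 (v t)) univ) →
      ∀ t ∈ Icc s t₁, Hol α (C * G + T / 2) (D2 (v t)) univ := by
    intro T hT h t ht
    have h1 : PB α (Icc s t₁) (ball x₁ ρ) (fun t => D2 (v t)) (T * (3 * ρ) ^ α) T :=
      ⟨(cont_D2 hv).mono (prod_mono subset_rfl (subset_univ _)), fun t ht =>
        (h t ht).sup_of_support hα.le hT hρ fun x hx => (hz t ht x hx).1,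
        fun t ht => (h t ht).mono (subset_univ _)⟩
    have h2 : PB α (Icc s t₁) (ball x₁ ρ) (fun t x => vt t x - B (D2 (v t) x))
        (G₀ + e * (T * (3 * ρ) ^ α)) (G + (e * T + T * (3 * ρ) ^ α * K)) :=
      (hg.add (hA.app h1)).congr fun t _ x _ => by simp
    have h3 := h2.extend hα.le (by positivity) (by positivity) hρ fun t ht x hx => by
      rw [(hz t ht x hx).1, (hz t ht x hx).2, map_zero, sub_zero]
    refine (hB s t₁ M _ _ v vt hs (by positivity) hv hv0 hM h3 t ht).mono_const ?_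
    nlinarith [mul_le_mul_of_nonneg_right hsmall hT]
  have iter : ∀ n : ℕ, ∀ t ∈ Icc s t₁,
      Hol α (2 * C * G * (1 - (1 / 2) ^ n) + T₀ * (1 / 2) ^ n) (D2 (v t)) univ := by
    intro n
    induction n with
    | zero => simpa using hvT
    | succ n ih =>
      have h1 : (0 : ℝ) ≤ 1 - (1 / 2) ^ n := sub_nonneg.2 (pow_le_one₀ (by norm_num) (by norm_num))
      intro t ht
      refine (step _ (by positivity) ih t ht).mono_const (le_of_eq ?_)
      rw [pow_succ]; ring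
  intro t ht x hx y hy
  have hlim : Tendsto (fun n : ℕ => (2 * C * G * (1 - (1 / 2) ^ n) + T₀ * (1 / 2) ^ n) * ‖x - y‖ ^ α)
      atTop (𝓝 ((2 * C * G * (1 - 0) + T₀ * 0) * ‖x - y‖ ^ α)) := by
    have h := tendsto_pow_atTop_nhds_zero_of_lt_one (r := (1 / 2 : ℝ)) (by norm_num) (by norm_num)
    exact (((h.const_sub 1).const_mul _).add (h.const_mul T₀)).mul_const _
  have := ge_of_tendsto' hlim fun n => iter n t ht x hx y hy
  simpa using this

theorem jet_tr (η : E → ℝ) (x₁ x : E) : jet (fun y => η (y - x₁)) x = jet η (x - x₁) := by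
  have e1 : fderiv ℝ (fun x => η (x - x₁)) = fun x => fderiv ℝ η (x - x₁) := by
    funext y
    exact fderiv_comp_sub x₁
  simp only [jet, e1]
  rw [fderiv_comp_sub x₁]

theorem pb_tr {α : ℝ} (hα : 0 < α) (hα1 : α ≤ 1) (ρ : ℝ) {F : Type} [NormedAddCommGroup F]
    [NormedSpace ℝ F] {f : E → F} (hf : ContDiff ℝ 1 f) : ∃ c : ℝ, 0 ≤ c ∧ ∀ (x₁ : E) (I : Set ℝ),
      PB α I (ball x₁ ρ) (fun _ x => f (x - x₁)) c c := by
  obtain ⟨c, hc, h⟩ := uh_of_contDiff (ι := Unit) hα hα1 hf 0 ρ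
  refine ⟨c, hc, fun x₁ I => ?_⟩
  have hm : ∀ x ∈ ball x₁ ρ, x - x₁ ∈ ball (0 : E) ρ := fun x hx => by
    rw [mem_ball_zero_iff]; exact mem_ball_iff_norm.1 hx
  refine PB.of_hol hα I (fun x hx => (h ()).2 _ (hm x hx)) fun x hx y hy => ?_
  have := (h ()).1 _ (hm x hx) _ (hm y hy)
  rwa [sub_sub_sub_cancel_right] at this

theorem cd_jm {η : E → ℝ} (h : ContDiff ℝ ∞ η) : ContDiff ℝ 1 fun x => JM (jet η x) := by
  have hj : ContDiff ℝ 1 (jet η) := contDiff_iff_contDiffAt.2 fun x =>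
    contDiffAt_jet (h.contDiffAt.of_le (by norm_cast))
  have h2 : ContDiff ℝ 1 (JM (E := E)) := contDiff_JM.of_le (by exact_mod_cast le_top)
  exact h2.comp hj

/-- translated bumps with uniform bounds -/
theorem bump {α : ℝ} (hα : 0 < α) (hα1 : α ≤ 1) {ρ : ℝ} (hρ : 0 < ρ) :
    ∃ Θ : ℝ, 0 ≤ Θ ∧ ∀ x₁ : E, ∃ θ : E → ℝ, ContDiff ℝ 2 θ ∧
      (∀ x ∈ ball x₁ (ρ / 2), θ x = 1) ∧ (∀ x ∉ closedBall x₁ (3 * ρ / 4), θ x = 0) ∧
      ∀ I : Set ℝ, PB α I (ball x₁ ρ) (fun _ => θ) Θ Θ ∧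
        PB α I (ball x₁ ρ) (fun _ x => JM (jet θ x)) Θ Θ := by
  let η : ContDiffBump (0 : E) := ⟨ρ / 2, 3 * ρ / 4, by positivity, by linarith⟩
  have hη2 : ContDiff ℝ 2 η := η.contDiff
  have hη1 : ContDiff ℝ 1 η := η.contDiff
  obtain ⟨C₁, hC₁, h₁⟩ := pb_tr hα hα1 ρ hη1
  obtain ⟨C₂, hC₂, h₂⟩ := pb_tr hα hα1 ρ (cd_jm (η := η) η.contDiff)
  refine ⟨C₁ + C₂, by positivity, fun x₁ => ⟨fun x => η (x - x₁),
    hη2.comp (contDiff_id.sub contDiff_const), fun x hx => η.one_of_mem_closedBall ?_,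
    fun x hx => ?_, fun I => ⟨(h₁ x₁ I).mono (by linarith) (by linarith), ?_⟩⟩⟩
  · rw [mem_closedBall_zero_iff]
    exact (mem_ball_iff_norm.1 hx).le
  · refine η.zero_of_le_dist ?_
    rw [dist_zero_right]
    rw [mem_closedBall_iff_norm] at hx
    exact (not_le.1 hx).le
  · simp only [jet_tr]
    exact (h₂ x₁ I).mono (by linarith) (by linarith)

theorem jm_split (j p : Jet E) : (JM j p).2.2 = (JM j (p.1, p.2.1, 0)).2.2 + j.1 • p.2.2 := by
  ext u v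
  simp only [add_apply, Vale.Agent.P272.K.LIN.JM_snd_snd, smul_apply, zero_apply, smul_eq_mul]
  ring

/-- functions of the time only -/
theorem pb_time (α : ℝ) {I : Set ℝ} (U : Set E) {ζ : ℝ → ℝ} (hc : Continuous ζ)
    (h1 : ∀ t ∈ I, |ζ t| ≤ 1) : PB α I U (fun t _ => ζ t) 1 0 :=
  ⟨(hc.comp continuous_fst).continuousOn, fun t ht _ _ => h1 t ht,
    fun _ _ => Vale.Agent.P272.K.R.hol_const _ _ _⟩

/-- the localised estimate -/
theorem loc [Nontrivial E] {α C : ℝ} (hα : 0 < α) (hC : 0 ≤ C) {B : Bil E →L[ℝ] ℝ}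
    (hB : Pc α C B) {s t₁ : ℝ} (hs : s ≤ t₁) {x₁ : E} {ρ : ℝ} (hρ : 0 < ρ)
    {A : ℝ → E → Bil E →L[ℝ] ℝ} {e K : ℝ} (hK : 0 ≤ K) (he : 0 ≤ e)
    (hA : PB α (Icc s t₁) (ball x₁ ρ) A K K)
    (hAB : ∀ t ∈ Icc s t₁, ∀ x ∈ ball x₁ ρ, ‖A t x - B‖ ≤ e)
    (hsmall : C * (e + K * (3 * ρ) ^ α) ≤ 1 / 2) {θ : E → ℝ} {Θ : ℝ} (hΘ : 0 ≤ Θ)
    (hθ : ContDiff ℝ 2 θ) (hθ0 : ∀ x ∉ closedBall x₁ (3 * ρ / 4), θ x = 0)
    (hθ1 : PB α (Icc s t₁) (ball x₁ ρ) (fun _ => θ) Θ Θ)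
    (hθ2 : PB α (Icc s t₁) (ball x₁ ρ) (fun _ x => JM (jet θ x)) Θ Θ)
    {a b β : ℝ} (hb : |b| ≤ β) (hζ : ∀ t ∈ Icc s t₁, |a + b * (t - s)| ≤ 1)
    {w wt : ℝ → E → ℝ} (hw : Cl (Icc s t₁) (ball x₁ ρ) w wt)
    (hw0 : ∀ x ∈ ball x₁ ρ, a * w s x = 0) {M N : ℝ} (hM : 0 ≤ M) (hN : 0 ≤ N)
    (hf : PB α (Icc s t₁) (ball x₁ ρ) (fun t x => wt t x - A t x (D2 (w t) x)) M M)
    (h0 : PB α (Icc s t₁) (ball x₁ ρ) w M M)
    (h1 : PB α (Icc s t₁) (ball x₁ ρ) (fun t => fderiv ℝ (w t)) M M)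
    (h2 : PB α (Icc s t₁) (ball x₁ ρ) (fun t => D2 (w t)) N N) :
    ∀ t ∈ Icc s t₁, Hol α (2 * C * ((2 * β + 2 + 3 * K) * Θ * M))
      (D2 fun x => θ x * ((a + b * (t - s)) * w t x)) univ := by
  have hρ' : 3 * ρ / 4 < ρ := by linarith
  have hβ : 0 ≤ β := (abs_nonneg _).trans hb
  set ζ : ℝ → ℝ := fun t => a + b * (t - s) with hζd
  set v : ℝ → E → ℝ := fun t x => θ x * (ζ t * w t x) with hvd
  set vt : ℝ → E → ℝ := fun t x => θ x * (b * w t x + ζ t * wt t x) with hvt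
  have hζp : PB α (Icc s t₁) (ball x₁ ρ) (fun t _ => ζ t) 1 0 :=
    pb_time α _ (by fun_prop) hζ
  have hzero : ∀ t, ∀ x ∉ closedBall x₁ (3 * ρ / 4), v t =ᶠ[𝓝 x] fun _ => 0 := by
    intro t x hx
    filter_upwards [isClosed_closedBall.isOpen_compl.mem_nhds hx] with y hy
    simp only [hvd, hθ0 y hy, zero_mul]
  have hjz : ∀ t, ∀ x ∉ closedBall x₁ (3 * ρ / 4), jet (v t) x = 0 := fun t x hx => by
    rw [jet_congr (hzero t x hx), jet_zero]
  have hwc : ∀ t ∈ Icc s t₁, ∀ x ∈ ball x₁ ρ, ContDiffAt ℝ 2 (w t) x := fun t ht x hx =>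
    (hw.c2 t ht).contDiffAt (isOpen_ball.mem_nhds hx)
  have hje : ∀ t ∈ Icc s t₁, ∀ x ∈ ball x₁ ρ, jet (v t) x = ζ t • JM (jet θ x) (jet (w t) x) := by
    intro t ht x hx
    rw [← map_smul, ← jet_const_mul (ζ t) (hwc t ht x hx)]
    exact jet_mul hθ.contDiffAt (contDiffAt_const.mul (hwc t ht x hx))
  have hjw : PB α (Icc s t₁) (ball x₁ ρ) (fun t => jet (w t)) (M + N) (M + N) :=
    PB.jet (h0.mono (by linarith) (by linarith)) (h1.mono (by linarith) (by linarith))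
      (h2.mono (by linarith) (by linarith))
  have hjv := ((hζp.smul (hθ2.app hjw)).congr fun t ht x hx => (hje t ht x hx).symm).extend hα.le
    (by positivity) (by positivity) hρ' fun t _ x hx => hjz t x hx
  have hv : Cl (Icc s t₁) univ v vt := by
    refine ⟨fun t ht x _ => ContDiffAt.contDiffWithinAt ?_, hjv.cont, fun t ht x _ => ?_⟩
    · by_cases hx : x ∈ closedBall x₁ (3 * ρ / 4)
      · exact hθ.contDiffAt.mul
          (contDiffAt_const.mul (hwc t ht x (closedBall_subset_ball hρ' hx)))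
      · exact contDiffAt_const.congr_of_eventuallyEq (hzero t x hx)
    · by_cases hx : x ∈ closedBall x₁ (3 * ρ / 4)
      · have hz : HasDerivWithinAt ζ b (Icc s t₁) t := by
          exact (((((hasDerivAt_id t).sub_const s).const_mul b).const_add a).congr_deriv
            (mul_one b)).hasDerivWithinAt
        exact (hz.mul (hw.dt t ht x (closedBall_subset_ball hρ' hx))).const_mul (θ x)
      · simp only [hvd, hvt, hθ0 x hx, zero_mul]
        exact hasDerivWithinAt_const _ _ _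
  have hp0 : PB α (Icc s t₁) (ball x₁ ρ)
      (fun t x => ((w t x, fderiv ℝ (w t) x, 0) : Jet E)) M M :=
    h0.prod (h1.prod ((PB.zero α _ _).mono hM hM))
  have g1 := hθ1.mul (h0.const_smul b)
  have g2 := hζp.mul (hθ1.mul hf)
  have g3 := hζp.mul (hA.app (hθ2.app hp0).snd.snd)
  have hg : PB α (Icc s t₁) (ball x₁ ρ) (fun t x => vt t x - A t x (D2 (v t) x))
      (Θ * (|b| * M) + 1 * (Θ * M) + 1 * (K * (Θ * M))) ((2 * β + 2 + 3 * K) * Θ * M) := by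
    refine (((g1.add g2).sub g3).congr fun t ht x hx => ?_).mono le_rfl ?_
    · have e1 : D2 (v t) x = ζ t • ((JM (jet θ x) (w t x, fderiv ℝ (w t) x, 0)).2.2 +
          θ x • D2 (w t) x) := by
        have := congrArg (fun p : Jet E => p.2.2) (hje t ht x hx)
        refine this.trans ?_
        show ζ t • (JM (jet θ x) (jet (w t) x)).2.2 = _
        rw [jm_split]
        rfl
      rw [e1]
      simp only [hvt, map_smul, map_add, smul_eq_mul]
      ring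
    · have : Θ * M * |b| ≤ Θ * M * β := mul_le_mul_of_nonneg_left hb (by positivity)
      nlinarith
  have hAB' : PB α (Icc s t₁) (ball x₁ ρ) (fun t x => A t x - B) e K :=
    ⟨hA.cont.sub continuousOn_const, hAB, fun t ht x hx y hy => by
      rw [sub_sub_sub_cancel_right]
      exact hA.hol t ht x hx y hy⟩
  refine perturb hα hC hB hs hρ' hρ hK he hAB' hsmall hv (fun x => ?_)
    (fun t ht x => hjv.fst.sup t ht x (mem_univ _)) (fun t _ x hx => ⟨?_, ?_⟩) (by positivity)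
    hjv.snd.snd.hol (by positivity) (by positivity) hg
  · by_cases hx : x ∈ closedBall x₁ (3 * ρ / 4)
    · simp only [hvd, hζd, sub_self, mul_zero, add_zero,
        hw0 x (closedBall_subset_ball hρ' hx)]
    · simp only [hvd, hθ0 x hx, zero_mul]
  · exact congrArg (fun p : Jet E => p.2.2) (hjz t x hx)
  · simp only [hvt, hθ0 x hx, zero_mul]

/-- a small radius -/
theorem ex_rho {α : ℝ} (hα : 0 < α) (c : ℝ) {r δ : ℝ} (hr : 0 < r) (hδ : 0 < δ) :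
    ∃ ρ : ℝ, 0 < ρ ∧ ρ ≤ r ∧ c * (ρ ^ α + (3 * ρ) ^ α) ≤ δ := by
  have h1 : Tendsto (fun ρ : ℝ => c * (ρ ^ α + (3 * ρ) ^ α)) (𝓝 0)
      (𝓝 (c * ((0 : ℝ) ^ α + (3 * 0) ^ α))) := by
    refine Continuous.tendsto ?_ 0
    exact continuous_const.mul ((Real.continuous_rpow_const hα.le).add
      ((Real.continuous_rpow_const hα.le).comp (continuous_const.mul continuous_id)))
  simp only [mul_zero, Real.zero_rpow hα.ne', add_zero] at h1
  have h2 : ∀ᶠ ρ in 𝓝[>] (0 : ℝ), c * (ρ ^ α + (3 * ρ) ^ α) ≤ δ :=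
    mem_nhdsWithin_of_mem_nhds (h1.eventually (eventually_le_nhds hδ))
  obtain ⟨ρ, h3, h4⟩ := (h2.and (Ioc_mem_nhdsGT hr)).exists
  exact ⟨ρ, h4.1, h4.2, h3⟩

/-- the time cutoff -/
theorem ex_time {τ t₁ : ℝ} (hτ : 0 < τ) (ht : 0 ≤ t₁) : ∃ s a b : ℝ, 0 ≤ s ∧ s ≤ t₁ ∧
    t₁ - s ≤ τ ∧ |b| ≤ 1 / τ ∧ (∀ t ∈ Icc s t₁, |a + b * (t - s)| ≤ 1) ∧
      a + b * (t₁ - s) = 1 ∧ (s = 0 ∨ a = 0) := by
  rcases le_total t₁ τ with h | h
  · refine ⟨0, 1, 0, le_rfl, ht, by linarith, by simp [hτ.le], fun t _ => by simp, by simp,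
      Or.inl rfl⟩
  · refine ⟨t₁ - τ, 0, 1 / τ, by linarith, by linarith, by linarith,
      (abs_of_pos (by positivity)).le, fun t ht' => ?_, by field_simp; ring, Or.inr rfl⟩
    have h1 : 0 ≤ t - (t₁ - τ) := by linarith [ht'.1]
    rw [zero_add, abs_of_nonneg (by positivity), one_div_mul_eq_div, div_le_one hτ]
    linarith [ht'.2]

end I0

open I0 in
theorem int0_of {E : Type} [NormedAddCommGroup E] [NormedSpace ℝ E] [FiniteDimensional ℝ E]
    (h : PCE E) : INT0 E := by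
  intro α hα hα1 l L hl
  obtain ⟨C, hC, hP⟩ := h α hα hα1 l L hl
  refine ⟨1 / (4 * (C + 1)), by positivity, fun τ r K hτ hr => ?_⟩
  obtain ⟨ρ, hρ, hρr, hρs⟩ := ex_rho hα (C * |K|) (r := r / 2) (δ := 1 / 4) (by positivity)
    (by norm_num)
  obtain ⟨Θ, hΘ, hθ⟩ := bump (E := E) hα hα1.le hρ
  set c₁ : ℝ := 2 * C * ((2 * (1 / τ) + 2 + 3 * |K|) * Θ) with hc₁
  have hc₁0 : 0 ≤ c₁ := by positivity
  have hq : 0 < (ρ / 2) ^ α := by positivity
  set c₂ : ℝ := c₁ * (3 * ρ) ^ α with hc₂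
  have hc₂0 : 0 ≤ c₂ := by positivity
  refine ⟨c₁ + c₂ + 2 * c₂ / (ρ / 2) ^ α, by positivity, ?_⟩
  intro T M x₀ A w wt hT hM hw hw0 hA hE hAt hf h0 h1 ⟨N, hN⟩
  have hsub : ball x₀ (r / 2) ⊆ ball x₀ r := ball_subset_ball (by linarith)
  have hcont := (cont_D2 hw).mono (prod_mono subset_rfl hsub)
  rcases subsingleton_or_nontrivial E with hs | hn
  · refine ⟨hcont, fun t _ x _ => ?_, fun t _ x _ y _ => ?_⟩
    · rw [Subsingleton.elim (D2 (w t) x) 0, norm_zero]; positivity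
    · rw [Subsingleton.elim x y, sub_self, norm_zero]; positivity
  have hK : 0 ≤ K := (norm_nonneg _).trans (hA.sup 0 ⟨le_rfl, hT⟩ x₀ (mem_ball_self hr))
  rw [abs_of_nonneg hK] at hρs hc₁
  have key : ∀ t ∈ Icc 0 T, ∀ x ∈ ball x₀ (r / 2), ‖D2 (w t) x‖ ≤ c₂ * M ∧
      ∀ y ∈ ball x (ρ / 2), ‖D2 (w t) x - D2 (w t) y‖ ≤ c₁ * M * ‖x - y‖ ^ α := by
    intro t₁ ht₁ x₁ hx₁
    obtain ⟨s, a, b, hs0, hs1, hsτ, hb, hζ, hζ1, hsa⟩ := ex_time hτ ht₁.1
    obtain ⟨θ, hθ2, hθ1, hθ0, hθp⟩ := hθ x₁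
    have hI : Icc s t₁ ⊆ Icc 0 T := Icc_subset_Icc hs0 ht₁.2
    have hU : ball x₁ ρ ⊆ ball x₀ r := ball_subset_ball' (by
      have := mem_ball.1 hx₁
      linarith)
    have hx₁' := hsub hx₁
    obtain ⟨N₀, hN₀⟩ := (isCompact_Icc (a := 0) (b := T)).exists_bound_of_continuousOn
      (f := fun t => D2 (w t) x₀) ((cont_D2 hw).comp (continuous_id.prodMk
        continuous_const).continuousOn fun t ht => ⟨ht, mem_ball_self hr⟩)
    have h2 : PB α (Icc 0 T) (ball x₀ r) (fun t => D2 (w t)) (|N₀| + |N| * r ^ α + |N|)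
        (|N₀| + |N| * r ^ α + |N|) := by
      refine ⟨cont_D2 hw, fun t ht x hx => ?_, fun t ht => (hN t ht).mono_const ?_⟩
      · have h3 := ((hN t ht).mono_const (le_abs_self N)).norm_le hα.le (abs_nonneg _) x hx
        have h4 := (hN₀ t ht).trans (le_abs_self _)
        linarith [abs_nonneg N]
      · have : 0 ≤ |N₀| + |N| * r ^ α := by positivity
        linarith [le_abs_self N]
    have hAB : ∀ t ∈ Icc s t₁, ∀ x ∈ ball x₁ ρ,
        ‖A t x - A t₁ x₁‖ ≤ 1 / (4 * (C + 1)) + K * ρ ^ α := by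
      intro t ht x hx
      have h3 := hAt t (hI ht) t₁ ht₁ (by
        rw [abs_sub_comm, abs_of_nonneg (by linarith [ht.2])]
        linarith [ht.1]) x (hU hx)
      have h4 := hA.hol t₁ ht₁ x (hU hx) x₁ hx₁'
      have h5 : ‖x - x₁‖ ^ α ≤ ρ ^ α :=
        Real.rpow_le_rpow (norm_nonneg _) (mem_ball_iff_norm.1 hx).le hα.le
      calc ‖A t x - A t₁ x₁‖ ≤ ‖A t x - A t₁ x‖ + ‖A t₁ x - A t₁ x₁‖ := norm_sub_le_norm_sub_add_norm_sub _ _ _
        _ ≤ _ := add_le_add h3 (h4.trans (mul_le_mul_of_nonneg_left h5 hK))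
    have hsmall : C * (1 / (4 * (C + 1)) + K * ρ ^ α + K * (3 * ρ) ^ α) ≤ 1 / 2 := by
      have h3 : C * (1 / (4 * (C + 1))) ≤ 1 / 4 := by
        rw [mul_one_div, div_le_iff₀ (by positivity)]
        linarith
      nlinarith
    have h6 := loc hα hC (hP _ (hE t₁ ht₁ x₁ hx₁')) hs1 hρ hK (by positivity)
      (hA.mono_set hI hU) hAB hsmall hΘ hθ2 hθ0 (hθp _).1 (hθp _).2 hb hζ (hw.mono hI hU)
      (fun x hx => by
        rcases hsa with h7 | h7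
        · rw [h7, hw0 x (hU hx), mul_zero]
        · rw [h7, zero_mul]) hM (by positivity) (hf.mono_set hI hU) (h0.mono_set hI hU)
      (h1.mono_set hI hU) (h2.mono_set hI hU) t₁ ⟨hs1, le_rfl⟩
    simp only [hζ1, one_mul] at h6
    have h7 : Hol α (c₁ * M) (D2 fun x => θ x * w t₁ x) univ :=
      h6.mono_const (le_of_eq (by rw [hc₁]; ring))
    have h8 : ∀ y ∈ ball x₁ (ρ / 2), D2 (fun x => θ x * w t₁ x) y = D2 (w t₁) y := by
      intro y hy
      have h9 : (fun x => θ x * w t₁ x) =ᶠ[𝓝 y] w t₁ := by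
        filter_upwards [isOpen_ball.mem_nhds hy] with z hz
        rw [hθ1 z hz, one_mul]
      exact h9.fderiv.fderiv_eq
    have hm : x₁ ∈ ball x₁ (ρ / 2) := mem_ball_self (by positivity)
    refine ⟨?_, fun y hy => ?_⟩
    · have h9 := h7.sup_of_support (x₀ := x₁) (ρ := 3 * ρ / 4) (r := ρ) hα.le (by positivity)
        (by linarith) (fun x hx => ?_) x₁ (mem_ball_self hρ)
      · rw [h8 x₁ hm] at h9
        refine h9.trans (le_of_eq ?_)
        rw [hc₂]; ring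
      have h10 : (fun x => θ x * w t₁ x) =ᶠ[𝓝 x] fun _ => 0 := by
        filter_upwards [isClosed_closedBall.isOpen_compl.mem_nhds hx] with z hz
        rw [hθ0 z hz, zero_mul]
      have h11 := congrArg (fun p : Jet E => p.2.2) ((jet_congr h10).trans (jet_zero x))
      exact h11
    · rw [← h8 x₁ hm, ← h8 y hy]
      exact h7 x₁ (mem_univ _) y (mem_univ _)
  have hd : 0 ≤ 2 * c₂ / (ρ / 2) ^ α := by positivity
  refine ⟨hcont, fun t ht x hx => (key t ht x hx).1.trans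
    (mul_le_mul_of_nonneg_right (by linarith) hM), fun t ht x hx y hy => ?_⟩
  have hn0 : 0 ≤ ‖x - y‖ ^ α := by positivity
  by_cases hxy : y ∈ ball x (ρ / 2)
  · exact ((key t ht x hx).2 y hxy).trans (mul_le_mul_of_nonneg_right
      (mul_le_mul_of_nonneg_right (by linarith) hM) hn0)
  · have h2 : (ρ / 2) ^ α ≤ ‖x - y‖ ^ α := by
      refine Real.rpow_le_rpow (by positivity) ?_ hα.le
      rw [mem_ball_iff_norm', not_lt] at hxy
      exact hxy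
    have h3 : 2 * c₂ * M ≤ 2 * c₂ / (ρ / 2) ^ α * M * ‖x - y‖ ^ α := by
      calc 2 * c₂ * M = 2 * c₂ / (ρ / 2) ^ α * M * (ρ / 2) ^ α := by field_simp
        _ ≤ _ := mul_le_mul_of_nonneg_left h2 (by positivity)
    calc ‖D2 (w t) x - D2 (w t) y‖ ≤ ‖D2 (w t) x‖ + ‖D2 (w t) y‖ := norm_sub_le _ _
      _ ≤ 2 * c₂ * M := by linarith [(key t ht x hx).1, (key t ht y hy).1]
      _ ≤ _ := h3.trans (mul_le_mul_of_nonneg_right
        (mul_le_mul_of_nonneg_right (by linarith) hM) hn0)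

end Vale.Agent.P253W.FP
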