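import Vale.Agent.P253W.FP.Pb
import Vale.Agent.P272.K.N.Interp

/-!
# P253W, row FP.INT1: the interior estimate from the bound on the function
-/

set_option maxSynthPendingDepth 3
set_option linter.unusedSectionVars false

open Set Metric Filter Topology
open Vale.Agent.P272.K.R (Hol Bil D2)
open Vale.Agent.P272.K.LIN (Jet jet)

noncomputable section

namespace Vale.Agent.P253W.FP

namespace Int1

variable {E : Type} [NormedAddCommGroup E] [NormedSpace ℝ E]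
variable {F : Type} [NormedAddCommGroup F] {α T ρ : ℝ} {x₁ : E}

theorem mem_t (hρ : 0 < ρ) {t : ℝ} (ht : t ∈ Icc 0 (T / ρ ^ 2)) : ρ ^ 2 * t ∈ Icc 0 T :=
  ⟨mul_nonneg (sq_nonneg _) ht.1, by
    have := (le_div_iff₀ (by positivity)).1 ht.2
    linarith⟩

theorem mem_x (hρ : 0 < ρ) {y : E} (hy : y ∈ ball (0 : E) 1) : x₁ + ρ • y ∈ ball x₁ ρ := by
  rw [mem_ball_zero_iff] at hy
  rw [mem_ball_iff_norm, add_sub_cancel_left, norm_smul, Real.norm_of_nonneg hρ.le]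
  exact mul_lt_of_lt_one_right hρ hy

theorem cont_sc (ρ : ℝ) (x₁ : E) : Continuous fun q : ℝ × E => (ρ ^ 2 * q.1, x₁ + ρ • q.2) := by
  fun_prop

theorem hol_sc {f : E → F} {B : ℝ} (hα : 0 ≤ α) (hρ : 0 < ρ) (h1 : ρ ≤ 1) (hB : 0 ≤ B)
    (h : Hol α B f (ball x₁ ρ)) : Hol α B (fun y => f (x₁ + ρ • y)) (ball 0 1) := by
  intro x hx y hy
  refine (h _ (mem_x hρ hx) _ (mem_x hρ hy)).trans (mul_le_mul_of_nonneg_left
    (Real.rpow_le_rpow (norm_nonneg _) ?_ hα) hB)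
  rw [add_sub_add_left_eq_sub, ← smul_sub, norm_smul, Real.norm_of_nonneg hρ.le]
  exact mul_le_of_le_one_left (norm_nonneg _) h1

theorem pb_sc {f : ℝ → E → F} {A B : ℝ} (hα : 0 ≤ α) (hρ : 0 < ρ) (h1 : ρ ≤ 1) (hB : 0 ≤ B)
    (h : PB α (Icc 0 T) (ball x₁ ρ) f A B) :
    PB α (Icc 0 (T / ρ ^ 2)) (ball 0 1) (fun t y => f (ρ ^ 2 * t) (x₁ + ρ • y)) A B :=
  ⟨h.cont.comp (cont_sc ρ x₁).continuousOn fun _ hq => ⟨mem_t hρ hq.1, mem_x hρ hq.2⟩,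
    fun _ ht _ hy => h.sup _ (mem_t hρ ht) _ (mem_x hρ hy),
    fun _ ht => hol_sc hα hρ h1 hB (h.hol _ (mem_t hρ ht))⟩

theorem fd_sc [NormedSpace ℝ F] (f : E → F) (x₁ : E) (ρ : ℝ) :
    fderiv ℝ (fun y => f (x₁ + ρ • y)) = fun y => ρ • fderiv ℝ f (x₁ + ρ • y) := by
  funext y
  rw [fderiv_comp_smul (f := fun u => f (x₁ + u)), fderiv_comp_add_left]

theorem d2_sc (f : E → ℝ) (x₁ : E) (ρ : ℝ) (y : E) :
    D2 (fun y => f (x₁ + ρ • y)) y = ρ ^ 2 • D2 f (x₁ + ρ • y) := by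
  rw [D2, fd_sc]
  change fderiv ℝ (ρ • fun y => fderiv ℝ f (x₁ + ρ • y)) y = _
  rw [fderiv_const_smul_field, fd_sc, Pi.smul_apply, smul_smul, sq]

theorem cl_sc {w wt : ℝ → E → ℝ} (hρ : 0 < ρ) (h : Cl (Icc 0 T) (ball x₁ ρ) w wt) :
    Cl (Icc 0 (T / ρ ^ 2)) (ball 0 1) (fun t y => w (ρ ^ 2 * t) (x₁ + ρ • y))
      (fun t y => ρ ^ 2 * wt (ρ ^ 2 * t) (x₁ + ρ • y)) := by
  refine ⟨fun t ht => (h.c2 _ (mem_t hρ ht)).comp (by fun_prop) fun y hy => mem_x hρ hy, ?_,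
    fun t ht y hy => ?_⟩
  · have h1 := h.cj.comp (cont_sc ρ x₁).continuousOn
      (s := Icc 0 (T / ρ ^ 2) ×ˢ ball (0 : E) 1) fun _ hq => ⟨mem_t hρ hq.1, mem_x hρ hq.2⟩
    refine (h1.fst.prodMk ((h1.snd.fst.const_smul ρ).prodMk
      (h1.snd.snd.const_smul (ρ ^ 2)))).congr fun q _ => ?_
    exact Prod.ext rfl (Prod.ext (congrFun (fd_sc _ _ _) _) (d2_sc _ _ _ _))
  · have h1 := (h.dt _ (mem_t hρ ht) _ (mem_x hρ hy)).comp t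
      (((hasDerivAt_id' t).const_mul (ρ ^ 2)).hasDerivWithinAt (s := Icc 0 (T / ρ ^ 2)))
      fun s hs => mem_t hρ hs
    rwa [mul_one, mul_comm] at h1

/-- Hölder bounds from bounds for the next derivative -/
theorem pb_low {w wt : ℝ → E → ℝ} {I : Set ℝ} {r a D : ℝ} (hα : 0 < α) (hα1 : α ≤ 1) (ha : 0 ≤ a)
    (hD : 1 ≤ D) (hr : 2 * r ≤ D) (h : Cl I (ball x₁ r) w wt)
    (hb : ∀ t ∈ I, ∀ x ∈ ball x₁ r,
      |w t x| ≤ a ∧ ‖fderiv ℝ (w t) x‖ ≤ a ∧ ‖D2 (w t) x‖ ≤ a) :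
    PB α I (ball x₁ r) w a (a * D) ∧ PB α I (ball x₁ r) (fun t => fderiv ℝ (w t)) a (a * D) := by
  have hs : ∀ x ∈ ball x₁ r, ∀ y ∈ ball x₁ r, ‖x - y‖ ≤ D := fun x hx y hy =>
    (norm_sub_le_of_ball hx hy).trans hr
  have c : ∀ t ∈ I, ∀ x ∈ ball x₁ r, ContDiffAt ℝ 2 (w t) x := fun t ht x hx =>
    (h.c2 t ht).contDiffAt (isOpen_ball.mem_nhds hx)
  refine ⟨⟨h.cj.fst, fun t ht x hx => (hb t ht x hx).1, fun t ht =>
    hol_of_lip hα hα1 ha hD hs fun x hx y hy => ?_⟩, ⟨h.cj.snd.fst,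
    fun t ht x hx => (hb t ht x hx).2.1, fun t ht => hol_of_lip hα hα1 ha hD hs fun x hx y hy => ?_⟩⟩
  · exact (convex_ball x₁ r).norm_image_sub_le_of_norm_fderiv_le (𝕜 := ℝ)
      (fun z hz => (c t ht z hz).differentiableAt (by norm_num))
      (fun z hz => (hb t ht z hz).2.1) hy hx
  · exact (convex_ball x₁ r).norm_image_sub_le_of_norm_fderiv_le (𝕜 := ℝ)
      (fun z hz => ((c t ht z hz).fderiv_right (m := 1) (by norm_num)).differentiableAt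
        (by norm_num)) (fun z hz => (hb t ht z hz).2.2) hy hx

theorem pb_j2 {A : ℝ → E → Jet E →L[ℝ] ℝ} {I : Set ℝ} {s : Set E} {K : ℝ} (h : PB α I s A K K) :
    PB α I s (fun t x => (A t x).comp j2) K K :=
  ⟨h.cont.clm_comp continuousOn_const,
    fun t ht x hx => (norm_comp_j2_le _).trans (h.sup t ht x hx), fun t ht x hx y hy => by
      rw [← ContinuousLinearMap.sub_comp]
      exact (norm_comp_j2_le _).trans (h.hol t ht x hx y hy)⟩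

/-- the hypotheses -/
structure Hy (α l L ε τ K T M : ℝ) (U : Set E) (A : ℝ → E → Jet E →L[ℝ] ℝ) (w wt : ℝ → E → ℝ) :
    Prop where
  T0 : 0 ≤ T
  M0 : 0 ≤ M
  cl : Cl (Icc 0 T) U w wt
  zero : ∀ x ∈ U, w 0 x = 0
  pA : PB α (Icc 0 T) U A K K
  ell : ∀ t ∈ Icc 0 T, ∀ x ∈ U, Ell l L ((A t x).comp j2)
  md : ∀ t ∈ Icc 0 T, ∀ s ∈ Icc 0 T, |t - s| ≤ τ → ∀ x ∈ U,
    ‖(A t x).comp j2 - (A s x).comp j2‖ ≤ ε
  rhs : PB α (Icc 0 T) U (fun t x => wt t x - A t x (jet (w t) x)) M M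
  sup : ∀ t ∈ Icc 0 T, ∀ x ∈ U, |w t x| ≤ M
  ex : ∃ N, 0 ≤ N ∧ ∀ t ∈ Icc 0 T, Hol α N (D2 (w t)) U

variable {l L ε τ K M : ℝ} {A : ℝ → E → Jet E →L[ℝ] ℝ} {w wt : ℝ → E → ℝ}

theorem Hy.mono {U V : Set E} (h : Hy α l L ε τ K T M U A w wt) (hV : V ⊆ U) :
    Hy α l L ε τ K T M V A w wt :=
  ⟨h.T0, h.M0, h.cl.mono Subset.rfl hV, fun x hx => h.zero x (hV hx), h.pA.mono_set Subset.rfl hV,
    fun t ht x hx => h.ell t ht x (hV hx), fun t ht s hs hts x hx => h.md t ht s hs hts x (hV hx),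
    h.rhs.mono_set Subset.rfl hV, fun t ht x hx => h.sup t ht x (hV hx),
    h.ex.imp fun _ hN => ⟨hN.1, fun t ht => (hN.2 t ht).mono hV⟩⟩

/-- the estimate on small balls -/
theorem small (h : INT0 E) (hα : 0 < α) (hα1 : α < 1) (l L : ℝ) (hl : 0 < l) :
    ∃ ε : ℝ, 0 < ε ∧ ∀ τ K : ℝ, 0 < τ → 0 ≤ K → ∃ C : ℝ, 0 ≤ C ∧ ∀ (T M ρ q : ℝ) (x₁ : E)
      (A : ℝ → E → Jet E →L[ℝ] ℝ) (w wt : ℝ → E → ℝ), 0 < ρ → ρ ≤ 1 → M ≤ ρ ^ 2 * q →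
      Hy α l L ε τ K T M (ball x₁ ρ) A w wt →
      (∀ t ∈ Icc 0 T, ∀ x ∈ ball x₁ ρ, ‖fderiv ℝ (w t) x‖ ≤ ρ * q ∧ ‖D2 (w t) x‖ ≤ q) →
      ∀ t ∈ Icc 0 T, Hol α (C * q / ρ ^ α) (D2 (w t)) (ball x₁ (ρ / 2)) := by
  obtain ⟨ε, hε, h⟩ := h α hα hα1 l L hl
  refine ⟨ε, hε, fun τ K hτ hK => ?_⟩
  obtain ⟨C, hC, h⟩ := h τ 1 K hτ one_pos
  refine ⟨C * (2 + 3 * K), by positivity, fun T M ρ q x₁ A w wt hρ h1 hq H hb t ht => ?_⟩
  have hρ2 : 0 < ρ ^ 2 := by positivity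
  have hρ3 : ρ ^ 2 ≤ 1 := pow_le_one₀ hρ.le h1
  have q0 : 0 ≤ q := nonneg_of_mul_nonneg_right (H.M0.trans hq) hρ2
  have q1 : M ≤ q := hq.trans (mul_le_of_le_one_left q0 hρ3)
  obtain ⟨p0, p1⟩ := pb_low (a := q) (D := 2) hα hα1.le q0 one_le_two (by linarith) H.cl
    fun t ht x hx => ⟨(H.sup t ht x hx).trans q1,
      (hb t ht x hx).1.trans (mul_le_of_le_one_left q0 h1), (hb t ht x hx).2⟩
  have p2 := H.rhs.add (H.pA.app (p0.prod (p1.prod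
    ((PB.zero (F := Bil E) α _ _).mono q0 (by positivity)))))
  have p3 := (pb_sc hα.le hρ h1 (by have := H.M0; positivity) p2).const_smul (ρ ^ 2)
  have c1 := cl_sc hρ H.cl
  obtain ⟨p4, p5⟩ := pb_low (a := ρ ^ 2 * q) (D := 2) hα hα1.le (by positivity) one_le_two
    (by norm_num) c1 fun t ht y hy => ⟨(H.sup _ (mem_t hρ ht) _ (mem_x hρ hy)).trans hq, by
      rw [fd_sc, norm_smul, Real.norm_of_nonneg hρ.le]
      exact (mul_le_mul_of_nonneg_left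
        (hb _ (mem_t hρ ht) _ (mem_x hρ hy)).1 hρ.le).trans_eq (by ring), by
      rw [d2_sc, norm_smul, Real.norm_of_nonneg hρ2.le]
      exact mul_le_mul_of_nonneg_left (hb _ (mem_t hρ ht) _ (mem_x hρ hy)).2 hρ2.le⟩
  have k0 : 0 ≤ ρ ^ 2 * q := by positivity
  have k1 : 0 ≤ K * (ρ ^ 2 * q) := by positivity
  have k2 : ρ ^ 2 * M ≤ ρ ^ 2 * q := mul_le_mul_of_nonneg_left q1 hρ2.le
  obtain ⟨N, hN, hN'⟩ := H.ex
  have h2 := h (T / ρ ^ 2) ((2 + 3 * K) * (ρ ^ 2 * q)) 0 _ _ _ (div_nonneg H.T0 hρ2.le)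
    (by positivity) c1 (fun y hy => by rw [mul_zero]; exact H.zero _ (mem_x hρ hy))
    (pb_sc hα.le hρ h1 hK (pb_j2 H.pA))
    (fun t ht y hy => H.ell _ (mem_t hρ ht) _ (mem_x hρ hy))
    (fun t ht s hs hts y hy => H.md _ (mem_t hρ ht) _ (mem_t hρ hs) (by
      rw [← mul_sub, abs_mul, abs_of_pos hρ2]
      exact (mul_le_of_le_one_left (abs_nonneg _) hρ3).trans hts) _ (mem_x hρ hy))
    ((p3.mono (by rw [abs_of_pos hρ2]; nlinarith) (by rw [abs_of_pos hρ2]; nlinarith)).congr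
      fun t _ y _ => ?_) (p4.mono (by nlinarith) (by nlinarith))
    (p5.mono (by nlinarith) (by nlinarith)) ⟨ρ ^ 2 * N, fun t ht => ?_⟩
  · have ht' : t / ρ ^ 2 ∈ Icc 0 (T / ρ ^ 2) :=
      ⟨div_nonneg ht.1 hρ2.le, div_le_div_of_nonneg_right ht.2 hρ2.le⟩
    have m : ∀ u ∈ ball x₁ (ρ / 2), ρ⁻¹ • (u - x₁) ∈ ball (0 : E) (1 / 2) := fun u hu => by
      rw [mem_ball_zero_iff, norm_smul, Real.norm_of_nonneg (inv_pos.2 hρ).le,
        inv_mul_lt_iff₀ hρ]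
      linarith [mem_ball_iff_norm.1 hu]
    intro u hu v hv
    have h3 := h2.hol _ ht' _ (m u hu) _ (m v hv)
    simp only [d2_sc, smul_inv_smul₀ hρ.ne', add_sub_cancel, mul_div_cancel₀ _ hρ2.ne'] at h3
    rw [← smul_sub, ← smul_sub, sub_sub_sub_cancel_right, norm_smul, norm_smul,
      Real.norm_of_nonneg hρ2.le, Real.norm_of_nonneg (inv_pos.2 hρ).le,
      Real.mul_rpow (inv_pos.2 hρ).le (norm_nonneg _), Real.inv_rpow hρ.le] at h3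
    refine le_of_mul_le_mul_left (h3.trans_eq ?_) hρ2
    ring
  · have e : jet (w (ρ ^ 2 * t)) (x₁ + ρ • y) =
        (w (ρ ^ 2 * t) (x₁ + ρ • y), fderiv ℝ (w (ρ ^ 2 * t)) (x₁ + ρ • y), 0) +
          j2 (D2 (w (ρ ^ 2 * t)) (x₁ + ρ • y)) := by
      simp [j2_apply, jet]
    simp only [d2_sc, e, map_add, map_smul, smul_eq_mul, ContinuousLinearMap.comp_apply]
    ring
  · intro x hx y hy
    simp only [d2_sc]
    rw [← smul_sub, norm_smul, Real.norm_of_nonneg hρ2.le, mul_assoc]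
    exact mul_le_mul_of_nonneg_left (hol_sc hα.le hρ h1 hN (hN' _ (mem_t hρ ht)) x hx y hy) hρ2.le

theorem absorb {P : ℝ → Prop} (hP : IsClosed {Q | P Q}) {c Q₀ : ℝ} (hc : 0 ≤ c) (h0 : 0 ≤ Q₀)
    (h1 : P Q₀) (h : ∀ Q, 0 ≤ Q → P Q → P (c + Q / 2)) : P (2 * c) := by
  have h2 : ∀ k : ℕ, P (2 * c + (Q₀ - 2 * c) * (1 / 2) ^ k) ∧
      0 ≤ 2 * c + (Q₀ - 2 * c) * (1 / 2) ^ k := by
    intro k
    induction k with
    | zero => simpa using ⟨h1, h0⟩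
    | succ k ih =>
      have e : 2 * c + (Q₀ - 2 * c) * (1 / 2) ^ (k + 1) =
        c + (2 * c + (Q₀ - 2 * c) * (1 / 2) ^ k) / 2 := by ring
      rw [e]
      exact ⟨h _ ih.2 ih.1, by linarith [ih.2]⟩
  have h3 := ((tendsto_pow_atTop_nhds_zero_of_lt_one (r := (1 / 2 : ℝ)) (by norm_num)
    (by norm_num)).const_mul (Q₀ - 2 * c)).const_add (2 * c)
  rw [mul_zero, add_zero] at h3
  exact hP.mem_of_tendsto h3 (Eventually.of_forall fun k => (h2 k).1)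

/-- weighted local Hölder bounds -/
def WH (α T r κ : ℝ) (x₀ : E) (w : ℝ → E → ℝ) (Q : ℝ) : Prop :=
  ∀ t ∈ Icc 0 T, ∀ x ∈ ball x₀ r,
    Hol α (Q / (r - dist x x₀) ^ 3) (D2 (w t)) (ball x (κ * (r - dist x x₀) / 2))

theorem WH.closed (α T r κ : ℝ) (x₀ : E) (w : ℝ → E → ℝ) :
    IsClosed {Q | WH α T r κ x₀ w Q} := by
  simp only [WH, Hol, ofPred_forall]
  iterate 8 refine isClosed_iInter fun _ => ?_
  exact isClosed_le continuous_const (by fun_prop)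

theorem ball_sub {x x₀ : E} {r s : ℝ} (h : s ≤ r - dist x x₀) : ball x s ⊆ ball x₀ r :=
  ball_subset_ball' (by linarith)

theorem WH.bd {r κ Q δ h : ℝ} {x₀ y : E} (hα : 0 ≤ α) (H : Hy α l L ε τ K T M (ball x₀ r) A w wt)
    (hW : WH α T r κ x₀ w Q) (hQ : 0 ≤ Q) (hκ : 0 < κ) (hκ1 : κ ≤ 1) (hδ : 0 < δ)
    (hy : δ ≤ r - dist y x₀) {t : ℝ} (ht : t ∈ Icc 0 T) :
    Hol α (Q / δ ^ 3) (D2 (w t)) (ball y (κ * δ / 2)) ∧ (0 < h → h < κ * δ / 2 →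
      ‖fderiv ℝ (w t) y‖ ≤ h * (4 * M / h ^ 2 + 2 * (Q / δ ^ 3) * h ^ α) ∧
      ‖D2 (w t) y‖ ≤ 2 * (4 * M / h ^ 2 + 2 * (Q / δ ^ 3) * h ^ α)) := by
  have h1 : Hol α (Q / δ ^ 3) (D2 (w t)) (ball y (κ * δ / 2)) :=
    ((hW t ht y (mem_ball.2 (by linarith))).mono (ball_subset_ball (by gcongr))).mono_const
      (by gcongr)
  refine ⟨h1, fun h0 hh => ?_⟩
  have s1 : closedBall y h ⊆ ball y (κ * δ / 2) := closedBall_subset_ball hh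
  have s2 : closedBall y h ⊆ ball x₀ r := s1.trans (ball_sub (by nlinarith))
  exact P272.K.N.bound_at h0 (by positivity) hα
    (fun z hz => (H.cl.c2 t ht).contDiffAt (isOpen_ball.mem_nhds (s2 hz)))
    (fun z hz => h1 z (s1 hz) y (s1 (mem_closedBall_self h0.le))) fun z hz => H.sup t ht z (s2 hz)

theorem arith {M η ρ z : ℝ} (hM : 0 ≤ M) (hη : 0 < η) (η1 : η ≤ 1) (hρ : 0 < ρ) (hz : 0 ≤ z) :
    M ≤ ρ ^ 2 * (2 * (4 * M / (η * ρ) ^ 2 + z)) := by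
  have e : ρ ^ 2 * (2 * (4 * M / (η * ρ) ^ 2 + z)) = 8 * M / η ^ 2 + 2 * (ρ ^ 2 * z) := by
    field_simp
    ring
  have : M ≤ 8 * M / η ^ 2 := by
    rw [le_div_iff₀ (by positivity)]
    linarith [mul_le_mul_of_nonneg_left (pow_le_one₀ (n := 2) hη.le η1) hM]
  rw [e]
  exact this.trans (le_add_of_nonneg_right (by positivity))

theorem arith2 {C M Q η κ d : ℝ} (hα1 : α ≤ 1) (hC : 0 ≤ C) (hM : 0 ≤ M) (hQ : 0 ≤ Q) (hη : 0 < η)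
    (hκ : 0 < κ) (hd : 0 < d) (ρ1 : κ * d ≤ 1) (η2 : 64 * C * η ^ α ≤ 1) :
    C * (2 * (4 * M / (η * (κ * d)) ^ 2 + 2 * (Q / (d / 2) ^ 3) * (η * (κ * d)) ^ α)) /
      (κ * d) ^ α ≤ (8 * C / (η ^ 2 * κ ^ 3) * M + Q / 2) / d ^ 3 := by
  have ρ0 : 0 < κ * d := by positivity
  have r0 : 0 < (κ * d) ^ α := by positivity
  have r1 : κ * d ≤ (κ * d) ^ α := Real.self_le_rpow_of_le_one ρ0.le ρ1 hα1
  have e : C * (2 * (4 * M / (η * (κ * d)) ^ 2 + 2 * (Q / (d / 2) ^ 3) * (η * (κ * d)) ^ α)) /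
      (κ * d) ^ α = 8 * C * M / (η * (κ * d)) ^ 2 / (κ * d) ^ α +
        64 * C * η ^ α * (Q / 2 / d ^ 3) := by
    rw [Real.mul_rpow hη.le ρ0.le]
    field_simp
    ring
  rw [e, add_div]
  refine add_le_add ((div_le_div_of_nonneg_left (by positivity) ρ0 r1).trans_eq ?_)
    (mul_le_of_le_one_left (by positivity) η2)
  field_simp

theorem WH.step {r κ η C Q : ℝ} {x₀ : E} (hα : 0 < α) (hα1 : α < 1) (hC : 0 ≤ C) (hκ : 0 < κ)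
    (κ1 : κ ≤ 1 / 2) (κ2 : κ * r ≤ 1) (hη : 0 < η) (η1 : η ≤ 1 / 8) (η2 : 64 * C * η ^ α ≤ 1)
    (H : Hy α l L ε τ K T M (ball x₀ r) A w wt)
    (h : ∀ (ρ q : ℝ) (x₁ : E), 0 < ρ → ρ ≤ 1 → M ≤ ρ ^ 2 * q →
      Hy α l L ε τ K T M (ball x₁ ρ) A w wt →
      (∀ t ∈ Icc 0 T, ∀ x ∈ ball x₁ ρ, ‖fderiv ℝ (w t) x‖ ≤ ρ * q ∧ ‖D2 (w t) x‖ ≤ q) →
      ∀ t ∈ Icc 0 T, Hol α (C * q / ρ ^ α) (D2 (w t)) (ball x₁ (ρ / 2)))
    (hQ : 0 ≤ Q) (hW : WH α T r κ x₀ w Q) :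
    WH α T r κ x₀ w (8 * C / (η ^ 2 * κ ^ 3) * M + Q / 2) := by
  intro t ht x hx
  have hM := H.M0
  have d0 : 0 < r - dist x x₀ := sub_pos.2 hx
  obtain ⟨d, hd⟩ : ∃ d, d = r - dist x x₀ := ⟨_, rfl⟩
  rw [← hd] at d0 ⊢
  have d1 : d ≤ r := by linarith [dist_nonneg (x := x) (y := x₀)]
  have ρ0 : 0 < κ * d := by positivity
  have ρ1 : κ * d ≤ 1 := (mul_le_mul_of_nonneg_left d1 hκ.le).trans κ2
  have ρ2 : κ * d ≤ 1 / 2 * d := mul_le_mul_of_nonneg_right κ1 d0.le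
  have g0 : 0 < η * (κ * d) := by positivity
  have g1 : η * (κ * d) ≤ 1 / 8 * (κ * d) := mul_le_mul_of_nonneg_right η1 ρ0.le
  have z0 : 0 ≤ 2 * (Q / (d / 2) ^ 3) * (η * (κ * d)) ^ α := by positivity
  have z1 : 0 ≤ 4 * M / (η * (κ * d)) ^ 2 := by positivity
  refine (h (κ * d) _ x ρ0 ρ1 (arith hM hη (by linarith) ρ0 z0) (H.mono (ball_sub (by linarith)))
    (fun s hs y hy => ?_) t ht).mono_const (arith2 hα1.le hC hM hQ hη hκ d0 ρ1 η2)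
  have := (hW.bd (δ := d / 2) (y := y) (h := η * (κ * d)) hα.le H hQ hκ (by linarith)
    (by positivity) (by linarith [dist_triangle y x x₀, mem_ball.1 hy]) hs).2 g0 (by linarith)
  exact ⟨this.1.trans (mul_le_mul (by linarith) (by linarith) (add_nonneg z1 z0) ρ0.le), this.2⟩

theorem WH.start {r κ N : ℝ} {x₀ : E} (κ1 : κ ≤ 1) (hN0 : 0 ≤ N)
    (hN : ∀ t ∈ Icc 0 T, Hol α N (D2 (w t)) (ball x₀ r)) : WH α T r κ x₀ w (N * r ^ 3) := by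
  intro t ht x hx
  have d0 : 0 < r - dist x x₀ := sub_pos.2 hx
  refine ((hN t ht).mono (ball_sub (by nlinarith))).mono_const ?_
  rw [le_div_iff₀ (by positivity)]
  gcongr
  linarith [dist_nonneg (x := x) (y := x₀)]

theorem fin {I : Set ℝ} {r s a b : ℝ} {x₀ : E} (hα : 0 < α) (hα1 : α ≤ 1) (hr : 0 < r) (hs : 0 < s)
    (ha : 0 ≤ a) (hb0 : 0 ≤ b) (c1 : Cl I (ball x₀ (r / 2)) w wt)
    (hb : ∀ t ∈ I, ∀ x ∈ ball x₀ (r / 2), Hol α b (D2 (w t)) (ball x s) ∧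
      |w t x| ≤ a ∧ ‖fderiv ℝ (w t) x‖ ≤ a ∧ ‖D2 (w t) x‖ ≤ a) :
    PB α I (ball x₀ (r / 2)) (fun t => jet (w t)) (a * (1 + r) + b + 2 * a / s ^ α)
      (a * (1 + r) + b + 2 * a / s ^ α) := by
  obtain ⟨p0, p1⟩ := pb_low (D := 1 + r) hα hα1 ha (by linarith) (by linarith) c1
    fun t ht x hx => (hb t ht x hx).2
  have z0 : 0 ≤ a * r := by positivity
  have z2 : 0 ≤ 2 * a / s ^ α := by positivity
  refine PB.jet (p0.mono (by linarith) (by linarith)) (p1.mono (by linarith) (by linarith))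
    ⟨c1.cj.snd.snd, fun t ht x hx => (hb t ht x hx).2.2.2.trans (by linarith),
      fun t ht x hx y hy => ?_⟩
  rcases lt_or_ge ‖y - x‖ s with hxy | hxy
  · exact ((hb t ht x hx).1 x (mem_ball_self hs) y (mem_ball_iff_norm.2 hxy)).trans
      (mul_le_mul_of_nonneg_right (by linarith) (by positivity))
  · rw [norm_sub_rev] at hxy
    have r0 : 0 < s ^ α := by positivity
    calc _ ≤ 2 * a / s ^ α * s ^ α := by
          refine ((norm_sub_le _ _).trans (add_le_add (hb t ht x hx).2.2.2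
            (hb t ht y hy).2.2.2)).trans_eq ?_
          field_simp
          ring
      _ ≤ _ := mul_le_mul (by linarith) (Real.rpow_le_rpow hs.le hxy hα.le) r0.le (by positivity)

end Int1

open Int1 in
/-- **INT1** -/
theorem int1_of {E : Type} [NormedAddCommGroup E] [NormedSpace ℝ E] (h : INT0 E) : INT1 E := by
  intro α hα hα1 l L hl
  obtain ⟨ε, hε, h⟩ := small h hα hα1 l L hl
  refine ⟨ε, hε, fun τ r K hτ hr => ?_⟩
  obtain ⟨C, hC, h⟩ := h τ |K| hτ (abs_nonneg K)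
  obtain ⟨κ, hκ, κ1, κ2⟩ : ∃ κ : ℝ, 0 < κ ∧ κ ≤ 1 / 2 ∧ κ * r ≤ 1 :=
    ⟨1 / (2 + r), by positivity, one_div_le_one_div_of_le two_pos (by linarith), by
      rw [one_div, inv_mul_le_iff₀ (by positivity)]; linarith⟩
  obtain ⟨η, hη, η1, η2⟩ : ∃ η : ℝ, 0 < η ∧ η ≤ 1 / 8 ∧ 64 * C * η ^ α ≤ 1 := by
    have h0 : 0 < (64 * C + 1)⁻¹ := by positivity
    refine ⟨min (1 / 8) ((64 * C + 1)⁻¹ ^ α⁻¹), by positivity, min_le_left _ _, ?_⟩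
    have h1 := Real.rpow_le_rpow (by positivity) (min_le_right (1 / 8) ((64 * C + 1)⁻¹ ^ α⁻¹)) hα.le
    rw [Real.rpow_inv_rpow h0.le hα.ne'] at h1
    refine (mul_le_mul_of_nonneg_left h1 (by positivity)).trans ?_
    rw [← div_eq_mul_inv, div_le_one (by positivity)]
    linarith
  obtain ⟨C₃, hC₃⟩ : ∃ C₃, C₃ = 2 * (8 * C / (η ^ 2 * κ ^ 3)) / (r / 2) ^ 3 := ⟨_, rfl⟩
  obtain ⟨h₀, hh₀⟩ : ∃ h₀, h₀ = κ * r / 8 := ⟨_, rfl⟩
  obtain ⟨C₄, hC₄⟩ : ∃ C₄, C₄ = 1 + 2 * (4 / h₀ ^ 2 + 2 * C₃ * h₀ ^ α) := ⟨_, rfl⟩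
  have c3 : 0 ≤ C₃ := by rw [hC₃]; positivity
  have h0 : 0 < h₀ := by rw [hh₀]; positivity
  have c4 : 1 ≤ C₄ := by rw [hC₄]; exact le_add_of_nonneg_right (by positivity)
  have c5 : 0 ≤ C₄ := zero_le_one.trans c4
  refine ⟨C₄ * (1 + r) + C₃ + 2 * C₄ / (2 * h₀) ^ α, by positivity,
    fun T M x₀ A w wt hT hM h1 h2 h3 h4 h5 h6 h7 ⟨N, hN⟩ => ?_⟩
  have hN' := fun t ht => (hN t ht).mono_const (le_abs_self N)
  have H : Hy α l L ε τ |K| T M (ball x₀ r) A w wt := ⟨hT, hM, h1, h2,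
    h3.mono (le_abs_self K) (le_abs_self K), h4, h5, h6, h7, |N|, abs_nonneg N, hN'⟩
  have hW := absorb (WH.closed α T r κ x₀ w) (by positivity) (by positivity)
    (WH.start (by linarith) (abs_nonneg N) hN')
    fun Q => WH.step hα hα1 hC hκ κ1 κ2 hη η1 η2 H fun ρ q x₁ => h T M ρ q x₁ A w wt
  have e : (C₄ * (1 + r) + C₃ + 2 * C₄ / (2 * h₀) ^ α) * M =
      C₄ * M * (1 + r) + C₃ * M + 2 * (C₄ * M) / (2 * h₀) ^ α := by ring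
  rw [e]
  refine fin hα hα1.le hr (by positivity) (by positivity) (by positivity)
    (h1.mono Subset.rfl (ball_subset_ball (half_le_self hr.le))) fun t ht x hx => ?_
  obtain ⟨b1, b2⟩ := hW.bd (δ := r / 2) (y := x) (h := h₀) hα.le H (by positivity) hκ
    (by linarith) (by positivity) (by linarith [mem_ball.1 hx]) ht
  have e1 : 2 * (8 * C / (η ^ 2 * κ ^ 3) * M) / (r / 2) ^ 3 = C₃ * M := by rw [hC₃]; ring
  have e2 : κ * (r / 2) / 2 = 2 * h₀ := by rw [hh₀]; ring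
  rw [e1, e2] at b1 b2
  obtain ⟨b3, b4⟩ := b2 h0 (by linarith)
  have z0 : 0 ≤ 4 * M / h₀ ^ 2 + 2 * (C₃ * M) * h₀ ^ α := by positivity
  have z1 : 2 * (4 * M / h₀ ^ 2 + 2 * (C₃ * M) * h₀ ^ α) ≤ C₄ * M := by
    rw [hC₄]
    exact (le_add_of_nonneg_left hM).trans_eq (by ring)
  exact ⟨b1, (h7 t ht x (ball_subset_ball (by linarith) hx)).trans (le_mul_of_one_le_left hM c4),
    b3.trans ((mul_le_mul_of_nonneg_right (by linarith) z0).trans z1), b4.trans z1⟩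

end Vale.Agent.P253W.FP
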