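import Vale.Agent.P253W.FP.MDefs
import Vale.Agent.P253W.FP.Pb
import Vale.Agent.P272.K.IE.Final
import Vale.Agent.P272.K.EST.Local

/-!
# P253W, block FP, row LIM: the limit of the approximating flows
-/

set_option maxSynthPendingDepth 3
set_option linter.unusedSectionVars false

open scoped Manifold ContDiff Bundle ENNReal Topology ComplexConjugate ComplexOrder Matrix
open Bundle IsManifold MeasureTheory Set Metric Filter Vale.Agent.P253.Mfd Vale.Agent.P253Z
open Vale.Agent.P272.K (Cm dz dzb cHess jacM Chart dz_congr dz_add dz_sub dz_const_mul)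
open Vale.Agent.P272.K.R (Hol Bil D2)
open Vale.Agent.P272.K.LIN (Jet jet)
open Vale.Agent.P272.K.N (lev lev_apply cHess_eq_lev)
open Vale.Agent.P272.K.EST

noncomputable section

namespace Vale.Agent.P253W.FP

variable {n : ℕ} {M : Type} [MetricSpace M] [ChartedSpace (Cm n) M]

namespace LimA

theorem psd_smul {A : Mx n} (h : A.PosSemidef) {c : ℝ} (hc : 0 ≤ c) : ((c : ℂ) • A).PosSemidef :=
  h.smul (Complex.zero_le_real.2 hc)

theorem qm_of {a g : Mx n} {L c C : ℝ} (L0 : 0 < L) (c0 : 0 < c) (a0 : a.PosSemidef)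
    (ha : (fun i j => a i j) ∈ QM n L) (h1 : (g - (c : ℂ) • a).PosSemidef)
    (h2 : ((C : ℂ) • a - g).PosSemidef) : (fun i j => g i j) ∈ QM n (L * (c⁻¹ + |C|)) := by
  have e1 : (L * (c⁻¹ + |C|))⁻¹ ≤ c * L⁻¹ := by
    rw [mul_inv, mul_comm c]
    refine mul_le_mul_of_nonneg_left (inv_le_of_inv_le₀ c0 ?_) (inv_pos.2 L0).le
    exact le_add_of_nonneg_right (abs_nonneg C)
  constructor
  · have := (h1.add (psd_smul ha.1 c0.le)).add (psd_smul Matrix.PosSemidef.one (sub_nonneg.2 e1))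
    convert this using 1
    change g - _ = g - _ + _ • (a - _) + _
    push_cast
    module
  · have := ((h2.add (psd_smul a0 (sub_nonneg.2 (le_abs_self C)))).add
      (psd_smul ha.2 (abs_nonneg C))).add
      (psd_smul Matrix.PosSemidef.one (mul_pos L0 (inv_pos.2 c0)).le)
    convert this using 1
    change _ - g = _ - g + _ + _ • (_ - a) + _
    simp only [Complex.ofReal_mul, Complex.ofReal_add, Complex.ofReal_sub]
    module

theorem ld_cont (hq : MAQ n) {L : ℝ} (L0 : 0 < L) :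
    ContinuousOn (fun a : Pm n => Real.log (Matrix.of a).det.re) (QM n L) :=
  (Complex.continuous_re.comp (continuous_id.matrix_det)).continuousOn.log fun a ha =>
    (Complex.pos_iff.1 (hq.pos L L0 a ha).det_pos).1.ne'

theorem lev_cont : Continuous (lev : Bil (Cm n) → Mx n) :=
  continuous_matrix fun i j => by simp only [lev_apply]; fun_prop

theorem hs_eq {f : M → ℝ} {e : Chart n M} {z : Cm n}
    (h : ContDiffAt ℝ 2 (fun y => f (e.symm y)) z) :
    hs f e z = lev (jet (fun y => f (e.symm y)) z).2.2 :=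
  cHess_eq_lev ((h.fderiv_right (m := 1) (by norm_num)).differentiableAt (by norm_num))

variable [RiemannianBundle (fun x : M => TangentSpace 𝓘(ℝ, Cm n) x)]

/-- the metric as a function of the jet -/
def AA (e : Chart n M) (q : ℝ × Cm n × Jet (Cm n)) : Pm n :=
  fun i j => (hm e q.2.1 - (q.1 : ℂ) • ric e q.2.1 + lev q.2.2.2.2) i j

/-- the right hand side -/
def FF (e : Chart n M) (q : ℝ × Cm n × Jet (Cm n)) : ℝ :=
  Real.log (Matrix.of (AA e q)).det.re - Real.log (vd e q.2.1)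

/-- the closed set of admissible jets -/
def WW (e : Chart n M) (p : Cm n) (ρ L : ℝ) : Set (ℝ × Cm n × Jet (Cm n)) :=
  univ ×ˢ closedBall p ρ ×ˢ univ ∩ AA e ⁻¹' QM n L

theorem ric_sm (hb : B1b n M) {e : Chart n M} (he : Hc e) {z : Cm n} (hz : z ∈ e.target) (i j) :
    ContDiffAt ℝ ∞ (fun y => ric e y i j) z :=
  smooth_cHess ((hb.vd_sm e he z hz).log (hb.vd_pos e he z hz).ne').neg i j

theorem AA_eq {φ : ℝ → M → ℝ} {e : Chart n M} {t : ℝ} {z : Cm n}
    (h : ContDiffAt ℝ 2 (fun y => φ t (e.symm y)) z) :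
    Matrix.of (AA e (t, z, jet (fun y => φ t (e.symm y)) z)) = g0 φ t e z := by
  rw [g0, hs_eq h]; rfl

theorem WW_cl (hb : B1b n M) (hq : MAQ n) {e : Chart n M} (he : Hc e) {p : Cm n} {ρ L : ℝ}
    (L0 : 0 < L) (hs : closedBall p ρ ⊆ e.target) :
    IsClosed (WW e p ρ L) ∧ ContinuousOn (FF e) (WW e p ρ L) := by
  have c : ∀ {G : Type} [NormedAddCommGroup G] [NormedSpace ℝ G] {f : Cm n → G},
      (∀ z ∈ e.target, ContDiffAt ℝ ∞ f z) → ContinuousOn
      (fun q : ℝ × Cm n × Jet (Cm n) => f q.2.1) (univ ×ˢ closedBall p ρ ×ˢ univ) :=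
    fun h q hq => (ContinuousAt.comp (f := fun q : ℝ × Cm n × Jet (Cm n) => q.2.1)
      (h _ (hs hq.2.1)).continuousAt (by fun_prop)).continuousWithinAt
  have cA : ContinuousOn (AA e) (univ ×ˢ closedBall p ρ ×ˢ univ) :=
    continuousOn_pi.2 fun i => continuousOn_pi.2 fun j =>
      ((c fun z hz => hb.wsm e he z hz i j).sub ((by fun_prop : Continuous
        fun q : ℝ × Cm n × Jet (Cm n) => (q.1 : ℂ)).continuousOn.mul
        (c fun z hz => ric_sm hb he hz i j))).add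
      ((lev_cont.comp (by fun_prop)).matrix_elem i j).continuousOn
  refine ⟨cA.preimage_isClosed_of_isClosed
    (isClosed_univ.prod (isClosed_closedBall.prod isClosed_univ)) (hq.cpt L).isClosed, ?_⟩
  exact ((ld_cont hq L0).comp (cA.mono inter_subset_left) fun q h => h.2).sub
    (((c (hb.vd_sm e he)).mono inter_subset_left).log fun q h =>
      (hb.vd_pos e he _ (hs h.1.2.1)).ne')

/-- the conclusion of the local estimates -/
def Gd (e : Chart n M) (p : Cm n) (ρ L K S : ℝ) (w : ℝ → Cm n → ℝ) : Prop :=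
  Cl (Icc 0 S) (ball p ρ) w (fun t z => FF e (t, z, jet (w t) z)) ∧ ∀ t ∈ Icc 0 S,
    Hol (1 / 2) K (D2 (w t)) (ball p ρ) ∧ ∀ z ∈ ball p ρ, (t, z, jet (w t) z) ∈ WW e p ρ L ∧
      |w t z| ≤ K ∧ |FF e (t, z, jet (w t) z)| ≤ K

/-- the uniform estimates near a point -/
theorem loc (ha : B1a n M) (hb : B1b n M) (hu : MU n M) (hq : MAQ n) (hc : C3 n) (x : M) {S : ℝ}
    (S0 : 0 ≤ S) {U : Set M} (hU : U ∈ 𝓝 x) {c : ℝ} (C : ℝ) (c0 : 0 < c) :
    ∃ ρ > 0, ∃ L > 0, ∃ K, closedBall (pc n x x) ρ ⊆ (pc n x).target ∧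
      ∀ (σ : M → ℝ) (φ : ℝ → M → ℝ), Sm n σ → Sol n σ S φ → (∀ y ∈ U, σ y = 1) →
      (∀ t ∈ Icc 0 S, ∀ z ∈ (pc n x).target, (pc n x).symm z ∈ U →
        (g0 φ t (pc n x) z - (c : ℂ) • hm (pc n x) z).PosSemidef ∧
        ((C : ℂ) • hm (pc n x) z - g0 φ t (pc n x) z).PosSemidef) →
      Gd (pc n x) (pc n x x) ρ L K S fun t z => φ t ((pc n x).symm z) := by
  have he := ha.chart x
  have hx := mem_chart_source (Cm n) x
  set e := pc n x
  set p := e x
  obtain ⟨R, R0, hR⟩ := nhds_basis_closedBall.mem_iff.1 (inter_mem (e.open_target.mem_nhds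
    (e.map_source hx)) ((e.continuousAt_symm (e.map_source hx)).preimage_mem_nhds
      (by rwa [e.left_inv hx])))
  have hK := isCompact_closedBall p R
  have sub : closedBall p R ⊆ e.target := fun z hz => (hR hz).1
  obtain ⟨L₀, L1, hL⟩ := hq.unif _ (hK.image_of_continuousOn (f := fun z i j => hm e z i j)
    (continuousOn_pi.2 fun i => continuousOn_pi.2 fun j z hz =>
      (hb.wsm e he z (sub hz) i j).continuousAt.continuousWithinAt))
    (by rintro _ ⟨z, hz, rfl⟩; exact hb.wpos e he z (sub hz))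
  have L0 : 0 < L₀ := one_pos.trans_le L1
  set L := L₀ * (c⁻¹ + |C|)
  have L2 : 0 < L := by positivity
  obtain ⟨B, hB⟩ := (hq.cpt L).exists_bound_of_continuousOn (ld_cont hq L2)
  obtain ⟨B₀, hB₀⟩ := (hq.cpt L₀).exists_bound_of_continuousOn (ld_cont hq L0)
  obtain ⟨A₁, A1, hA₁⟩ := exists_common_bound hK
    (fun (q : Fin n × Fin n × Fin n) z => dz q.1 (fun y => hm e y q.2.1 q.2.2) z)
    fun q z hz => (smooth_dz (hb.wsm e he z (sub hz) _ _) _).continuousAt.continuousWithinAt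
  obtain ⟨A₂, A2, hA₂⟩ := exists_common_bound hK (fun (q : Fin n × Fin n) z => ric e z q.1 q.2)
    fun q z hz => (ric_sm hb he (sub hz) _ _).continuousAt.continuousWithinAt
  obtain ⟨A₃, A3, hA₃⟩ := exists_common_bound hK
    (fun (q : Fin n × Fin n × Fin n) z => dz q.1 (fun y => ric e y q.2.1 q.2.2) z)
    fun q z hz => (smooth_dz (ric_sm hb he (sub hz) _ _) _).continuousAt.continuousWithinAt
  obtain ⟨C₃, h3⟩ := hc (R / 2) R L⁻¹ L A₁ (by positivity) (by linarith) (by positivity)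
  set N := |B + B₀| * S + (L + L₀ + S * A₂) + (|C₃| + A₁ + S * A₃) with hN
  obtain ⟨CI, hI⟩ := Vale.Agent.P272.K.IE.ie n p (R / 4) (R / 2) (1 / 2) N (by positivity)
    (by linarith) (by norm_num) (by norm_num)
  have n1 : 0 ≤ |B + B₀| * S := by positivity
  have n2 : 0 ≤ L + L₀ + S * A₂ := by positivity
  have n3 : 0 ≤ |C₃| + A₁ + S * A₃ := by positivity
  refine ⟨R / 4, by positivity, L, L2, |CI| + N + |B + B₀|,
    (closedBall_subset_closedBall (by linarith)).trans sub, fun σ φ sσ sol h1 hg => ?_⟩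
  have bb : ball p R ⊆ closedBall p R := ball_subset_closedBall
  have b2 : ball p (R / 2) ⊆ ball p R := ball_subset_ball (by linarith)
  have b4 : ball p (R / 4) ⊆ ball p R := ball_subset_ball (by linarith)
  have s1 : ∀ z ∈ ball p R, σ (e.symm z) = 1 := fun z hz => h1 _ (hR (bb hz)).2
  have sb : ball p R ⊆ {z ∈ e.target | 0 < σ (e.symm z)} := fun z hz =>
    ⟨sub (bb hz), by rw [s1 z hz]; exact one_pos⟩
  have one : ∀ t, ∀ z ∈ ball p R, hh σ e z = hm e z ∧ gh σ φ t e z = g0 φ t e z := fun t z hz =>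
    hu.one σ φ t e z (mem_of_superset (isOpen_ball.mem_nhds hz) s1)
  have qm : ∀ t ∈ Icc 0 S, ∀ z ∈ ball p R, (fun i j => g0 φ t e z i j) ∈ QM n L := fun t ht z hz =>
    qm_of L0 c0 (hb.wpos e he z (sub (bb hz))).posSemidef (hL ⟨z, bb hz, rfl⟩)
      (hg t ht z (sub (bb hz)) (hR (bb hz)).2).1 (hg t ht z (sub (bb hz)) (hR (bb hz)).2).2
  have sm : ∀ t ∈ Icc 0 S, ∀ z ∈ ball p R, ContDiffAt ℝ ∞ (fun y => φ t (e.symm y)) z :=
    fun t ht z hz => ((sol.sm e he).comp (f := fun y => (t, y)) (by fun_prop)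
      fun y hy => ⟨ht, sb hy⟩).contDiffAt (isOpen_ball.mem_nhds hz)
  have aa : ∀ t ∈ Icc 0 S, ∀ z ∈ ball p R,
      Matrix.of (AA e (t, z, jet (fun y => φ t (e.symm y)) z)) = g0 φ t e z := fun t ht z hz =>
    AA_eq ((sm t ht z hz).of_le (by norm_cast))
  have cl : Cl (Icc 0 S) (ball p R) (fun t z => φ t (e.symm z))
      (fun t z => FF e (t, z, jet (fun z => φ t (e.symm z)) z)) :=
    ((hu.cl σ sσ S φ sol e he).1.mono le_rfl sb).congr isOpen_ball (fun _ _ _ _ => rfl)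
      fun t ht z hz => by rw [FF, aa t ht z hz, (one t z hz).1, (one t z hz).2]; rfl
  have fb : ∀ t ∈ Icc 0 S, ∀ z ∈ ball p R,
      |FF e (t, z, jet (fun z => φ t (e.symm z)) z)| ≤ |B + B₀| := fun t ht z hz => by
    rw [FF, aa t ht z hz]
    exact (abs_sub _ _).trans ((add_le_add (hB _ (qm t ht z hz))
      (hB₀ _ (hL ⟨z, bb hz, rfl⟩))).trans (le_abs_self _))
  have wb : ∀ t ∈ Icc 0 S, ∀ z ∈ ball p R, |φ t (e.symm z)| ≤ N := fun t ht z hz => by
    have := (convex_Icc 0 S).norm_image_sub_le_of_norm_hasDerivWithin_le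
      (fun s hs => cl.dt s hs z hz) (fun s hs => fb s hs z hz) ⟨le_rfl, S0⟩ ht
    rw [sol.zero _ (sb hz).2, sub_zero, sub_zero, Real.norm_of_nonneg ht.1] at this
    linarith [show |φ t (e.symm z)| ≤ _ from this,
      mul_le_mul_of_nonneg_left ht.2 (abs_nonneg (B + B₀))]
  have nr : ∀ z ∈ ball p R, ∀ i j, (fun y => hh σ e y i j) =ᶠ[𝓝 z] fun y => hm e y i j :=
    fun z hz i j => mem_of_superset (isOpen_ball.mem_nhds hz) fun y hy =>
      congrFun₂ (one 0 y hy).1 i j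
  have c3 := h3 p S (fun t z => gh σ φ t e z) (fun _ _ _ _ => 0) S0
    (fun i j => (hu.gh_sm σ sσ S φ sol.sm e he i j).mono (prod_mono le_rfl sb))
    (fun t ht z hz => by rw [(one t z hz).2]; exact qm t ht z hz)
    (fun t ht z hz => hu.gh_t σ sσ S φ sol t ht e he z (sb hz).1 (sb hz).2)
    (fun t ht z hz a i j => by
      rw [hu.gh_tor σ sσ S φ sol.sm t ht e he z (sb hz).1 (sb hz).2, dz_congr (nr z hz i j),
        dz_congr (nr z hz a j), hb.wcl e he z (sb hz).1 i j a, sub_self])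
    (fun a i j k _ z _ => by simpa using A1)
    fun z hz a i j => by
      rw [dz_congr (EventuallyEq.trans (mem_of_superset (isOpen_ball.mem_nhds hz) fun y hy =>
        congrFun₂ (hu.gh_zero σ sσ φ sol.zero e he y (sb hy).1 (sb hy).2) i j) (nr z hz i j))]
      exact hA₁ (a, i, j) z (bb hz)
  refine ⟨cl.mono le_rfl b4, fun t ht => ⟨fun y hy y' hy' => ?_, fun z hz =>
    ⟨⟨⟨mem_univ _, ball_subset_closedBall hz, mem_univ _⟩, ?_⟩, ?_, ?_⟩⟩⟩
  · have tn : ‖(t : ℂ)‖ ≤ S := by rw [Complex.norm_real, Real.norm_of_nonneg ht.1]; exact ht.2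
    have d3 : ∀ z ∈ ball p (R / 2), ∀ i j k,
        ‖dz k (fun y => cHess (fun y => φ t (e.symm y)) y i j) z‖ ≤ N := fun z hz i j k => by
      have hz' := b2 hz
      have d1 := diffble_of_smooth (hb.wsm e he z (sb hz').1 i j)
      have d2 := diffble_of_smooth (ric_sm hb he (sb hz').1 i j)
      have e1 : dz k (fun y => gh σ φ t e y i j) z = dz k (fun y => hm e y i j) z -
          t * dz k (fun y => ric e y i j) z +
          dz k (fun y => cHess (fun y => φ t (e.symm y)) y i j) z := by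
        rw [← dz_const_mul _ d2, ← dz_sub d1 (d2.const_mul _), ← dz_add
          (d1.fun_sub (d2.const_mul _)) (diffble_of_smooth (smooth_cHess (sm t ht z hz') i j))]
        exact dz_congr (mem_of_superset (isOpen_ball.mem_nhds hz') fun y hy =>
          congrFun₂ (one t y hy).2 i j)
      rw [eq_sub_of_add_eq' e1.symm]
      refine (norm_sub_le_of_le (c3 t ht z (ball_subset_closedBall hz) k i j) (norm_sub_le_of_le
        (hA₁ (k, i, j) z (bb hz')) (norm_mul_le_of_le tn (hA₃ (k, i, j) z (bb hz'))))).trans ?_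
      linarith [le_abs_self C₃]
    refine (hI _ (fun z hz => sm t ht z (b2 hz)) (fun z hz => wb t ht z (b2 hz))
      (fun z hz i j => ?_) d3 (fun z hz i j k => ?_) y (ball_subset_closedBall hy) y'
      (ball_subset_closedBall hy')).trans (mul_le_mul_of_nonneg_right ?_ (by positivity))
    · have hz' := b2 hz
      have e1 : cHess (fun y => φ t (e.symm y)) z i j =
          g0 φ t e z i j - (hm e z i j - t * ric e z i j) := eq_sub_of_add_eq' rfl
      have en : ∀ a : Pm n, ‖a i j‖ ≤ ‖a‖ := fun a =>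
        (norm_le_pi_norm (a i) j).trans (norm_le_pi_norm a i)
      rw [e1]
      refine (norm_sub_le_of_le ((en _).trans (hq.bd L L2 _ (qm t ht z hz')))
        (norm_sub_le_of_le ((en _).trans (hq.bd L₀ L0 _ (hL ⟨z, bb hz', rfl⟩)))
          (norm_mul_le_of_le tn (hA₂ (i, j) z (bb hz'))))).trans ?_
      linarith
    · rw [dzb_cHess (sm t ht z (b2 hz)) i j k, RCLike.norm_conj]
      exact d3 z hz j i k
    · linarith [le_abs_self CI, abs_nonneg (B + B₀)]
  · have := qm t ht z (b4 hz)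
    rw [← aa t ht z (b4 hz)] at this
    exact this
  · linarith [wb t ht z (b4 hz), abs_nonneg CI, abs_nonneg (B + B₀)]
  · linarith [fb t ht z (b4 hz), abs_nonneg CI]

end LimA

open LimA in
/-- **LIM** -/
theorem lim_of [RiemannianBundle (fun x : M => TangentSpace 𝓘(ℝ, Cm n) x)] (ha : B1a n M)
    (hb : B1b n M) (hu : MU n M) (hq : MAQ n) (hc : C3 n) (hU : ULIM (Cm n)) (hw : WREG n M) :
    LIM n M := by
  intro σ T φ sσ sol hT H
  set 𝒰 := hyperfilter ℕ
  have le : (𝒰 : Filter ℕ) ≤ atTop := Nat.hyperfilter_le_atTop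
  have key : ∀ (x : M) (S : ℝ), 0 ≤ S → ∃ ρ > 0, ∃ L > 0, ∃ K,
      closedBall (pc n x x) ρ ⊆ (pc n x).target ∧ ∀ᶠ k in 𝒰,
        Gd (pc n x) (pc n x x) ρ L K S fun t z => φ k t ((pc n x).symm z) := fun x S S0 => by
    obtain ⟨U, hU, c, C, c0, h⟩ := H x S
    obtain ⟨ρ, ρ0, L, L0, K, sub, k⟩ := loc ha hb hu hq hc x S0 hU C c0
    exact ⟨ρ, ρ0, L, L0, K, sub, le ((h.and (hT.eventually_ge_atTop S)).mono fun i hi =>
      k (σ i) (φ i) (sσ i) (hu.mono _ _ _ _ hi.2 (sol i)) hi.1.1 fun t ht =>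
        hi.1.2 t ht _ (ha.chart x))⟩
  set ψ : ℝ → M → ℝ := fun t x => limUnder 𝒰 fun k => φ k t x
  have src := fun x : M => mem_chart_source (Cm n) x
  have lim : ∀ t, 0 ≤ t → ∀ x, Tendsto (fun k => φ k t x) 𝒰 (𝓝 (ψ t x)) := fun t ht x => by
    obtain ⟨ρ, ρ0, L, -, K, -, h⟩ := key x t ht
    obtain ⟨a, -, h'⟩ := (isCompact_Icc (a := -K) (b := K)).ultrafilter_le_nhds
      (𝒰.map fun k => φ k t x) (le_principal_iff.2 (h.mono fun k hk => by
        have := ((hk.2 t ⟨ht, le_rfl⟩).2 _ (mem_ball_self ρ0)).2.1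
        simp only [(pc n x).left_inv (src x)] at this
        exact abs_le.1 this))
    exact tendsto_nhds_limUnder ⟨a, h'⟩
  have key2 := fun (x : M) (S : ℝ) (S0 : 0 ≤ S) => (key x S S0).imp fun ρ k => k.imp_right
    fun k => k.imp fun L k => (and_self_left.2 k).imp_right fun k => k.2.imp fun K k' =>
      (⟨k'.1, k'.2, hU (1 / 2) S K ℕ 𝒰 _ _ _ _ (fun t z => ψ t ((pc n x).symm z)) (by norm_num)
        (by norm_num) S0 isOpen_ball (WW_cl hb hq (ha.chart x) k.1 k'.1).1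
        (WW_cl hb hq (ha.chart x) k.1 k'.1).2 (fun t ht z _ => lim t ht.1 _) k'.2⟩ : _ ∧ _ ∧ _)
  have z0 : ∀ x, ψ 0 x = 0 := fun x => by
    obtain ⟨U, hU, c, C, -, h⟩ := H x 0
    refine tendsto_nhds_unique (lim 0 le_rfl x) (tendsto_const_nhds.congr' (le (h.mono
      fun k hk => ((sol k).zero x ?_).symm)))
    rw [hk.1 x (mem_of_mem_nhds hU)]
    exact one_pos
  have one := fun t e z => hu.one (fun _ => 1) ψ t e z (Eventually.of_forall fun _ => rfl)
  have sψ : ∀ S, 0 < S → Sol n (fun _ => 1) S ψ := fun S S0 => by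
    refine hw _ S ψ (fun e _ z _ => contDiffAt_const) S0 ⟨fun x _ => z0 x, fun x _ => ?_⟩
    obtain ⟨ρ, ρ0, L, L0, K, sub, -, cl, h⟩ := key2 x S S0.le
    have aa := fun t ht z hz => AA_eq (φ := ψ) ((cl.c2 t ht).contDiffAt
      (isOpen_ball.mem_nhds (x := z) hz))
    refine ⟨pc n x, _, K, ha.chart x, src x, isOpen_ball, mem_ball_self ρ0,
      ball_subset_closedBall.trans sub, fun _ _ => one_pos, cl.congr isOpen_ball
      (fun _ _ _ _ => rfl) fun t ht z hz => ?_, fun t ht => ⟨(h t ht).1, fun z hz => ?_⟩⟩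
    · rw [FF, aa t ht z hz, (one t _ z).1, (one t _ z).2]; rfl
    · rw [(one t _ z).2, ← aa t ht z hz]
      exact hq.pos L L0 _ ((h t ht).2 z hz).1.2
  refine ⟨𝒰, ψ, le, fun e he q hq => ?_, z0, fun t ht e he z hz => ?_, fun t ht x => ?_, lim,
    fun t ht e he z hz i j => ?_⟩
  · have h1 : q.1 < q.1 + 1 := lt_add_one _
    refine ((sψ _ (lt_of_le_of_lt hq.1 h1)).sm e he q ⟨⟨hq.1, h1.le⟩, hq.2, one_pos⟩).mono_of_mem_nhdsWithin
      (mem_nhdsWithin.2 ⟨Iio (q.1 + 1) ×ˢ univ, isOpen_Iio.prod isOpen_univ, ⟨h1, mem_univ _⟩,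
        fun y hy => ⟨⟨hy.2.1, le_of_lt hy.1.1⟩, hy.2.2, one_pos⟩⟩)
  · rw [← (one t e z).2]
    exact (sψ (t + 1) (by linarith)).pos t ⟨ht, by linarith⟩ e he z hz one_pos
  · have := ((sψ (t + 1) (by linarith)).eq t ⟨ht.le, by linarith⟩ x one_pos).hasDerivAt
      (Icc_mem_nhds ht (lt_add_one t))
    rwa [lvh, (one t _ _).1, (one t _ _).2] at this
  · obtain ⟨ρ, ρ0, L, -, K, -, h, cl, h'⟩ := key2 (e.symm z) t ht
    have tt : t ∈ Icc 0 t := ⟨ht, le_rfl⟩
    have nb := isOpen_ball.mem_nhds (mem_ball_self (x := pc n (e.symm z) (e.symm z)) ρ0)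
    have ch : ∀ f : M → ℝ, ContDiffAt ℝ 2 (fun y => f ((pc n (e.symm z)).symm y))
        (pc n (e.symm z) (e.symm z)) → hs f e z = pb (jacM e (pc n (e.symm z)) (e.symm z))
          (lev (jet (fun y => f ((pc n (e.symm z)).symm y)) (pc n (e.symm z) (e.symm z))).2.2) :=
      fun f hf => by
        rw [← hs_eq hf, ← (hu.hs_ch f e _ he (ha.chart _) _ (e.map_target hz) (src _) hf).2,
          e.right_inv hz]
    have ct : Continuous fun b : Jet (Cm n) =>
        pb (jacM e (pc n (e.symm z)) (e.symm z)) (lev b.2.2) i j :=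
      ((continuous_const.matrix_mul (lev_cont.comp (by fun_prop))).matrix_mul
        continuous_const).matrix_elem i j
    rw [ch _ ((cl.c2 t tt).contDiffAt nb)]
    refine ((ct.tendsto _).comp ((h' t tt).2 _ (mem_ball_self ρ0)).2).congr'
      (h.mono fun k hk => ?_)
    exact (congrFun₂ (ch _ ((hk.1.c2 t tt).contDiffAt nb)) i j).symm

end Vale.Agent.P253W.FP
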