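import Vale.Agent.P253W.FP.Pb

/-!
# P253W, block FP: linear equations in a uniform atlas
-/

set_option maxSynthPendingDepth 3

open Set Metric Filter Topology
open scoped ContDiff
open Vale.Agent.P272.K.R (Hol Bil D2)
open Vale.Agent.P272.K.LIN (Jet jet)

noncomputable section

namespace Vale.Agent.P253W.FP.Lx

variable {E : Type} [NormedAddCommGroup E] [NormedSpace ℝ E]

/-- smooth functions are bounded and Lipschitz on compact sets -/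
theorem lip_cpt {G F : Type*} [NormedAddCommGroup G] [NormedAddCommGroup F] {S : Set G}
    {φ : G → F} (hS : IsCompact S) (h : LocallyLipschitzOn S φ) :
    ∃ C : ℝ, 0 ≤ C ∧ ∀ q ∈ S, ‖φ q‖ ≤ C ∧ ∀ q' ∈ S, ‖φ q - φ q'‖ ≤ C * ‖q - q'‖ := by
  obtain ⟨K, hK⟩ := h.exists_lipschitzOnWith_of_compact hS
  obtain ⟨A, hA⟩ := hS.exists_bound_of_continuousOn h.continuousOn
  refine ⟨max (max A 0) K, (le_max_right _ _).trans (le_max_left _ _), fun q hq =>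
    ⟨(hA q hq).trans ((le_max_left _ _).trans (le_max_left _ _)), fun q' hq' => ?_⟩⟩
  have := hK.dist_le_mul q hq q' hq'
  rw [dist_eq_norm, dist_eq_norm] at this
  exact this.trans (mul_le_mul_of_nonneg_right (le_max_right _ _) (norm_nonneg _))

theorem lip_open {G F : Type*} [NormedAddCommGroup G] [NormedSpace ℝ G] [NormedAddCommGroup F]
    [NormedSpace ℝ F] {S V : Set G} {φ : G → F} (hS : IsCompact S) (hV : IsOpen V) (hSV : S ⊆ V)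
    (h : ContDiffOn ℝ ∞ φ V) :
    ∃ C : ℝ, 0 ≤ C ∧ ∀ q ∈ S, ‖φ q‖ ≤ C ∧ ∀ q' ∈ S, ‖φ q - φ q'‖ ≤ C * ‖q - q'‖ := by
  refine lip_cpt hS fun q hq => ?_
  obtain ⟨K, t, ht, hK⟩ := ContDiffAt.exists_lipschitzOnWith
    ((h.contDiffAt (hV.mem_nhds (hSV hq))).of_le (m := 1) (by exact_mod_cast le_top))
  exact ⟨K, t, mem_nhdsWithin_of_mem_nhds ht, hK⟩

theorem lip_time {F : Type*} [NormedAddCommGroup F] [NormedSpace ℝ F] {Q V : Set E} {T : ℝ}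
    {φ : ℝ × E → F} (hQ : IsCompact Q) (hV : IsOpen V) (hQV : Q ⊆ V)
    (h : ContDiffOn ℝ ∞ φ (Icc 0 T ×ˢ V)) : ∃ C : ℝ, 0 ≤ C ∧ ∀ q ∈ Icc 0 T ×ˢ Q, ‖φ q‖ ≤ C ∧
      ∀ q' ∈ Icc 0 T ×ˢ Q, ‖φ q - φ q'‖ ≤ C * ‖q - q'‖ := by
  refine lip_cpt (isCompact_Icc.prod hQ) fun q hq => ?_
  obtain ⟨ε, hε, hb⟩ := Metric.isOpen_iff.1 hV q.2 (hQV hq.2)
  obtain ⟨K, t, ht, hK⟩ := ContDiffWithinAt.exists_lipschitzOnWith
    (((h q ⟨hq.1, hQV hq.2⟩).mono (prod_mono subset_rfl hb)).of_le (m := 1)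
      (by exact_mod_cast le_top)) ((convex_Icc 0 T).prod (convex_ball _ _))
  refine ⟨K, t, nhdsWithin_le_of_mem ?_ ht, hK⟩
  filter_upwards [self_mem_nhdsWithin, mem_nhdsWithin_of_mem_nhds
    (continuous_snd.continuousAt.preimage_mem_nhds (ball_mem_nhds q.2 hε))] with q' h1 h2
  exact ⟨h1.1, h2⟩

omit [NormedSpace ℝ E] in
theorem pb_comp {G F : Type} [NormedAddCommGroup G] [NormedAddCommGroup F] {S : Set G}
    {φ : G → F} {C α A B : ℝ} {I : Set ℝ} {s : Set E} {f : ℝ → E → G} (hC : 0 ≤ C)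
    (hφ : ∀ q ∈ S, ‖φ q‖ ≤ C ∧ ∀ q' ∈ S, ‖φ q - φ q'‖ ≤ C * ‖q - q'‖) (h : PB α I s f A B)
    (hS : ∀ t ∈ I, ∀ y ∈ s, f t y ∈ S) : PB α I s (fun t y => φ (f t y)) C (C * B) := by
  refine ⟨ContinuousOn.comp (t := S) ?_ h.cont fun q hq => hS _ hq.1 _ hq.2,
    fun t ht y hy => (hφ _ (hS t ht y hy)).1, fun t ht x hx y hy => ?_⟩
  · refine (LipschitzOnWith.of_dist_le_mul (K := ⟨C, hC⟩) fun q hq q' hq' => ?_).continuousOn
    rw [dist_eq_norm, dist_eq_norm]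
    exact (hφ q hq).2 q' hq'
  · rw [mul_assoc]
    exact ((hφ _ (hS t ht x hx)).2 _ (hS t ht y hy)).trans
      (mul_le_mul_of_nonneg_left (h.hol t ht x hx y hy) hC)

omit [NormedSpace ℝ E] in
theorem pb_time {F : Type} [NormedAddCommGroup F] {α A B : ℝ} {I J : Set ℝ} {s : Set E}
    {f : ℝ → E → F} (h : PB α I s f A B) {θ : ℝ → ℝ} (hθ : Continuous θ) (hm : MapsTo θ J I) :
    PB α J s (fun t => f (θ t)) A B :=
  ⟨h.cont.comp ((hθ.comp continuous_fst).prodMk continuous_snd).continuousOn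
    fun _ hq => ⟨hm hq.1, hq.2⟩, fun _ ht => h.sup _ (hm ht), fun _ ht => h.hol _ (hm ht)⟩

theorem fderiv_line {G : Type*} [NormedAddCommGroup G] [NormedSpace ℝ G] {Ψ : G → ℝ} {q v : G}
    {d : ℝ} (hΨ : DifferentiableAt ℝ Ψ q) (h : ∀ t : ℝ, Ψ (q + t • v) = Ψ q + t * d) :
    fderiv ℝ Ψ q v = d := by
  have h1 : HasDerivAt (fun t : ℝ => Ψ (q + t • v)) (fderiv ℝ Ψ q v) 0 := by
    have h0 : HasDerivAt (fun t : ℝ => q + t • v) v 0 := by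
      simpa using ((hasDerivAt_id (0 : ℝ)).smul_const v).const_add q
    exact hΨ.hasFDerivAt.comp_hasDerivAt_of_eq (0 : ℝ) h0 (by simp)
  have h2 : HasDerivAt (fun t : ℝ => Ψ (q + t • v)) d 0 := by
    simp only [h]
    simpa using ((hasDerivAt_id (0 : ℝ)).mul_const d).const_add (Ψ q)
  exact h1.unique h2

variable {P : Type} [NormedAddCommGroup P] [NormedSpace ℝ P]

/-- a linear elliptic operator depending on a parameter -/
structure LinOp (V Q : Set P) (Φ : P × Bil E → ℝ) : Prop where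
  oV : IsOpen V
  cQ : IsCompact Q
  sub : Q ⊆ V
  sm : ContDiffOn ℝ ∞ Φ (V ×ˢ univ)
  lin : ∀ a b b' (l : ℝ), Φ (a, b + l • b') = Φ (a, b) + l * Φ (a, b')
  ell : ∀ a ∈ Q, ∀ ξ : E →L[ℝ] ℝ, ξ ≠ 0 → 0 < Φ (a, ξ.smulRight ξ)

theorem LinOp.zero {V Q : Set P} {Φ : P × Bil E → ℝ} (h : LinOp V Q Φ) (a : P) : Φ (a, 0) = 0 := by
  have := h.lin a 0 0 1
  simp only [smul_zero, add_zero, one_mul] at this
  linarith

/-- the data of a linear equation in a uniform atlas -/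
structure Data {X : Type} [TopologicalSpace X] {K : ℝ} {N₀ : ℕ} (𝒜 : UA E X K N₀) (Q : Set P)
    (Φ : P × Bil E → ℝ) (η μ K' : ℝ) (a : 𝒜.ι → ℝ → E → P) (c f : ℝ → X → ℝ) : Prop where
  μ0 : 0 < μ
  K0 : 0 ≤ K'
  pa : ∀ i, PB (1 / 2) (Ici 0) (ball 0 4) (a i) K' K'
  pc : ∀ i, PB (1 / 2) (Ici 0) (ball 0 4) (𝒜.loc i c) K' K'
  pf : ∀ i, PB (1 / 2) (Ici 0) (ball 0 4) (𝒜.loc i f) K' K'
  mem : ∀ i, ∀ t, 0 ≤ t → ∀ y ∈ ball (0 : E) 4, a i t y ∈ Q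
  osc : ∀ i, ∀ t, 0 ≤ t → ∀ s ∈ Icc t (t + μ), ∀ y ∈ ball (0 : E) 4, ‖a i s y - a i t 0‖ ≤ η
  inv : ∀ i j, ∀ t, 0 ≤ t → ∀ y ∈ ball (0 : E) 4, ∀ y' ∈ ball (0 : E) 4,
    (𝒜.e i).symm y = (𝒜.e j).symm y' → ∀ u : X → ℝ,
    ContDiffAt ℝ 2 (fun z => u ((𝒜.e i).symm z)) y →
    ContDiffAt ℝ 2 (fun z => u ((𝒜.e j).symm z)) y' →
    Φ (a i t y, D2 (fun z => u ((𝒜.e i).symm z)) y) =
      Φ (a j t y', D2 (fun z => u ((𝒜.e j).symm z)) y')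

/-- a solution on `[0, T]` -/
def Sl {X : Type} [TopologicalSpace X] {K : ℝ} {N₀ : ℕ} (𝒜 : UA E X K N₀)
    (Φ : P × Bil E → ℝ) (μ : ℝ) (a : 𝒜.ι → ℝ → E → P) (c f : ℝ → X → ℝ) (T : ℝ) : Prop :=
  ∃ (w : ℝ → X → ℝ) (C : ℝ), 0 ≤ C ∧ (∀ x, w 0 x = 0) ∧ ∀ i,
    Cl (Icc 0 T) (ball 0 4) (𝒜.loc i w) (fun t y => μ⁻¹ * Φ (a i t y, D2 (𝒜.loc i w t) y) +
      𝒜.loc i c t y * 𝒜.loc i w t y + 𝒜.loc i f t y) ∧
    PB (1 / 2) (Icc 0 T) (ball 0 4) (fun t => jet (𝒜.loc i w t)) C C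

theorem step [FiniteDimensional ℝ E] (hEX : EX E) (hA : ADM E) (hG : GLUE E) {V Q : Set P}
    {Φ : P × Bil E → ℝ} (hΦ : LinOp V Q Φ) (K : ℝ) (N₀ : ℕ) : ∃ η : ℝ, 0 < η ∧
    ∀ (X : Type) [TopologicalSpace X] [T2Space X] (𝒜 : UA E X K N₀) (μ K' : ℝ)
      (a : 𝒜.ι → ℝ → E → P) (c f : ℝ → X → ℝ), Data 𝒜 Q Φ η μ K' a c f →
      ∃ τ : ℝ, 0 < τ ∧ ∀ T, 0 ≤ T → Sl 𝒜 Φ μ a c f T → Sl 𝒜 Φ μ a c f (T + μ * τ) := by
  have oV : IsOpen (V ×ˢ (univ : Set (Bil E))) := hΦ.oV.prod isOpen_univ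
  obtain ⟨l, L, hl, h1⟩ := hA P _ Φ Q oV hΦ.sm hΦ.cQ fun a₀ ha => ⟨⟨hΦ.sub ha, trivial⟩,
    fun ξ hξ => by
      rw [fderiv_line (d := Φ (a₀, ξ.smulRight ξ))
        ((hΦ.sm.contDiffAt (oV.mem_nhds ⟨hΦ.sub ha, trivial⟩)).differentiableAt (by simp))
        fun t => by simpa using hΦ.lin a₀ 0 (ξ.smulRight ξ) t]
      exact hΦ.ell a₀ ha ξ hξ⟩
  obtain ⟨ε, hε, h2⟩ := hEX (1 / 2) K l L N₀ (by norm_num) (by norm_num) hl
  obtain ⟨δ, η, hδ, hη, h3⟩ := h1 ε hε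
  refine ⟨η, hη, fun X _ _ 𝒜 μ K' a c f d => ?_⟩
  obtain ⟨KF, h4⟩ := h3 (1 / 2) (K' + μ * K' + 1)
  obtain ⟨τ, C2, hτ, hτ1, h5⟩ := h2 KF δ 1 hδ one_pos
  refine ⟨τ, hτ, fun T hT ⟨w, C, hC, hw0, hw⟩ => ?_⟩
  have hμ := d.μ0
  have hK := d.K0
  have hμK : 0 ≤ μ * K' := by positivity
  have hθ : Continuous fun t : ℝ => T + μ * t := by fun_prop
  have hm : MapsTo (fun t : ℝ => T + μ * t) (Icc 0 1) (Ici 0) := fun t ht =>
    add_nonneg hT (mul_nonneg hμ.le ht.1)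
  have hTT : T ∈ Icc 0 T := ⟨hT, le_rfl⟩
  have : ProperSpace (Bil E) := FiniteDimensional.proper ℝ _
  obtain ⟨C0, hC0, hlip⟩ := lip_open (hΦ.cQ.prod (isCompact_closedBall (0 : Bil E) C)) oV
    (prod_mono hΦ.sub (subset_univ _)) hΦ.sm
  have hW : ∀ i, PB (1 / 2) (Icc 0 1) (ball 0 4) (fun _ => jet (𝒜.loc i w T)) C C := fun i =>
    pb_time (hw i).2 (θ := fun _ => T) continuous_const fun _ _ => hTT
  obtain ⟨R, hR⟩ : ∃ R : 𝒜.ι → ℝ → E → ℝ, R = fun i t y =>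
      μ⁻¹ * Φ (a i (T + μ * t) y, D2 (𝒜.loc i w T) y) +
        𝒜.loc i c (T + μ * t) y * 𝒜.loc i w T y + 𝒜.loc i f (T + μ * t) y := ⟨_, rfl⟩
  obtain ⟨C1, hC1, hRb⟩ : ∃ C1 : ℝ, 0 < C1 ∧ ∀ i, PB (1 / 2) (Icc 0 1) (ball 0 4) (R i) C1 C1 := by
    refine ⟨μ⁻¹ * (C0 + C0 * (K' + C)) + 2 * (K' * C) + K' + 1, by positivity, fun i => ?_⟩
    have p1 := ((pb_time (d.pa i) hθ hm).mono (le_add_of_nonneg_right hC)
      (le_add_of_nonneg_right hC)).prod ((hW i).snd.snd.mono (le_add_of_nonneg_left hK)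
        (le_add_of_nonneg_left hK))
    have p2 := (pb_comp hC0 hlip p1 fun t ht y hy => ⟨d.mem i _ (hm ht) y hy,
      mem_closedBall_zero_iff.2 ((hW i).snd.snd.sup t ht y hy)⟩).const_smul μ⁻¹
    have p3 := (p2.add ((pb_time (d.pc i) hθ hm).mul (hW i).fst)).add (pb_time (d.pf i) hθ hm)
    rw [abs_of_pos (inv_pos.2 hμ)] at p3
    have e1 : 0 ≤ μ⁻¹ * C0 := by positivity
    have e2 : 0 ≤ μ⁻¹ * (C0 * (K' + C)) := by positivity
    have e3 : 0 ≤ K' * C := by positivity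
    rw [hR]
    exact p3.mono (by linarith) (by linarith)
  have hadm := fun i => h4 1 (a i T 0) (d.mem i T hT 0 (mem_ball_self (by norm_num)))
    (fun t => a i (T + μ * t)) (fun t y => μ • 𝒜.loc i c (T + μ * t) y)
    (fun t y => C1⁻¹ • R i t y)
    ((pb_time (d.pa i) hθ hm).mono (by linarith) (by linarith))
    (((pb_time (d.pc i) hθ hm).const_smul μ).mono (by rw [abs_of_pos hμ]; linarith)
      (by rw [abs_of_pos hμ]; linarith))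
    (((hRb i).const_smul C1⁻¹).mono
      (by rw [abs_of_pos (inv_pos.2 hC1), inv_mul_cancel₀ hC1.ne']; linarith)
      (by rw [abs_of_pos (inv_pos.2 hC1), inv_mul_cancel₀ hC1.ne']; linarith))
    fun t ht y hy => d.osc i T hT _ ⟨by nlinarith [ht.1], by nlinarith [ht.2]⟩ y hy
  choose B A hB hAd using hadm
  have c2 : ∀ i, ∀ y ∈ ball (0 : E) 4, ContDiffAt ℝ 2 (𝒜.loc i w T) y := fun i y hy =>
    ((hw i).1.c2 T hTT).contDiffAt (isOpen_ball.mem_nhds hy)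
  obtain ⟨u, hu0, hu⟩ := h5 X 𝒜 B _ A hB hAd fun i j t ht y hy y' hy' e u h1 h2 _ _ => by
    have e1 := d.inv i j _ (hm ht) y hy y' hy' e u h1 h2
    have e2 := d.inv i j _ (hm ht) y hy y' hy' e (w T) (c2 i y hy) (c2 j y' hy')
    simp only [hR, jet, UA.loc, e]
    erw [e1, e2]
    rfl
  have hl0 : 0 < μ * C1 := by positivity
  obtain ⟨w', hw'⟩ : ∃ w' : ℝ → X → ℝ,
      w' = fun t x => if t ≤ T then w t x else w T x + μ * C1 * u ((t - T) / μ) x := ⟨_, rfl⟩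
  have e1 : ∀ i t, t ≤ T → 𝒜.loc i w' t = 𝒜.loc i w t := fun i t ht => by
    funext y
    simp only [UA.loc, hw', if_pos ht]
  have ht' : ∀ t ∈ Icc 0 (T + μ * τ), ¬t ≤ T → (t - T) / μ ∈ Icc 0 τ := fun t ht h =>
    ⟨div_nonneg (by linarith [not_le.1 h]) hμ.le, (div_le_iff₀' hμ).2 (by linarith [ht.2])⟩
  have e2 : ∀ i, ∀ t ∈ Icc 0 (T + μ * τ), ¬t ≤ T → ∀ y ∈ ball (0 : E) 4, jet (𝒜.loc i w' t) y =
      jet (𝒜.loc i w T) y + (μ * C1) • jet (𝒜.loc i u ((t - T) / μ)) y := fun i t ht h y hy => by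
    have h2 := ((hu i).1.c2 _ (ht' t ht h)).contDiffAt (isOpen_ball.mem_nhds hy)
    rw [← jet_const_mul _ h2, ← jet_add (c2 i y hy) (contDiffAt_const.mul h2)]
    congr 1
    funext z
    simp only [UA.loc, hw', if_neg h]
  have hcl : ∀ i, Cl (Icc 0 (T + μ * τ)) (ball 0 4) (𝒜.loc i w')
      (fun t y => μ⁻¹ * Φ (a i t y, D2 (𝒜.loc i w' t) y) +
        𝒜.loc i c t y * 𝒜.loc i w' t y + 𝒜.loc i f t y) := fun i => by
    refine (hG T τ μ _ _ _ _ _ hT hτ.le hμ isOpen_ball (hw i).1 (hu i).1 (fun y _ => hu0 _)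
      (μ * C1) fun y _ => ?_).congr isOpen_ball (fun t _ y _ => ?_) fun t ht y hy => ?_
    · have : 𝒜.loc i u 0 = fun _ => 0 := funext fun z => hu0 _
      rw [this, jet_zero]
      simp only [hR, mul_zero, add_zero, Prod.snd_zero, Prod.fst_zero, hΦ.zero, smul_eq_mul]
      field_simp
      ring
    · simp only [UA.loc, hw']
    · by_cases h : t ≤ T
      · rw [if_pos h, e1 i t h]
      · have e3 := e2 i t ht h y hy
        have e4 : D2 (𝒜.loc i w' t) y = _ := congrArg (fun j => j.2.2) e3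
        have e5 : 𝒜.loc i w' t y = _ := congrArg (fun j => j.1) e3
        have e6 : T + μ * ((t - T) / μ) = t := by field_simp; ring
        rw [if_neg h, e4, e5]
        simp only [hR, e6, Prod.snd_add, Prod.fst_add, Prod.smul_snd, Prod.smul_fst, hΦ.lin,
          smul_eq_mul, jet]
        field_simp
        ring
  refine ⟨w', C + μ * C1 * (δ / 2 + |C2|), by positivity, fun x => ?_, fun i =>
    ⟨hcl i, (hcl i).cj, fun t ht y hy => ?_, fun t ht => ?_⟩⟩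
  · simp only [hw', if_pos hT, hw0]
  · by_cases h : t ≤ T
    · rw [e1 i t h]
      exact ((hw i).2.sup t ⟨ht.1, h⟩ y hy).trans (le_add_of_nonneg_right (by positivity))
    · rw [e2 i t ht h y hy]
      refine (norm_add_le _ _).trans (add_le_add ((hw i).2.sup T hTT y hy) ?_)
      rw [norm_smul, Real.norm_of_nonneg hl0.le]
      exact mul_le_mul_of_nonneg_left (((hu i).2.sup _ (ht' t ht h) y hy).trans
        (le_add_of_nonneg_right (abs_nonneg _))) hl0.le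
  · by_cases h : t ≤ T
    · rw [e1 i t h]
      exact ((hw i).2.hol t ⟨ht.1, h⟩).mono_const (le_add_of_nonneg_right (by positivity))
    · refine ((((hw i).2.hol T hTT).add ((((hu i).2.const_smul (μ * C1)).hol _
        (ht' t ht h)))).congr fun y hy => (e2 i t ht h y hy).symm).mono_const ?_
      rw [abs_of_pos hl0]
      gcongr
      linarith [le_abs_self C2]

theorem exist [FiniteDimensional ℝ E] (hEX : EX E) (hA : ADM E) (hG : GLUE E) {V Q : Set P}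
    {Φ : P × Bil E → ℝ} (hΦ : LinOp V Q Φ) (K : ℝ) (N₀ : ℕ) : ∃ η : ℝ, 0 < η ∧
    ∀ (X : Type) [TopologicalSpace X] [T2Space X] (𝒜 : UA E X K N₀) (μ K' : ℝ)
      (a : 𝒜.ι → ℝ → E → P) (c f : ℝ → X → ℝ), Data 𝒜 Q Φ η μ K' a c f →
      ∀ T, Sl 𝒜 Φ μ a c f T := by
  obtain ⟨η, hη, h⟩ := step hEX hA hG hΦ K N₀
  refine ⟨η, hη, fun X _ _ 𝒜 μ K' a c f d T => ?_⟩
  obtain ⟨τ, hτ, h1⟩ := h X 𝒜 μ K' a c f d
  have hμτ : 0 < μ * τ := mul_pos d.μ0 hτ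
  have h2 : ∀ k : ℕ, Sl 𝒜 Φ μ a c f (k * (μ * τ)) := fun k => by
    induction k with
    | zero =>
      have e : ∀ i t, jet (𝒜.loc i (fun _ _ => (0 : ℝ)) t) = fun _ => 0 := fun i t =>
        funext fun y => jet_zero y
      refine ⟨fun _ _ => 0, 0, le_rfl, fun _ => rfl, fun i => ⟨⟨fun _ _ => contDiffOn_const, ?_,
        fun t ht y _ => ?_⟩, ?_⟩⟩
      · simp only [e]
        exact continuousOn_const
      · exact HasFDerivWithinAt.of_finite (by simp)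
      · simp only [e]
        exact PB.zero _ _ _
    | succ k ih =>
      have := h1 _ (by positivity) ih
      push_cast
      rwa [add_one_mul]
  obtain ⟨k, hk⟩ := exists_nat_ge (T / (μ * τ))
  obtain ⟨w, C, hC, h0, hw⟩ := h2 k
  have hs : Icc 0 T ⊆ Icc 0 (k * (μ * τ)) := Icc_subset_Icc_right ((div_le_iff₀ hμτ).1 hk)
  exact ⟨w, C, hC, h0, fun i => ⟨(hw i).1.mono hs subset_rfl, (hw i).2.mono_set hs subset_rfl⟩⟩

/-- smoothness -/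
theorem smooth (hR : REG E) {V Q : Set P} {Φ : P × Bil E → ℝ} (hΦ : LinOp V Q Φ) {T μ C : ℝ}
    {U : Set E} {a : ℝ → E → P} {c f w : ℝ → E → ℝ} (hT : 0 < T) (hμ : 0 < μ) (hU : IsOpen U)
    (sa : ContDiffOn ℝ ∞ (fun q : ℝ × E => a q.1 q.2) (Icc 0 T ×ˢ U))
    (sc : ContDiffOn ℝ ∞ (fun q : ℝ × E => c q.1 q.2) (Icc 0 T ×ˢ U))
    (sf : ContDiffOn ℝ ∞ (fun q : ℝ × E => f q.1 q.2) (Icc 0 T ×ˢ U))
    (hm : ∀ t ∈ Icc 0 T, ∀ y ∈ U, a t y ∈ Q) (h0 : ∀ y ∈ U, w 0 y = 0)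
    (hc : Cl (Icc 0 T) U w fun t y => μ⁻¹ * Φ (a t y, D2 (w t) y) + c t y * w t y + f t y)
    (hp : PB (1 / 2) (Icc 0 T) U (fun t => jet (w t)) C C) :
    ContDiffOn ℝ ∞ (fun q : ℝ × E => w q.1 q.2) (Icc 0 T ×ˢ U) := by
  have oW : IsOpen {q : (P × ℝ × ℝ) × Jet E | q.1.1 ∈ V} :=
    hΦ.oV.preimage (continuous_fst.comp continuous_fst)
  have sW : ContDiffOn ℝ ∞ (fun q : (P × ℝ × ℝ) × Jet E =>
      μ⁻¹ * Φ (q.1.1, q.2.2.2) + q.1.2.1 * q.2.1 + q.1.2.2) {q | q.1.1 ∈ V} := by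
    refine ((contDiffOn_const.mul (hΦ.sm.comp (f := fun q : (P × ℝ × ℝ) × Jet E =>
      (q.1.1, q.2.2.2)) ?_ fun q hq => ⟨hq, trivial⟩)).add ?_).add ?_ <;> fun_prop
  refine hR (P × ℝ × ℝ) (1 / 2) T U _ (fun t y => (a t y, c t y, f t y)) _ w
    ⟨by norm_num, by norm_num, hT, hU, oW, sa.prodMk (sc.prodMk sf), sW,
      fun t ht y hy => hΦ.sub (hm t ht y hy), hc, h0, fun x hx => ?_, fun t ht y hy ξ hξ => ?_⟩
  · obtain ⟨r, hr, hb⟩ := Metric.isOpen_iff.1 hU x hx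
    exact ⟨r, hr, C, fun t ht => (hp.snd.snd.hol t ht).mono hb⟩
  · rw [fderiv_line (d := μ⁻¹ * Φ (a t y, ξ.smulRight ξ))
      ((sW.contDiffAt (oW.mem_nhds (hΦ.sub (hm t ht y hy)))).differentiableAt (by simp))
      fun s => ?_]
    · exact mul_pos (inv_pos.2 hμ) (hΦ.ell _ (hm t ht y hy) ξ hξ)
    · simp only [j2_apply, Prod.fst_add, Prod.snd_add, Prod.smul_fst, Prod.smul_snd, smul_zero,
        add_zero, hΦ.lin]
      ring

end Vale.Agent.P253W.FP.Lx
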