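import Vale.Agent.P253W.FP.MDefs
import Vale.Agent.P253W.FP.Linx1

/-!
# P253W, block FP, row LINX: linear equations on `{σ > 0}`
-/

set_option maxSynthPendingDepth 3

open scoped Manifold ContDiff Bundle Topology ComplexOrder Matrix
open Bundle Set Metric Filter Vale.Agent.P253Z
open Vale.Agent.P272.K (Cm dz cHess jacM Chart)
open Vale.Agent.P272.K.R (Hol Bil D2)
open Vale.Agent.P272.K.LIN (Jet jet contDiffAt_jet)
open Vale.Agent.P272.K.N (lev cHess_eq_lev lev_add lev_smul)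

noncomputable section

namespace Vale.Agent.P253W.FP

namespace Lx

variable {n : ℕ}

theorem ΦL_lin (a : Pm n) (b b' : Bil (Cm n)) (l : ℝ) :
    ΦL (a, b + l • b') = ΦL (a, b) + l * ΦL (a, b') := by
  simp only [ΦL, trg]
  rw [lev_add, lev_smul, Matrix.mul_add, Matrix.mul_smul, Matrix.trace_add, Matrix.trace_smul]
  simp

theorem linop (hq : MAQ n) {Q : Set (Pm n)} (cQ : IsCompact Q)
    (hQ : ∀ a ∈ Q, (Matrix.of a).PosDef) : LinOp {a | (Matrix.of a).det ≠ 0} Q (ΦL (n := n)) where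
  oV := hq.oL.preimage (f := fun a : Pm n => (a, (0 : Bil (Cm n)))) (by fun_prop)
  cQ := cQ
  sub a ha := (hQ a ha).det_pos.ne'
  sm := hq.sL.mono fun _ h => h.1
  lin := ΦL_lin
  ell a ha ξ hξ := by
    have := hq.eL (a, 0) (hQ a ha) ξ hξ
    rwa [fderiv_line (d := ΦL (a, ξ.smulRight ξ))
      ((hq.sL.contDiffAt (hq.oL.mem_nhds (hQ a ha).det_pos.ne')).differentiableAt (by simp))
      fun t => by simpa using ΦL_lin a 0 (ξ.smulRight ξ) t] at this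

theorem of_smul (l : ℝ) (G : Mx n) :
    Matrix.of (l • fun j k => G j k : Pm n) = (l : ℂ) • G := by
  ext j k
  simp

theorem ΦL_smul {l : ℝ} (hl : l ≠ 0) {G : Mx n} (hG : G.det ≠ 0) (b : Bil (Cm n)) :
    ΦL (l • fun j k => G j k, b) = l⁻¹ * ΦL (fun j k => G j k, b) := by
  have hl' : (l : ℂ) ≠ 0 := by exact_mod_cast hl
  have e : ((l : ℂ) • G)⁻¹ = ((l⁻¹ : ℝ) : ℂ) • G⁻¹ := by
    refine Matrix.inv_eq_left_inv ?_
    rw [Matrix.smul_mul, Matrix.mul_smul, smul_smul, Matrix.nonsing_inv_mul _ hG.isUnit]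
    simp [hl']
  simp only [ΦL, trg, of_smul]
  rw [e, Matrix.smul_mul, Matrix.trace_smul, smul_eq_mul, Complex.re_ofReal_mul]
  rfl

theorem pb_of_lip {F : Type} [NormedAddCommGroup F] {f : ℝ → Cm n → F} {A : ℝ} (hA : 0 ≤ A)
    (hb : ∀ t, 0 ≤ t → ∀ y ∈ ball (0 : Cm n) 4, ‖f t y‖ ≤ A)
    (hl : ∀ t, 0 ≤ t → ∀ t', 0 ≤ t' → ∀ y ∈ ball (0 : Cm n) 4, ∀ y' ∈ ball (0 : Cm n) 4,
      ‖f t y - f t' y'‖ ≤ A * (|t - t'| + ‖y - y'‖)) :
    PB (1 / 2) (Ici 0) (ball 0 4) f (A * 8) (A * 8) := by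
  refine ⟨(LipschitzOnWith.of_dist_le_mul (K := ⟨A * 2, by positivity⟩)
    fun q hq q' hq' => ?_).continuousOn, fun t ht y hy => (hb t ht y hy).trans (by linarith),
    fun t ht => hol_of_lip (by norm_num) (by norm_num) hA (by norm_num)
      (fun x hx y hy => (norm_sub_le_of_ball hx hy).trans (by norm_num))
      fun x hx y hy => by simpa using hl t ht t ht x hx y hy⟩
  rw [dist_eq_norm]
  refine (hl _ hq.1 _ hq'.1 _ hq.2 _ hq'.2).trans ?_
  have h1 : |q.1 - q'.1| ≤ dist q q' := le_max_left _ _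
  have h2 : ‖q.2 - q'.2‖ ≤ dist q q' := by rw [← dist_eq_norm]; exact le_max_right _ _
  change _ ≤ A * 2 * dist q q'
  nlinarith

theorem a_est {F : Type} [NormedAddCommGroup F] [NormedSpace ℝ F] {G G' : F}
    {C r s x x' d e : ℝ} (hC : 0 ≤ C) (hr : 0 < r) (hs : 0 < s) (hd : 0 ≤ d) (he : 0 ≤ e)
    (h1 : s ≤ 4 * (r * x)) (h1' : s ≤ 4 * (r * x')) (hx : x ≤ C) (hxx : |x - x'| ≤ C * (s * d))
    (hG : ‖G'‖ ≤ C) (hGG : ‖G - G'‖ ≤ C * (e + s * d)) :
    ‖(s / (r * x)) ^ 2 • G - (s / (r * x')) ^ 2 • G'‖ ≤ (16 * C + 192 * C ^ 2) * (e + r * d) := by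
  have hx0 : 0 < x := (mul_pos_iff_of_pos_left hr).1 (by linarith)
  have hx0' : 0 < x' := (mul_pos_iff_of_pos_left hr).1 (by linarith)
  have e1 : s / (r * x) - s / (r * x') = s / (r * x) * (s / (r * x')) * (r / s * (x' - x)) := by
    field_simp
  have l1 : s / (r * x) ≤ 4 := (div_le_iff₀ (by positivity)).2 h1
  have l2 : s / (r * x') ≤ 4 := (div_le_iff₀ (by positivity)).2 h1'
  have p1 : 0 < s / (r * x) := by positivity
  have p2 : 0 < s / (r * x') := by positivity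
  generalize s / (r * x) = u at *
  generalize s / (r * x') = v at *
  have b1 : |u - v| ≤ 4 * 4 * (r / s * (C * (s * d))) := by
    rw [e1, abs_mul, abs_mul, abs_mul, abs_of_pos p1, abs_of_pos p2, abs_of_pos (div_pos hr hs),
      abs_sub_comm]
    gcongr
  have b2 : 4 * 4 * (r / s * (C * (s * d))) = 16 * C * (r * d) := by field_simp; ring
  have b3 : |u ^ 2 - v ^ 2| ≤ 8 * (16 * C * (r * d)) := by
    rw [sq_sub_sq, abs_mul, abs_of_pos (add_pos p1 p2), ← b2]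
    gcongr
    linarith
  have e2 : u ^ 2 • G - v ^ 2 • G' = u ^ 2 • (G - G') + (u ^ 2 - v ^ 2) • G' := by
    rw [smul_sub, sub_smul]; abel
  have b4 : s * d ≤ 4 * C * (r * d) := by
    have : s ≤ 4 * C * r := by nlinarith
    nlinarith
  have b5 : ‖u ^ 2 • (G - G')‖ ≤ 4 ^ 2 * (C * (e + 4 * C * (r * d))) := by
    rw [norm_smul, norm_pow, Real.norm_of_nonneg p1.le]
    gcongr
    exact hGG.trans (by gcongr)
  have b6 : ‖(u ^ 2 - v ^ 2) • G'‖ ≤ 8 * (16 * C * (r * d)) * C := by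
    rw [norm_smul, Real.norm_eq_abs]
    gcongr
  rw [e2]
  refine (norm_add_le _ _).trans ((add_le_add b5 b6).trans ?_)
  have : 0 ≤ r * d := by positivity
  nlinarith [mul_nonneg hC this, mul_nonneg (sq_nonneg C) he]

theorem pt_le (T t t' s : ℝ) (hs : 0 ≤ s) (p y y' : Cm n) :
    ‖((min t T, p + s • y) : ℝ × Cm n) - (min t' T, p + s • y')‖ ≤ |t - t'| + s * ‖y - y'‖ := by
  rw [Prod.mk_sub_mk, Prod.norm_def, add_sub_add_left_eq_sub, ← smul_sub, norm_smul,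
    Real.norm_of_nonneg hs, Real.norm_eq_abs]
  have := abs_min_sub_min_le_max t T t' T
  simp only [sub_self, abs_zero, abs_nonneg, sup_of_le_left] at this
  exact max_le (this.trans (le_add_of_nonneg_right (by positivity)))
    (le_add_of_nonneg_left (abs_nonneg _))

variable {M : Type} [MetricSpace M] [ChartedSpace (Cm n) M]

theorem aff_eq {T t : ℝ} {g : ℝ → Chart n M → Cm n → Mx n} (hg : Fm n T g) (ht : t ∈ Icc 0 T)
    {e c : Chart n M} (he : Hc e) (hc : Hc c) {p : Cm n} {s : ℝ}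
    (h : ∀ y, e.symm y = c.symm (p + s • y)) {y : Cm n} (hy : y ∈ e.target)
    (hz : p + s • y ∈ c.target) : g t e y = ((s ^ 2 : ℝ) : ℂ) • g t c (p + s • y) := by
  have h1 := hg.ch t ht e c he hc (e.symm y) (e.map_target hy) (h y ▸ c.map_target hz)
  have h2 : jacM e c (e.symm y) = (s : ℂ) • (1 : Mx n) := by
    ext k i
    have h3 : (fun z => c (e.symm z) k) =ᶠ[𝓝 y] fun z => p k + s • z k := by
      have : ContinuousAt (fun z : Cm n => p + s • z) y := by fun_prop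
      filter_upwards [this.preimage_mem_nhds (c.open_target.mem_nhds hz)] with z hz'
      rw [h z, c.right_inv hz']
      rfl
    have h4 : HasFDerivAt (fun z : Cm n => p k + s • z k)
        (s • ContinuousLinearMap.proj (R := ℝ) (φ := fun _ : Fin n => ℂ) k) y :=
      ((hasFDerivAt_apply k y).const_smul s).const_add _
    simp only [jacM, Matrix.of_apply, dz, e.right_inv hy, h3.fderiv_eq, h4.fderiv]
    by_cases hk : k = i
    · subst hk
      simp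
      ring_nf
      simp
      ring
    · simp [hk]
  rw [e.right_inv hy, h2, h y, c.right_inv hz] at h1
  rw [h1, pb]
  ext j k
  simp [Matrix.transpose_smul, apply_ite (starRingEnd ℂ), Matrix.mul_apply, Matrix.one_apply]
  ring

/-- the metric in a chart -/
def Gm (g : ℝ → Chart n M → Cm n → Mx n) (e : Chart n M) (q : ℝ × Cm n) : Pm n :=
  fun j k => g q.1 e q.2 j k

/-- the rescaled metric -/
def Am (σ : M → ℝ) (g : ℝ → Chart n M → Cm n → Mx n) (r T : ℝ) (e : Chart n M) (t : ℝ)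
    (y : Cm n) : Pm n := ((r * σ (e.symm y))⁻¹ ^ 2) • Gm g e (min t T, y)

/-- the set of its values -/
def Qs (g : ℝ → Chart n M → Cm n → Mx n) (T : ℝ) (e : Chart n M) (Q : Set (Cm n)) : Set (Pm n) :=
  (fun q : ℝ × ℝ × Cm n => q.1 ^ 2 • Gm g e q.2) '' (Icc (1 / 4) 4 ×ˢ Icc 0 T ×ˢ Q)

/-- bounds in a chart -/
def Lb {F : Type} [NormedAddCommGroup F] (φ : ℝ × Cm n → F) (T : ℝ) (Q : Set (Cm n)) (C : ℝ) :
    Prop := ∀ q ∈ Icc 0 T ×ˢ Q, ‖φ q‖ ≤ C ∧ ∀ q' ∈ Icc 0 T ×ˢ Q, ‖φ q - φ q'‖ ≤ C * ‖q - q'‖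

theorem Lb.mono {F : Type} [NormedAddCommGroup F] {φ : ℝ × Cm n → F} {T C C' : ℝ}
    {Q : Set (Cm n)} (h : Lb φ T Q C) (hC : C ≤ C') : Lb φ T Q C' := fun q hq =>
  ⟨(h q hq).1.trans hC, fun q' hq' => ((h q hq).2 q' hq').trans
    (mul_le_mul_of_nonneg_right hC (norm_nonneg _))⟩

omit [ChartedSpace (Cm n) M] in
theorem lb_fin {F : Type} [NormedAddCommGroup F] [NormedSpace ℝ F] {m : ℕ} {T : ℝ}
    {e : Fin m → Chart n M} {Q : Fin m → Set (Cm n)} {φ : Fin m → ℝ × Cm n → F}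
    (hQ : ∀ a, IsCompact (Q a) ∧ Q a ⊆ (e a).target)
    (h : ∀ a, ContDiffOn ℝ ∞ (φ a) (Icc 0 T ×ˢ (e a).target)) :
    ∃ C, 0 ≤ C ∧ ∀ a, Lb (φ a) T (Q a) C := by
  choose C hC hl using fun a => lip_time (hQ a).1 (e a).open_target (hQ a).2 (h a)
  exact ⟨∑ b, C b, Finset.sum_nonneg fun b _ => hC b, fun a => Lb.mono (hl a)
    (Finset.single_le_sum (fun b _ => hC b) (Finset.mem_univ a))⟩

theorem sm_g {T : ℝ} {g : ℝ → Chart n M → Cm n → Mx n} (hg : Fm n T g) {e : Chart n M}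
    (he : Hc e) : ContDiffOn ℝ ∞ (Gm g e) (Icc 0 T ×ˢ e.target) :=
  contDiffOn_pi.2 fun j => contDiffOn_pi.2 fun k => hg.sm e he j k

theorem sm_t {σ : M → ℝ} (hσ : Sm n σ) (I : Set ℝ) : SmT n I fun _ => σ := fun e he q hq =>
  ((hσ e he q.2 hq.2).comp q contDiffAt_snd).contDiffWithinAt

theorem qs_cpt {T : ℝ} {g : ℝ → Chart n M → Cm n → Mx n} (hg : Fm n T g) {e : Chart n M}
    (he : Hc e) {Q : Set (Cm n)} (hQ : IsCompact Q) (hs : Q ⊆ e.target) :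
    IsCompact (Qs g T e Q) ∧ ∀ a ∈ Qs g T e Q, (Matrix.of a).PosDef := by
  refine ⟨(isCompact_Icc.prod (isCompact_Icc.prod hQ)).image_of_continuousOn
    ((continuous_fst.pow 2).continuousOn.smul ((sm_g hg he).continuousOn.comp
      continuous_snd.continuousOn fun q hq => ⟨hq.2.1, hs hq.2.2⟩)), ?_⟩
  rintro _ ⟨q, hq, rfl⟩
  have h1 : 0 < q.1 := by linarith [hq.1.1]
  have h2 := (hg.pos _ hq.2.1 _ he _ (hs hq.2.2)).smul
    (Complex.zero_lt_real.2 (pow_pos h1 2))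
  rwa [← of_smul] at h2

/-- a chart of the uniform atlas -/
structure Pc (σ : M → ℝ) (r : ℝ) (e c : Chart n M) (Q : Set (Cm n)) (p : Cm n) (s : ℝ) :
    Prop where
  he : Hc e
  hc : Hc c
  r0 : 0 < r
  s0 : 0 < s
  s1 : s ≤ 1
  tgt : ball 0 4 ⊆ e.target
  sub : Q ⊆ c.target
  eq : ∀ y, e.symm y = c.symm (p + s • y)
  bl : ball p (4 * s) ⊆ Q
  sc : ∀ z ∈ ball p (4 * s), r * σ (c.symm z) ≤ 4 * s ∧ s ≤ 4 * (r * σ (c.symm z))

theorem min_mem {T t : ℝ} (hT : 0 < T) (ht : 0 ≤ t) : min t T ∈ Icc 0 T :=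
  ⟨le_min ht hT.le, min_le_right _ _⟩

namespace Pc

variable {σ : M → ℝ} {r s T t C : ℝ} {e c : Chart n M} {Q : Set (Cm n)} {p y : Cm n}
  {g : ℝ → Chart n M → Cm n → Mx n}

theorem hb (h : Pc σ r e c Q p s) (hy : y ∈ ball (0 : Cm n) 4) : p + s • y ∈ ball p (4 * s) := by
  rw [mem_ball_iff_norm, add_sub_cancel_left, norm_smul, Real.norm_of_nonneg h.s0.le, mul_comm]
  exact mul_lt_mul_of_pos_right (mem_ball_zero_iff.1 hy) h.s0

theorem mem (h : Pc σ r e c Q p s) (hT : 0 < T) (ht : 0 ≤ t) (hy : y ∈ ball (0 : Cm n) 4) :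
    (min t T, p + s • y) ∈ Icc 0 T ×ˢ Q := ⟨min_mem hT ht, h.bl (h.hb hy)⟩

theorem pos (h : Pc σ r e c Q p s) (hy : y ∈ ball (0 : Cm n) 4) : 0 < σ (e.symm y) := by
  rw [h.eq]
  exact (mul_pos_iff_of_pos_left h.r0).1 (by linarith [(h.sc _ (h.hb hy)).2, h.s0])

theorem lam (h : Pc σ r e c Q p s) (hy : y ∈ ball (0 : Cm n) 4) :
    s / (r * σ (c.symm (p + s • y))) ∈ Icc (1 / 4 : ℝ) 4 := by
  have h1 := h.sc _ (h.hb hy)
  have h0 : 0 < r * σ (c.symm (p + s • y)) := by linarith [h1.2, h.s0]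
  exact ⟨(le_div_iff₀ h0).2 (by linarith [h1.1]), (div_le_iff₀ h0).2 h1.2⟩

theorem eA (h : Pc σ r e c Q p s) (hT : 0 < T) (hg : Fm n T g) (ht : 0 ≤ t)
    (hy : y ∈ ball (0 : Cm n) 4) : Am σ g r T e t y =
      (s / (r * σ (c.symm (p + s • y)))) ^ 2 • Gm g c (min t T, p + s • y) := by
  funext j k
  simp only [Am, Gm, Pi.smul_apply, aff_eq hg (min_mem hT ht) h.he h.hc h.eq (h.tgt hy)
    (h.sub (h.mem hT ht hy).2), h.eq, Matrix.smul_apply, smul_eq_mul, Complex.real_smul]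
  push_cast
  ring

theorem memQ (h : Pc σ r e c Q p s) (hT : 0 < T) (hg : Fm n T g) (ht : 0 ≤ t)
    (hy : y ∈ ball (0 : Cm n) 4) : Am σ g r T e t y ∈ Qs g T c Q := by
  rw [h.eA hT hg ht hy]
  exact ⟨(_, _), ⟨h.lam hy, h.mem hT ht hy⟩, rfl⟩

theorem lA (h : Pc σ r e c Q p s) (hT : 0 < T) (hg : Fm n T g) (hC : 0 ≤ C)
    (h1 : Lb (Gm g c) T Q C) (h2 : Lb (ch c fun _ => σ) T Q C) (ht : 0 ≤ t) {t' : ℝ}
    (ht' : 0 ≤ t') (hy : y ∈ ball (0 : Cm n) 4) {y' : Cm n} (hy' : y' ∈ ball (0 : Cm n) 4) :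
    ‖Am σ g r T e t y - Am σ g r T e t' y'‖ ≤
      (16 * C + 192 * C ^ 2) * (|t - t'| + r * ‖y - y'‖) := by
  have h3 := pt_le T t t s h.s0.le p y y'
  rw [sub_self, abs_zero, zero_add] at h3
  rw [h.eA hT hg ht hy, h.eA hT hg ht' hy']
  exact a_est hC h.r0 h.s0 (norm_nonneg _) (abs_nonneg _) (h.sc _ (h.hb hy)).2
    (h.sc _ (h.hb hy')).2 ((le_abs_self _).trans (h2 _ (h.mem hT ht hy)).1)
    (((h2 _ (h.mem hT ht hy)).2 _ (h.mem hT ht hy')).trans (mul_le_mul_of_nonneg_left h3 hC))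
    (h1 _ (h.mem hT ht' hy')).1 (((h1 _ (h.mem hT ht hy)).2 _ (h.mem hT ht' hy')).trans
      (mul_le_mul_of_nonneg_left (pt_le T t t' s h.s0.le p y y') hC))

theorem pa (h : Pc σ r e c Q p s) (hT : 0 < T) (hg : Fm n T g) (hC : 0 ≤ C)
    (h1 : Lb (Gm g c) T Q C) (h2 : Lb (ch c fun _ => σ) T Q C) (hr : r ≤ 1) :
    PB (1 / 2) (Ici 0) (ball 0 4) (Am σ g r T e) ((16 * C + 192 * C ^ 2) * 8)
      ((16 * C + 192 * C ^ 2) * 8) := by
  refine pb_of_lip (by positivity) (fun t ht y hy => ?_) fun t ht t' ht' y hy y' hy' =>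
    (h.lA hT hg hC h1 h2 ht ht' hy hy').trans (mul_le_mul_of_nonneg_left (add_le_add le_rfl
      (mul_le_of_le_one_left (norm_nonneg _) hr)) (by positivity))
  have h3 := (h.lam hy).1
  have h4 := pow_le_pow_left₀ (by linarith) (h.lam hy).2 2
  rw [h.eA hT hg ht hy, norm_smul, norm_pow, Real.norm_of_nonneg (by linarith)]
  refine (mul_le_mul h4 (h1 _ (h.mem hT ht hy)).1 (norm_nonneg _) (by norm_num)).trans ?_
  nlinarith [sq_nonneg C]

theorem pf (h : Pc σ r e c Q p s) (hT : 0 < T) (hC : 0 ≤ C) {f : ℝ → M → ℝ}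
    (h1 : Lb (ch c f) T Q C) :
    PB (1 / 2) (Ici 0) (ball 0 4) (fun t y => f (min t T) (e.symm y)) (C * 8) (C * 8) := by
  simp only [h.eq]
  exact pb_of_lip hC (fun t ht y hy => (h1 _ (h.mem hT ht hy)).1) fun t ht t' ht' y hy y' hy' =>
    ((h1 _ (h.mem hT ht hy)).2 _ (h.mem hT ht' hy')).trans (mul_le_mul_of_nonneg_left
      ((pt_le T t t' s h.s0.le p y y').trans
        (add_le_add le_rfl (mul_le_of_le_one_left (norm_nonneg _) h.s1))) hC)

theorem sa (h : Pc σ r e c Q p s) (hg : Fm n T g) (hσ : Sm n σ) :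
    ContDiffOn ℝ ∞ (fun q : ℝ × Cm n => Am σ g r T e q.1 q.2) (Icc 0 T ×ˢ ball 0 4) := by
  have hsub : Icc 0 T ×ˢ ball (0 : Cm n) 4 ⊆ Icc 0 T ×ˢ e.target := prod_mono subset_rfl h.tgt
  refine (((((contDiffOn_const (c := r)).mul ((sm_t hσ _ _ h.he).mono hsub)).inv
    fun q hq => (mul_pos h.r0 (h.pos hq.2)).ne').pow 2).smul
      ((sm_g hg h.he).mono hsub)).congr fun q hq => ?_
  simp only [Am, min_eq_left hq.1.2]
  rfl

theorem sf (h : Pc σ r e c Q p s) {f : ℝ → M → ℝ} (hf : SmT n (Icc 0 T) f) :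
    ContDiffOn ℝ ∞ (fun q : ℝ × Cm n => f (min q.1 T) (e.symm q.2)) (Icc 0 T ×ˢ ball 0 4) :=
  ((hf _ h.he).mono (prod_mono subset_rfl h.tgt)).congr fun q hq => by
    simp only [min_eq_left hq.1.2, ch]

end Pc

variable [RiemannianBundle (fun x : M => TangentSpace 𝓘(ℝ, Cm n) x)]

theorem op_eq (ha : B1a n M) (hu : MU n M) {T t : ℝ} {g : ℝ → Chart n M → Cm n → Mx n}
    (hg : Fm n T g) (ht : t ∈ Icc 0 T) {e : Chart n M} (he : Hc e) {z : Cm n} (hz : z ∈ e.target)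
    {u : M → ℝ} (h2 : ContDiffAt ℝ 2 (fun y => u (e.symm y)) z) :
    trg (g t (pc n (e.symm z)) (pc n (e.symm z) (e.symm z)))
      (hs u (pc n (e.symm z)) (pc n (e.symm z) (e.symm z))) =
      ΦL (fun j k => g t e z j k, D2 (fun y => u (e.symm y)) z) := by
  have hx := e.map_target hz
  have hx' := mem_chart_source (Cm n) (e.symm z)
  have h1 := (hu.hs_ch u _ e (ha.chart _) he _ hx' hx (by rwa [e.right_inv hz])).2
  rw [h1, hg.ch t ht _ e (ha.chart _) he _ hx' hx, e.right_inv hz,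
    hu.trg_ch _ _ _ (ha.jac_ne _ e (ha.chart _) he _ hx' hx) (hg.pos t ht e he z hz).det_pos.ne',
    hs, cHess_eq_lev ((h2.fderiv_right (m := 1) le_rfl).differentiableAt one_ne_zero)]
  rfl

theorem Pc.eL (ha : B1a n M) (hu : MU n M) {σ : M → ℝ} {r s T t : ℝ} {e c : Chart n M}
    {Q : Set (Cm n)} {p y : Cm n} {g : ℝ → Chart n M → Cm n → Mx n} (h : Pc σ r e c Q p s)
    (hT : 0 < T) (hg : Fm n T g) (ht : 0 ≤ t) (hy : y ∈ ball (0 : Cm n) 4) {u : M → ℝ} {x : M}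
    (hx : x = e.symm y) (h2 : ContDiffAt ℝ 2 (fun z => u (e.symm z)) y) :
    ΦL (Am σ g r T e t y, D2 (fun z => u (e.symm z)) y) = (r * σ x) ^ 2 *
      trg (g (min t T) (pc n x) (pc n x x)) (hs u (pc n x) (pc n x x)) := by
  subst hx
  have h0 := mul_pos h.r0 (h.pos hy)
  rw [op_eq ha hu hg (min_mem hT ht) h.he (h.tgt hy) h2, ← inv_inv (_ ^ 2), ← inv_pow]
  exact ΦL_smul (by positivity) (hg.pos _ (min_mem hT ht) _ h.he _ (h.tgt hy)).det_pos.ne' _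

theorem linx0 (ha : B1a n M) (hu : MU n M) (hq : MAQ n) (hAT : AT n M) (hEX : EX (Cm n))
    (hA : ADM (Cm n)) (hR : REG (Cm n)) (hG : GLUE (Cm n)) {σ : M → ℝ} {T : ℝ}
    {g : ℝ → Chart n M → Cm n → Mx n} {c f : ℝ → M → ℝ} (hσ : Sm n σ)
    (hK : IsCompact (closure {x | 0 < σ x})) (hT : 0 < T) (hg : Fm n T g)
    (hc : SmT n (Icc 0 T) c) (hf : SmT n (Icc 0 T) f) :
    ∃ (w : ℝ → M → ℝ) (C : ℝ), SmD n σ (Icc 0 T) w ∧ (∀ x, w 0 x = 0) ∧
      ∀ x, 0 < σ x → ∀ t ∈ Icc 0 T, |w t x| ≤ C ∧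
        HasDerivWithinAt (fun s => w s x)
          (σ x ^ 2 * trg (g t (pc n x) (pc n x x)) (hs (w t) (pc n x) (pc n x x)) +
            c t x * w t x + f t x) (Icc 0 T) t := by
  obtain ⟨m, e, Q, K, r₀, N₀, hr₀, he, hat⟩ := hAT σ hσ hK
  obtain ⟨C1, p1, l1⟩ := lb_fin (fun a => (he a).2) fun a => sm_g hg (he a).1
  obtain ⟨C2, p2, l2⟩ := lb_fin (fun a => (he a).2) fun a => sm_t hσ (Icc 0 T) _ (he a).1
  obtain ⟨C3, p3, l3⟩ := lb_fin (fun a => (he a).2) fun a => hc _ (he a).1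
  obtain ⟨C4, p4, l4⟩ := lb_fin (fun a => (he a).2) fun a => hf _ (he a).1
  obtain ⟨C, hC⟩ : ∃ C, C = C1 + C2 + C3 + C4 := ⟨_, rfl⟩
  have hC0 : 0 ≤ C := by linarith
  have l1 := fun a => (l1 a).mono (C' := C) (by linarith)
  have l2 := fun a => (l2 a).mono (C' := C) (by linarith)
  have hΦ := linop hq (Q := ⋃ a, Qs g T (e a) (Q a))
    (isCompact_iUnion fun a => (qs_cpt hg (he a).1 (he a).2.1 (he a).2.2).1) fun b hb => by
      obtain ⟨a, h⟩ := mem_iUnion.1 hb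
      exact (qs_cpt hg (he a).1 (he a).2.1 (he a).2.2).2 b h
  obtain ⟨η, hη, hex⟩ := exist hEX hA hG hΦ K N₀
  have hD : 0 ≤ 16 * C + 192 * C ^ 2 := by positivity
  have hD3 : C3 ≤ 16 * C + 192 * C ^ 2 := by linarith [sq_nonneg C]
  have hD4 : C4 ≤ 16 * C + 192 * C ^ 2 := by linarith [sq_nonneg C]
  obtain ⟨r, hr, hr0, hr1, hr2⟩ :
      ∃ r : ℝ, 0 < r ∧ r ≤ r₀ ∧ r ≤ 1 ∧ (16 * C + 192 * C ^ 2) * (5 * r) ≤ η := by
    generalize 16 * C + 192 * C ^ 2 = D at hD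
    refine ⟨min r₀ (min 1 (η / (5 * D + 1))), by positivity, min_le_left _ _,
      (min_le_right _ _).trans (min_le_left _ _), ?_⟩
    have := (le_div_iff₀ (by positivity)).1
      ((min_le_right r₀ _).trans (min_le_right 1 (η / (5 * D + 1))))
    have h0 : 0 < min r₀ (min 1 (η / (5 * D + 1))) := by positivity
    linarith
  obtain ⟨𝒜, a, p, s, hA1, hA2⟩ := hat r ⟨hr, hr0⟩
  have P : ∀ i, Pc σ r (𝒜.e i) (e (a i)) (Q (a i)) (p i) (s i) := fun i =>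
    ⟨(hA1 i).1, (he _).1, hr, (hA1 i).2.1, (hA1 i).2.2.1, 𝒜.tgt i, (he _).2.2, (hA1 i).2.2.2.1,
      (hA1 i).2.2.2.2.1, (hA1 i).2.2.2.2.2⟩
  obtain ⟨w, C', -, hw0, hw⟩ := hex M 𝒜 (r ^ 2) ((16 * C + 192 * C ^ 2) * 8)
    (fun i => Am σ g r T (𝒜.e i)) (fun t => c (min t T)) (fun t => f (min t T))
    { μ0 := by positivity
      K0 := by positivity
      pa := fun i => (P i).pa hT hg hC0 (l1 _) (l2 _) hr1
      pc := fun i => (P i).pf hT hD ((l3 _).mono hD3)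
      pf := fun i => (P i).pf hT hD ((l4 _).mono hD4)
      mem := fun i t ht y hy => mem_iUnion.2 ⟨a i, (P i).memQ hT hg ht hy⟩
      osc := fun i t ht t' ht' y hy => by
        refine ((P i).lA hT hg hC0 (l1 _) (l2 _) (ht.trans ht'.1) ht hy
          (mem_ball_self (by norm_num))).trans (le_trans (mul_le_mul_of_nonneg_left ?_ hD) hr2)
        rw [sub_zero, abs_of_nonneg (by linarith [ht'.1])]
        have h1 := mul_le_mul_of_nonneg_left (mem_ball_zero_iff.1 hy).le hr.le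
        have h2 : r ^ 2 ≤ r := pow_le_of_le_one hr.le hr1 two_ne_zero
        linarith [ht'.2]
      inv := fun i j t ht y hy y' hy' h u h1 h2 => by
        rw [(P i).eL ha hu hT hg ht hy rfl h1, (P j).eL ha hu hT hg ht hy' h h2] } T
  refine ⟨w, C', hu.loc σ _ w fun x hx => ?_, hw0, fun x hx t ht => ?_⟩
  · obtain ⟨i, y, hy, rfl⟩ := hA2 x hx
    exact ⟨𝒜.e i, ball 0 4, (hA1 i).1, (𝒜.e i).map_target (𝒜.tgt i hy), isOpen_ball,
      by rwa [(𝒜.e i).right_inv (𝒜.tgt i hy)], smooth hR hΦ hT (by positivity) isOpen_ball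
        ((P i).sa hg hσ) ((P i).sf hc) ((P i).sf hf)
        (fun t ht y hy => mem_iUnion.2 ⟨a i, (P i).memQ hT hg ht.1 hy⟩) (fun y _ => hw0 _)
        (hw i).1 (hw i).2⟩
  · obtain ⟨i, y, hy, e1⟩ := hA2 x hx
    have h1 := (hw i).1.dt t ht y hy
    have h2 := (P i).eL ha hu hT hg ht.1 hy (u := w t) e1
      (((hw i).1.c2 t ht).contDiffAt (isOpen_ball.mem_nhds hy))
    refine ⟨e1 ▸ (hw i).2.fst.sup t ht y hy, ?_⟩
    erw [h2] at h1
    simp only [UA.loc, ← e1, min_eq_left ht.2] at h1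
    refine h1.congr_deriv ?_
    field_simp

omit [ChartedSpace (Cm n) M] [RiemannianBundle (fun x : M => TangentSpace 𝓘(ℝ, Cm n) x)] in
theorem trg_add (G : Mx n) {u v : M → ℝ} {e : Chart n M} {z : Cm n}
    (hu : ContDiffAt ℝ 2 (fun y => u (e.symm y)) z) (hv : ContDiffAt ℝ 2 (fun y => v (e.symm y)) z) :
    trg G (hs (fun x => u x + v x) e z) = trg G (hs u e z) + trg G (hs v e z) := by
  have h : ∀ {f : Cm n → ℝ}, ContDiffAt ℝ 2 f z → cHess f z = lev (jet f z).2.2 := fun hf =>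
    cHess_eq_lev ((hf.fderiv_right (m := 1) le_rfl).differentiableAt one_ne_zero)
  simp only [hs]
  rw [h hu, h hv, h (hu.add hv), jet_add hu hv, Prod.snd_add, Prod.snd_add, lev_add]
  simp only [trg, Matrix.mul_add, Matrix.trace_add, Complex.add_re]

end Lx

open Lx in
theorem linx_of {n : ℕ} {M : Type} [MetricSpace M] [ChartedSpace (Cm n) M]
    [RiemannianBundle (fun x : M => TangentSpace 𝓘(ℝ, Cm n) x)]
    (ha : B1a n M) (hu : MU n M) (hq : MAQ n) (hAT : AT n M) (hEX : EX (Cm n))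
    (hA : ADM (Cm n)) (hR : REG (Cm n)) (hG : GLUE (Cm n)) : LINX n M := by
  intro σ w₀ T g c f hσ hK hT hg hc hf hw
  have two : (2 : WithTop ℕ∞) ≤ ∞ := WithTop.coe_le_coe.2 (le_top : (2 : ℕ∞) ≤ ⊤)
  obtain ⟨v, C, sv, v0, hv⟩ := linx0 ha hu hq hAT hEX hA hR hG (c := fun t x => -c t x)
    (f := fun t x => σ x ^ 2 * trg (g t (pc n x) (pc n x x)) (hs w₀ (pc n x) (pc n x x)) -
      c t x * w₀ x + f t x) hσ hK hT hg (fun e he => (hc e he).neg) fun e he => by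
    have h1 : ContDiffOn ℝ ∞ (fun q : ℝ × Cm n => D2 (fun y => w₀ (e.symm y)) q.2)
        (Icc 0 T ×ˢ e.target) := fun q hq =>
      ((((hw e he q.2 hq.2).fderiv_right (m := ∞) le_rfl).fderiv_right (m := ∞) le_rfl).comp q
        contDiffAt_snd).contDiffWithinAt
    refine (((((sm_t hσ _ e he).pow 2).mul (hq.sL.comp ((sm_g hg he).prodMk h1) fun q hq' =>
      (hg.pos _ hq'.1 e he _ hq'.2).det_pos.ne')).sub ((hc e he).mul (sm_t hw _ e he))).add
        (hf e he)).congr fun q hq' => ?_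
    simp only [ch]
    rw [op_eq ha hu hg hq'.1 he hq'.2 ((hw e he _ hq'.2).of_le two)]
    rfl
  obtain ⟨C₀, hC₀⟩ := hK.exists_bound_of_continuousOn (ha.sm_cont _ hw).continuousOn
  refine ⟨fun t x => w₀ x + v t x, C₀ + C, fun e he => ((sm_t hw _ e he).mono
    (prod_mono subset_rfl (sep_subset _ _))).add (sv e he), fun x hx => ⟨by simp only [v0, add_zero],
      fun t ht => ⟨(abs_add_le _ _).trans (add_le_add (hC₀ x (subset_closure hx))
        (hv x hx t ht).1), (((hv x hx t ht).2.const_add (w₀ x)).congr_deriv ?_)⟩⟩⟩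
  have hx' := mem_chart_source (Cm n) x
  have ho : IsOpen {z ∈ (pc n x).target | 0 < σ ((pc n x).symm z)} :=
    ((ha.sm_cont _ hσ).comp_continuousOn (pc n x).continuousOn_symm).isOpen_inter_preimage
      (pc n x).open_target isOpen_Ioi
  have h1 : ContDiffOn ℝ ∞ (fun z => v t ((pc n x).symm z))
      {z ∈ (pc n x).target | 0 < σ ((pc n x).symm z)} :=
    (sv _ (ha.chart x)).comp (f := fun z => (t, z)) (by fun_prop) fun z hz => ⟨ht, hz⟩
  rw [trg_add _ ((hw _ (ha.chart x) _ ((pc n x).map_source hx')).of_le two)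
    ((h1.contDiffAt (ho.mem_nhds ⟨(pc n x).map_source hx', by
      rwa [(pc n x).left_inv hx']⟩)).of_le two)]
  ring

end Vale.Agent.P253W.FP
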