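import Vale.Agent.P253W.FP.Twb
import Vale.Agent.P272.K.R.Reg

/-!
# P253W, block FP, rows LREG and REGS: regularity in space
-/

set_option maxSynthPendingDepth 3
set_option linter.unusedSectionVars false

open Set Metric Filter Topology
open scoped ContDiff
open Vale.Agent.P272.K.R (Hol Bil D2 dq norm_dq_le fderiv_D2)
open Vale.Agent.P272.K.LIN (Jet jet)

noncomputable section

namespace Vale.Agent.P253W.FP

namespace Lreg

variable {E F : Type} [NormedAddCommGroup E] [NormedSpace ℝ E] [NormedAddCommGroup F]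
  [NormedSpace ℝ F] {α T A B h : ℝ} {I : Set ℝ} {U s : Set E} {f : ℝ → E → F} {v : E} {k : ℕ}

theorem pb_shift (p : PB α I U f A B) (v : E) (e : ∀ x ∈ s, x + v ∈ U) :
    PB α I s (fun t x => f t (x + v)) A B :=
  ⟨p.cont.comp (f := fun q : ℝ × E => (q.1, q.2 + v)) (by fun_prop) fun q hq => ⟨hq.1, e _ hq.2⟩,
    fun t ht x hx => p.sup t ht _ (e x hx), fun t ht x hx y hy => by
      simpa using p.hol t ht _ (e x hx) _ (e y hy)⟩

theorem pb_dq (c : ContinuousOn (fun q : ℝ × E => f q.1 q.2) (I ×ˢ U))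
    (d : ∀ t ∈ I, ∀ x ∈ U, DifferentiableAt ℝ (f t) x) (p : PB α I U (fun t => fderiv ℝ (f t)) A A)
    (hh : 0 < h) (e : ∀ x ∈ s, ∀ τ ∈ Icc 0 h, x + τ • v ∈ U) :
    PB α I s (fun t => dq v h (f t)) (A * ‖v‖) (A * ‖v‖) :=
  ⟨((c.comp (f := fun q : ℝ × E => (q.1, q.2 + h • v)) (by fun_prop) fun q hq =>
      ⟨hq.1, e _ hq.2 h ⟨hh.le, le_rfl⟩⟩).sub (c.mono (prod_mono_right fun x hx => by
        simpa using e x hx 0 ⟨le_rfl, hh.le⟩))).const_smul h⁻¹,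
    fun t ht x hx => norm_dq_le hh (d t ht) (e x hx) (p.sup t ht),
    fun t ht => Hol.dq hh (d t ht) e (p.hol t ht)⟩

variable [FiniteDimensional ℝ E]

/-- uniform ellipticity on compact sets -/
theorem ell_unif {X : Type} [TopologicalSpace X] {s : Set X} (hs : IsCompact s)
    {A : X → Bil E →L[ℝ] ℝ} (hA : ContinuousOn A s)
    (p : ∀ x ∈ s, ∀ ξ : E →L[ℝ] ℝ, ξ ≠ 0 → 0 < A x (ξ.smulRight ξ)) :
    ∃ l > 0, ∀ x ∈ s, ∀ ξ : E →L[ℝ] ℝ, l * ‖ξ‖ ^ 2 ≤ A x (ξ.smulRight ξ) := by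
  have := FiniteDimensional.proper_real (E →L[ℝ] ℝ)
  obtain ⟨l, hl, h⟩ := (hs.prod (isCompact_sphere (0 : E →L[ℝ] ℝ) 1)).exists_forall_le'
    (f := fun q => A q.1 (ContinuousLinearMap.smulRightL ℝ E (E →L[ℝ] ℝ) q.2 q.2))
    ((hA.comp continuousOn_fst fun _ hq => hq.1).clm_apply (by fun_prop))
    fun q hq => p _ hq.1 _ (ne_zero_of_mem_unit_sphere ⟨_, hq.2⟩)
  refine ⟨l, hl, fun x hx ξ => ?_⟩
  by_cases h0 : ξ = 0
  · simp [h0]
  have n := norm_pos_iff.2 h0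
  have := h (x, ‖ξ‖⁻¹ • ξ) ⟨hx, by simp [norm_smul, n.ne']⟩
  simp only [map_smul, smul_apply, smul_eq_mul] at this
  rwa [← mul_assoc, ← mul_inv, ← sq, le_inv_mul_iff₀' (by positivity)] at this

variable {A : ℝ → E → Bil E →L[ℝ] ℝ} {g w R : ℝ → E → ℝ}

/-- towers from the directional derivatives -/
theorem tw_succ (h0 : 0 < α) (h1 : α < 1) (hU : IsOpen U)
    (hw : Tw (Icc 0 T) U (TH α (Icc 0 T) U) 1 _ w)
    (h : ∀ v, Tw (Icc 0 T) U (TH α (Icc 0 T) U) k _ fun t x => fderiv ℝ (w t) x v) :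
    Tw (Icc 0 T) U (TH α (Icc 0 T) U) (k + 1) _ w :=
  ⟨hw.1, hw.2.1, ((base_th h0 h1.le hU).tw hU k).of_apply h⟩

theorem step3 (hD : DQ E) (h0 : 0 < α) (h1 : α < 1) (hT : 0 ≤ T) (hU : IsOpen U)
    (hA : Tw (Icc 0 T) U (TH α (Icc 0 T) U) 1 _ A) (hg : Tw (Icc 0 T) U (TH α (Icc 0 T) U) 1 _ g)
    (p : ∀ t ∈ Icc 0 T, ∀ x ∈ U, ∀ ξ : E →L[ℝ] ℝ, ξ ≠ 0 → 0 < A t x (ξ.smulRight ξ))
    (hw : Tw (Icc 0 T) U (TH α (Icc 0 T) U) 2 _ w) (z : ∀ x ∈ U, w 0 x = 0)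
    (e : ∀ t ∈ Icc 0 T, ∀ x ∈ U,
      HasDerivWithinAt (fun s => w s x) (A t x (D2 (w t) x) + g t x) (Icc 0 T) t) :
    Tw (Icc 0 T) U (TH α (Icc 0 T) U) 3 _ w := by
  have b := base_th (T := T) h0 h1.le hU
  have := FiniteDimensional.proper_real E
  refine tw_succ h0 h1 hU hw.of_succ fun v => Tw.loc fun x₀ hx => ?_
  obtain ⟨ρ, hρ, a, C, hC, q⟩ := b.prodMk (b.prodMk (Tw.jet (k := 0) b hU hw) hA.1)
    (b.prodMk hA.2.2 hg.2.2) x₀ hx
  have a2 : closedBall x₀ (2 * (ρ / 4)) ⊆ ball x₀ ρ := closedBall_subset_ball (by linarith)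
  have a3 := ball_subset_closedBall.trans a2
  have a1 : ball x₀ (ρ / 4) ⊆ ball x₀ ρ := ball_subset_ball (by linarith)
  have n := norm_nonneg v
  have hv : ρ / 4 / (‖v‖ + 1) * ‖v‖ ≤ ρ / 4 := by
    rw [div_mul_eq_mul_div, div_le_iff₀ (by positivity)]
    linarith
  have m : ∀ h ∈ Ioc 0 (ρ / 4 / (‖v‖ + 1)), ∀ x ∈ ball x₀ (ρ / 4), ∀ τ ∈ Icc 0 h,
      x + τ • v ∈ closedBall x₀ (2 * (ρ / 4)) := fun h hh x hx τ hτ => by
    rw [mem_closedBall_iff_norm, add_sub_right_comm]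
    refine (norm_add_le _ _).trans ?_
    rw [norm_smul, Real.norm_of_nonneg hτ.1]
    linarith [mem_ball_iff_norm.1 hx, mul_le_mul_of_nonneg_right (hτ.2.trans hh.2) n]
  have cK := (isCompact_Icc (a := 0) (b := T)).prod (isCompact_closedBall x₀ (2 * (ρ / 4)))
  have cA := q.fst.snd.cont.mono (prod_mono_right a2)
  obtain ⟨l, hl, el⟩ := ell_unif cK cA fun y hy => p _ hy.1 _ (a (a2 hy.2))
  have k1 : C ≤ C + (C * ‖v‖ * C + C * (C * ‖v‖) + C * ‖v‖) := le_add_of_nonneg_right (by positivity)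
  refine ⟨ρ / 4 / 4, by positivity, (ball_subset_ball (by linarith)).trans a, hD α T l C _ (ρ / 4)
    (ρ / 4 / (‖v‖ + 1)) x₀ v w _ (fun h t x => A t (x + h • v)) h0 h1 hT hl (by positivity)
    (by positivity) hv ((Tw.cl hU hw e).mono Subset.rfl (a3.trans a)) (fun x hx => z x (a (a3 hx)))
    ((q.fst.fst.mono_set Subset.rfl a3).mono k1 k1) (fun h hh => ⟨?_, fun t ht x hx => ?_, ?_⟩)
    fun ε hε => ?_⟩
  · exact (pb_shift q.fst.snd _ fun x hx => a2 (m h hh x hx h ⟨hh.1.le, le_rfl⟩)).mono k1 k1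
  · have := m h hh x hx h ⟨hh.1.le, le_rfl⟩
    exact ⟨q.fst.snd.sup t ht _ (a2 this), el (t, _) ⟨ht, this⟩⟩
  · have m' := fun x hx τ hτ => a2 (m h hh x hx τ hτ)
    refine ((((pb_dq q.fst.snd.cont (fun t ht x hx => hA.2.1 t ht x (a hx)) q.snd.fst hh.1 m').app
      (q.fst.fst.snd.snd.mono_set Subset.rfl a1)).add (pb_dq (hg.1.cont.mono (prod_mono_right a))
        (fun t ht x hx => hg.2.1 t ht x (a hx)) q.snd.snd hh.1 m')).mono ?_ ?_).congr
      fun t _ x _ => ?_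
    · nlinarith [mul_nonneg hC (mul_nonneg hC n)]
    · linarith
    · simp only [dq, jet, map_smul, map_sub, smul_apply,
        sub_apply, smul_eq_mul]
      ring
  · obtain ⟨δ, hδ, u⟩ := Metric.uniformContinuousOn_iff.1 (cK.uniformContinuousOn_of_continuous cA)
      ε hε
    refine ⟨δ / 2, half_pos hδ, fun h hh t ht s hs d x hx => ?_⟩
    have := m h hh x hx h ⟨hh.1.le, le_rfl⟩
    rw [← dist_eq_norm]
    exact (u (t, _) ⟨ht, this⟩ (s, _) ⟨hs, this⟩ (by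
      rw [dist_prod_same_right]; exact d.trans_lt (half_lt_self hδ))).le

/-- the equation for a directional derivative -/
theorem swap (hS : SWAP E) (hU : IsOpen U) (hw : Tw (Icc 0 T) U (TH α (Icc 0 T) U) 1 _ w)
    (hR : Tw (Icc 0 T) U (TH α (Icc 0 T) U) 1 _ R)
    (e : ∀ t ∈ Icc 0 T, ∀ x ∈ U, HasDerivWithinAt (fun s => w s x) (R t x) (Icc 0 T) t) (v : E)
    {t : ℝ} (ht : t ∈ Icc 0 T) {x : E} (hx : x ∈ U) :
    HasDerivWithinAt (fun s => fderiv ℝ (w s) x v) (fderiv ℝ (R t) x v) (Icc 0 T) t :=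
  (ContinuousLinearMap.apply ℝ ℝ v).hasFDerivAt.comp_hasDerivWithinAt t
    (hS T U ℝ w R hU e hw.2.1 (hR.imp fun _ _ _ _ => TH.jc) t ht x hx)

theorem dir_zero (hU : IsOpen U) (z : ∀ x ∈ U, w 0 x = 0) (v : E) :
    ∀ x ∈ U, fderiv ℝ (w 0) x v = 0 := fun x hx => by
  rw [EventuallyEq.fderiv_eq (f := fun _ => 0) (eventually_of_mem (hU.mem_nhds hx) z)]
  simp

theorem d3 (hU : IsOpen U) (hw : Tw I U (TH α I U) 3 _ w) {t : ℝ} (ht : t ∈ I) {x : E}
    (hx : x ∈ U) (v : E) : fderiv ℝ (D2 (w t)) x v = D2 (fun y => fderiv ℝ (w t) y v) x :=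
  fderiv_D2 ((Tw.contDiffOn hU ht hw).contDiffAt (hU.mem_nhds hx)) v

end Lreg

open Lreg

variable {E : Type} [NormedAddCommGroup E] [NormedSpace ℝ E] [FiniteDimensional ℝ E]

theorem lreg_of (_ : TWB E) (hD : DQ E) (hS : SWAP E) : LREG E := by
  intro α T U k A g w h0 h1 hT hU
  have b := (base_th (T := T) h0 h1.le hU).tw hU
  induction k generalizing A g w with
  | zero => exact fun _ _ _ h _ _ => h
  | succ k ih =>
    intro hA hg p hw z e
    have A1 := hA.of_le (Nat.le_add_left 1 k)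
    have g1 := hg.of_le (Nat.le_add_left 1 k)
    have w3 := step3 hD h0 h1 hT hU A1 g1 p hw z e
    have wk := ih A g w hA.of_succ hg.of_succ p hw z e
    refine tw_succ h0 h1 hU hw.of_succ fun v => ih A
      (fun t x => fderiv ℝ (A t) x v (D2 (w t) x) + fderiv ℝ (g t) x v) _ hA.of_succ
      ((b k).add _ _ _ ((b k).apply ((b k).clm (.apply ℝ _ v) hA.2.2) wk.2.2.2.2)
        ((b k).clm (.apply ℝ _ v) hg.2.2)) p ((b 2).clm (.apply ℝ _ v) w3.2.2) (dir_zero hU z v)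
      fun t ht x hx => (swap hS hU hw.of_succ ((b 1).add _ _ _ ((b 1).apply A1 w3.2.2.2.2) g1) e v
        ht hx).congr_deriv ?_
    rw [(((hA.2.1 t ht x hx).hasFDerivAt.clm_apply (w3.2.2.2.2.2.1 t ht x hx).hasFDerivAt).fun_add
      (hg.2.1 t ht x hx).hasFDerivAt).fderiv, ← d3 hU w3 ht hx]
    simp [add_assoc]

theorem regs_of (_ : TWB E) (hS : SWAP E) (h3 : REG3 E) (hL : LREG E) : REGS E := by
  intro P _ _ α T U V a Φ w H k
  have hU := H.oU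
  have b₀ := base_th (T := T) H.α0 H.α1.le hU
  have b := b₀.tw hU
  refine Tw.of_le (Nat.le_add_right k 3) ?_
  induction k with
  | zero => exact h3 P α T U V a Φ w H
  | succ k ih =>
    have w3 := ih.of_le (Nat.le_add_left 3 k)
    have ha := fun k => (b k).smooth _ a H.sa
    have hJ := (b (k + 1)).prodMk (ha _) (Tw.jet b₀ hU ih)
    have hΦ := (b (k + 1)).comp _ _ V _ _ H.oV (H.sΦ.fderiv_of_isOpen H.oV le_rfl) hJ H.mem
    refine tw_succ H.α0 H.α1 hU (w3.of_le (by norm_num)) fun v => hL α T U (k + 1)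
      (fun t x => (fderiv ℝ Φ (a t x, jet (w t) x)).comp ((ContinuousLinearMap.inr ℝ _ _).comp j2))
      (fun t x => fderiv ℝ Φ (a t x, jet (w t) x)
        (fderiv ℝ (a t) x v, fderiv ℝ (w t) x v, D2 (w t) x v, 0)) _ H.α0 H.α1 H.T0.le hU
      ((b _).clm ((ContinuousLinearMap.compL ℝ (Bil E) (P × Jet E) ℝ).flip
        ((ContinuousLinearMap.inr ℝ _ _).comp j2)) hΦ :)
      ((b _).apply hΦ ((b _).prodMk ((b _).clm (.apply ℝ _ v) (ha (k + 2)).2.2) ((b _).prodMk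
        ((b _).clm (.apply ℝ _ v) ih.2.2.of_succ) ((b _).prodMk
          ((b _).clm (.apply ℝ _ v) ih.2.2.2.2) ((b _).const 0)))))
      H.ell ((b 2).clm (.apply ℝ _ v) w3.2.2) (dir_zero hU H.zero v)
      fun t ht x hx => (swap hS hU (w3.of_le (by norm_num)) ((b 1).comp _ _ V _ _ H.oV H.sΦ
        (hJ.of_le (Nat.le_add_left 1 k)) H.mem) H.cl.dt v ht hx).congr_deriv ?_
    refine (DFunLike.congr_fun (((H.sΦ.contDiffAt (H.oV.mem_nhds (H.mem t ht x hx))).differentiableAt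
      (by simp)).hasFDerivAt.comp x (((ha 1).2.1 t ht x hx).hasFDerivAt.prodMk
        ((w3.2.1 t ht x hx).hasFDerivAt.prodMk ((w3.2.2.2.1 t ht x hx).hasFDerivAt.prodMk
          (w3.2.2.2.2.2.1 t ht x hx).hasFDerivAt)))).fderiv v).trans ?_
    rw [← d3 hU w3 ht hx, ContinuousLinearMap.comp_apply, ContinuousLinearMap.comp_apply, ← map_add]
    simp [j2_apply]

end Vale.Agent.P253W.FP
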