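import Vale.Agent.P253W.FP.MDefs

/-!
# P253W, block FP, row LT: existence from a priori bounds
-/

open scoped Manifold Bundle
open Bundle Set
open Vale.Agent.P272.K (Cm)

namespace Vale.Agent.P253W.FP

variable {n : ℕ} {M : Type} [MetricSpace M] [ChartedSpace (Cm n) M]
  [RiemannianBundle (fun x : M => TangentSpace 𝓘(ℝ, Cm n) x)]

theorem Bd.mono {σ : M → ℝ} {T T' c C : ℝ} {φ : ℝ → M → ℝ} (h : Bd n σ T φ c C) (e : T' ≤ T) :
    Bd n σ T' φ c C := fun t ht => h t ⟨ht.1, ht.2.trans e⟩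

theorem lt_of (hu : MU n M) (hs : STEP n M) (hw : WREG n M) : LT n M := by
  intro σ T c₀ C₀ hσ hK hT hc ha
  obtain ⟨τ, hτ, h⟩ := hs σ c₀ C₀ hσ hK hc
  have key : ∀ k : ℕ, ∃ φ, Sol n σ (min T (k * τ)) φ ∧ Bd n σ (min T (k * τ)) φ c₀ C₀ := fun k => by
    induction k with
    | zero =>
      rw [Nat.cast_zero, zero_mul, min_eq_right hT]
      exact ⟨_, (hu.start σ).1, ha 0 ⟨le_rfl, hT⟩ _ 1 1 one_pos (hu.start σ).1 (hu.start σ).2⟩
    | succ k ih =>
      obtain ⟨φ, h1, h2⟩ := ih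
      have p : 0 ≤ min T (k * τ) := le_min hT (by positivity)
      obtain ⟨φ', c, C, c0, h3, h4⟩ := h _ φ p h1 h2
      have e : min T ((k + 1 : ℕ) * τ) ≤ min T (k * τ) + τ := by
        rw [← min_add_add_right, Nat.cast_succ, add_mul, one_mul]
        exact min_le_min (by linarith) le_rfl
      have h5 := hu.mono σ _ _ φ' e (hw σ _ φ' hσ (by linarith) h3)
      exact ⟨φ', h5, ha _ ⟨le_min hT (by positivity), min_le_left _ _⟩ φ' c C c0 h5 (h4.mono e)⟩
  obtain ⟨k, hk⟩ := exists_nat_ge (T / τ)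
  simpa only [min_eq_left ((div_le_iff₀ hτ).1 hk)] using key k

end Vale.Agent.P253W.FP
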