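import Vale.Agent.P253W.FP.Pb
import Vale.Agent.P272.K.MP.Local

/-!
# P253W, block FP, row PCE: the estimate for constant coefficients
-/

open Set Metric Filter Topology
open scoped RealInnerProductSpace
open Vale.Agent.P272.K.R (Hol Bil D2)
open Vale.Agent.P272.K.LIN (Jet jet)
open Vale.Agent.P272.K.MP

noncomputable section

namespace Vale.Agent.P253W.FP

variable {E : Type} [NormedAddCommGroup E] [NormedSpace ℝ E]

namespace Pce

lemma maps {s T : ℝ} : MapsTo (fun t => t + s) (Icc 0 (T - s)) (Icc s T) := fun t ht =>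
  ⟨by linarith [ht.1], by linarith [ht.2]⟩

omit [NormedSpace ℝ E] in
lemma cont_shift {F : Type} [TopologicalSpace F] {s T : ℝ} {U : Set E} {f : ℝ × E → F}
    (h : ContinuousOn f (Icc s T ×ˢ U)) :
    ContinuousOn (fun q : ℝ × E => f (q.1 + s, q.2)) (Icc 0 (T - s) ×ˢ U) :=
  h.comp (by fun_prop) fun _ hq => ⟨maps hq.1, hq.2⟩

lemma cl_shift {s T : ℝ} {U : Set E} {v vt : ℝ → E → ℝ} (h : Cl (Icc s T) U v vt) :
    Cl (Icc 0 (T - s)) U (fun t => v (t + s)) fun t => vt (t + s) :=
  ⟨fun _ ht => h.c2 _ (maps ht), cont_shift h.cj, fun t ht x hx => by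
    simpa using! (h.dt _ (maps ht) x hx).scomp t
      ((hasDerivAt_id t).add_const s).hasDerivWithinAt maps⟩

variable [FiniteDimensional ℝ E]

/-- a proper quadratic form -/
lemma ex_q : ∃ (q : E → ℝ) (Q : Bil E), ContDiff ℝ 2 q ∧ (∀ x, D2 q x = Q) ∧ q 0 = 0 ∧
    (∀ x, 0 ≤ q x) ∧ Tendsto q (cocompact E) atTop := by
  let S := toEuclidean (E := E)
  let β : Bil E := (innerSL ℝ).bilinearComp S.toContinuousLinearMap S.toContinuousLinearMap
  have e : (fun x => β x x) = fun x => ‖S x‖ ^ 2 := funext fun x => real_inner_self_eq_norm_sq (S x)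
  have d : fderiv ℝ (fun x => β x x) = (β + β.flip :) := funext fun x => by
    refine (β.hasFDerivAt_of_bilinear (hasFDerivAt_id x) (hasFDerivAt_id x)).fderiv.trans ?_
    ext
    simp
  refine ⟨fun x => β x x, β + β.flip, β.contDiff.clm_apply contDiff_id, fun x => ?_, by simp,
    fun x => (congrFun e x).ge.trans' (sq_nonneg _), ?_⟩
  · rw [D2, d, ContinuousLinearMap.fderiv]
  · rw [e]
    exact (tendsto_pow_atTop two_ne_zero).comp (Tendsto.comp tendsto_norm_cocompact_atTop
      S.toHomeomorph.isClosedEmbedding.tendsto_cocompact)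

/-- the comparison principle for bounded solutions -/
lemma cmp {B : Bil E →L[ℝ] ℝ} (hB : ∀ ξ : E →L[ℝ] ℝ, 0 ≤ B (ξ.smulRight ξ)) {T M : ℝ}
    {u v f : ℝ → E → ℝ} (hv : Cl (Icc 0 T) univ v fun t x => B (D2 (v t) x) + f t x)
    (hu : Cl (Icc 0 T) univ u fun t x => B (D2 (u t) x) + f t x) (h0 : ∀ x, v 0 x = u 0 x)
    (hM : ∀ t ∈ Icc 0 T, ∀ x, v t x - u t x ≤ M) {t : ℝ} (ht : t ∈ Icc 0 T) (x : E) :
    v t x ≤ u t x := by
  obtain ⟨q, Q, q1, q2, q3, q4, q5⟩ := ex_q (E := E)
  set c := |B Q| + 1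
  have c0 : 0 < c := by positivity
  have key : ∀ ε > (0 : ℝ), v t x - u t x ≤ ε * (q x + c * t) := fun ε hε => by
    obtain ⟨K, K1, K2⟩ := mem_cocompact.1 (q5.eventually_ge_atTop (M / ε))
    have qc := q1.continuous
    obtain ⟨⟨s, y⟩, hp, hm⟩ := ContinuousOn.exists_isMaxOn'
      (f := fun p : ℝ × E => v p.1 p.2 - u p.1 p.2 - ε * (q p.2 + c * p.1))
      ((hv.cj.fst.sub hu.cj.fst).sub (by fun_prop)) (isClosed_Icc.prod isClosed_univ)
      (x₀ := (0, 0)) ⟨⟨le_rfl, ht.1.trans ht.2⟩, trivial⟩ (eventually_inf_principal.2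
        (mem_of_superset (isCompact_Icc.prod K1).compl_mem_cocompact fun p h hp => by
          have := (div_le_iff₀ hε).1 (K2 fun k => h ⟨hp.1, k⟩)
          have := hM _ hp.1 p.2
          have := mul_nonneg hε.le (mul_nonneg c0.le hp.1.1)
          simp only [h0, q3]
          linarith))
    have k := hm (show (t, x) ∈ _ from ⟨ht, trivial⟩)
    rcases hp.1.1.eq_or_lt with e | e
    · obtain rfl : s = 0 := e.symm
      have := mul_nonneg hε.le (q4 y)
      simp only [mem_ofPred, h0] at k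
      linarith
    exfalso
    have k1 := IsLocalMaxOn.hasFDerivWithinAt_nonpos
      (f := fun r => v r y - u r y - ε * (q y + c * r))
      (IsMaxOn.localize fun r hr => hm (show (r, y) ∈ _ from ⟨hr, trivial⟩))
      (((hv.dt s hp.1 y trivial).sub (hu.dt s hp.1 y trivial)).sub
        ((((hasDerivAt_id s).const_mul c).const_add (q y)).const_mul ε).hasDerivWithinAt)
      (sub_mem_posTangentConeAt_of_segment_subset (y := 0) ((convex_Icc 0 T).segment_subset hp.1
        ⟨le_rfl, ht.1.trans ht.2⟩))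
    have cv := (hv.c2 s hp.1).contDiffAt (x := y) univ_mem
    have cu := (contDiffAt_const (c := -1)).mul ((hu.c2 s hp.1).contDiffAt (x := y) univ_mem)
    have cq := (contDiffAt_const (c := -ε)).mul (q1.contDiffAt (x := y))
    have k2 := op_nonpos_of_max B hB 0 (v := fun z => v s z + -1 * u s z + -ε * q z) (x := y)
      (.of_forall fun z => by
        have := hm (show (s, z) ∈ _ from ⟨hp.1, trivial⟩)
        simp only [mem_ofPred] at this
        linarith) ((cv.add cu).add cq)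
    have k3 := congrArg (fun j => B j.2.2) (jet_add (cv.add cu) cq)
    rw [jet_add cv cu, jet_const_mul _ ((hu.c2 s hp.1).contDiffAt univ_mem),
      jet_const_mul _ q1.contDiffAt] at k3
    simp only [jet, Prod.snd_add, Prod.smul_snd, map_add, map_smul, smul_eq_mul, q2 y] at k3
    rw [k3] at k2
    simp only [ContinuousLinearMap.toSpanSingleton_apply, zero_sub, smul_eq_mul, zero_apply,
      mul_one] at k1 k2
    have : ε * B Q < ε * c := mul_lt_mul_of_pos_left ((le_abs_self _).trans_lt (lt_add_one _)) hε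
    nlinarith
  have l : Tendsto (fun ε : ℝ => ε * (q x + c * t)) (𝓝[>] 0) (𝓝 (0 * (q x + c * t))) :=
    (Continuous.tendsto (by fun_prop) 0).mono_left nhdsWithin_le_nhds
  simpa using ge_of_tendsto l (eventually_nhdsWithin_of_forall key)

end Pce

open Pce in
/-- **PCE** -/
theorem pce_of [FiniteDimensional ℝ E] (h : DUH E) : PCE E := by
  intro α a0 a1 l L hl
  obtain ⟨C, C0, h⟩ := h α a0 a1 l L hl
  refine ⟨C, C0, fun B hB s T M A K v vt hs K0 hv v0 hM hf t ht => ?_⟩
  obtain ⟨H, -, h⟩ := h B hB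
  obtain ⟨h1, h2, h3, -, h4⟩ := h (T - s) A K (fun t x => vt (t + s) x - B (D2 (v (t + s)) x))
    (sub_nonneg.2 hs) K0 ⟨cont_shift hf.cont, fun _ ht => hf.sup _ (maps ht),
      fun _ ht => hf.hol _ (maps ht)⟩
  have h5 := (cl_shift hv).congr isOpen_univ (fun _ _ _ _ => rfl) fun t _ x _ =>
    (add_sub_cancel (B (D2 (v (t + s)) x)) (vt (t + s) x)).symm
  have b : ∀ ξ : E →L[ℝ] ℝ, 0 ≤ B (ξ.smulRight ξ) := fun ξ => le_trans (by positivity) (hB.2 ξ)
  have m : t - s ∈ Icc 0 (T - s) := ⟨sub_nonneg.2 ht.1, sub_le_sub_right ht.2 s⟩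
  have e0 := fun x => (congrArg (v · x) (zero_add s)).trans ((v0 x).trans (h1 x).symm)
  have bd := fun r hr x => abs_le.1
    ((abs_sub _ _).trans (add_le_add (hM _ (maps hr) x) (h3.sup r hr x trivial)))
  have e := funext fun x => (cmp b h5 h2 e0 (fun r hr x => (bd r hr x).2) m x).antisymm
    (cmp b h2 h5 (fun x => (e0 x).symm) (M := M + (T - s) * A)
      (fun r hr x => by linarith [(bd r hr x).1]) m x)
  have := h4.hol _ m
  rwa [← e, sub_add_cancel] at this

end Vale.Agent.P253W.FP
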