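import Vale.Agent.P253W.FP.Pb

/-!
# P253W, row FP.PIC: the fixed point of a contraction
-/

open Set Metric Filter Topology

noncomputable section

namespace Vale.Agent.P253W.FP

variable {E : Type} [NormedAddCommGroup E] [NormedSpace ℝ E]

omit [NormedSpace ℝ E] in
/-- the bounds pass to uniform limits -/
theorem PB.lim {F : Type} [NormedAddCommGroup F] {α A B : ℝ} {I : Set ℝ} {s : Set E}
    {u : ℕ → ℝ → E → F} {v : ℝ → E → F} {c : ℕ → ℝ} (hu : ∀ k, PB α I s (u k) A B)
    (hc : Tendsto c atTop (𝓝 0)) (h : ∀ k, ∀ t ∈ I, ∀ y ∈ s, dist (u k t y) (v t y) ≤ c k) :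
    PB α I s v A B := by
  have h1 : ∀ t ∈ I, ∀ y ∈ s, Tendsto (fun k => u k t y) atTop (𝓝 (v t y)) := fun t ht y hy =>
    tendsto_iff_dist_tendsto_zero.2 (squeeze_zero (fun _ => dist_nonneg) (fun k => h k t ht y hy) hc)
  have h2 : TendstoUniformlyOn (fun k (q : ℝ × E) => u k q.1 q.2) (fun q => v q.1 q.2) atTop
      (I ×ˢ s) := Metric.tendstoUniformlyOn_iff.2 fun ε hε =>
    (hc.eventually (gt_mem_nhds hε)).mono fun k hk q hq => by
      rw [dist_comm]
      exact (h k q.1 hq.1 q.2 hq.2).trans_lt hk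
  exact ⟨h2.continuousOn (Frequently.of_forall fun k => (hu k).cont),
    fun t ht y hy => le_of_tendsto' (h1 t ht y hy).norm fun k => (hu k).sup t ht y hy,
    fun t ht x hx y hy => le_of_tendsto' ((h1 t ht x hx).sub (h1 t ht y hy)).norm
      fun k => (hu k).hol t ht x hx y hy⟩

/-- **Row FP.PIC.** -/
theorem pic : PIC E := by
  intro α N I s X ι κ Ψ hN h1 h2
  let g : ℕ → ℝ → X → ℝ := fun k => Ψ^[k] fun _ _ => 0
  have hg : ∀ k, g (k + 1) = Ψ (g k) := fun k => Function.iterate_succ_apply' Ψ k _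
  have h3 : ∀ k i, PB α I s (fun t y => g k t (κ i y)) N N := by
    intro k
    induction k with
    | zero => exact fun i => (PB.zero α I s).mono hN hN
    | succ k ih => exact hg k ▸ h1 _ ih
  have h4 : ∀ k i, PB α I s (fun t y => g (k + 1) t (κ i y) - g k t (κ i y))
      (N / 2 ^ k) (N / 2 ^ k) := by
    intro k
    induction k with
    | zero =>
      intro i
      rw [pow_zero, div_one]
      exact (h3 1 i).congr fun t _ y _ => (sub_zero _).symm
    | succ k ih =>
      intro i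
      have := h2 _ _ _ (by positivity) (h3 (k + 1)) (h3 k) ih i
      rwa [← hg, ← hg, div_div, ← pow_succ] at this
  let G : ℝ → X → ℝ := fun t x => limUnder atTop fun k => g k t x
  have h5 : ∀ i, ∀ t ∈ I, ∀ y ∈ s, ∀ k, dist (g k t (κ i y)) (g (k + 1) t (κ i y)) ≤
      2 * N / 2 / 2 ^ k := fun i t ht y hy k => by
    rw [dist_comm, dist_eq_norm, mul_div_cancel_left₀ N two_ne_zero]
    exact (h4 k i).sup t ht y hy
  have h6 : ∀ i, ∀ t ∈ I, ∀ y ∈ s, Tendsto (fun k => g k t (κ i y)) atTop (𝓝 (G t (κ i y))) :=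
    fun i t ht y hy => (cauchySeq_of_le_geometric_two (h5 i t ht y hy)).tendsto_limUnder
  have h7 : ∀ i k, ∀ t ∈ I, ∀ y ∈ s, dist (g k t (κ i y)) (G t (κ i y)) ≤ 2 * N / 2 ^ k :=
    fun i k t ht y hy => dist_le_of_le_geometric_two_of_tendsto (h5 i t ht y hy) (h6 i t ht y hy) k
  have hc : ∀ c : ℝ, Tendsto (fun k : ℕ => c / 2 ^ k) atTop (𝓝 0) := fun c =>
    tendsto_const_nhds.div_atTop (tendsto_pow_atTop_atTop_of_one_lt one_lt_two)
  have h8 : ∀ i, PB α I s (fun t y => G t (κ i y)) N N := fun i =>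
    PB.lim (fun k => h3 k i) (hc _) (h7 i)
  have h9 : ∀ i k m, PB α I s (fun t y => g (m + k) t (κ i y) - g k t (κ i y))
      (2 * N / 2 ^ k - 2 * N / 2 ^ (m + k)) (2 * N / 2 ^ k - 2 * N / 2 ^ (m + k)) := by
    intro i k m
    induction m with
    | zero =>
      rw [zero_add, sub_self]
      exact (PB.zero α I s).congr fun t _ y _ => (sub_self _).symm
    | succ m ih =>
      have e : 2 * N / 2 ^ k - 2 * N / 2 ^ (m + k) + N / 2 ^ (m + k) =
          2 * N / 2 ^ k - 2 * N / 2 ^ (m + k + 1) := by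
        rw [pow_succ]
        field_simp
        ring
      rw [Nat.add_right_comm, ← e]
      exact (ih.add (h4 (m + k) i)).congr fun t _ y _ => by ring
  have h10 : ∀ k i, PB α I s (fun t y => G t (κ i y) - g k t (κ i y))
      (2 * N / 2 ^ k) (2 * N / 2 ^ k) := fun k i =>
    PB.lim (fun m => (h9 i k m).mono (sub_le_self _ (by positivity)) (sub_le_self _ (by positivity)))
      ((hc (2 * N)).comp (tendsto_add_atTop_nat k)) fun m t ht y hy => by
        rw [dist_sub_right]
        exact h7 i (m + k) t ht y hy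
  refine ⟨G, h8, fun i t ht y hy => ?_⟩
  refine tendsto_nhds_unique ?_ ((h6 i t ht y hy).comp (tendsto_add_atTop_nat 1))
  refine tendsto_iff_dist_tendsto_zero.2 (squeeze_zero (fun _ => dist_nonneg) (fun k => ?_)
    (by simpa using (hc (2 * N)).div_const 2))
  have := (h2 _ _ _ (by positivity) h8 (h3 k) (h10 k) i).sup t ht y hy
  rw [Function.comp_apply, dist_comm, dist_eq_norm, hg]
  exact this

end Vale.Agent.P253W.FP
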