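import Vale.Agent.P253W.FP.Twb
import Vale.Agent.P253W.FP.Dq

/-!
# P253W, block FP, row REG3: the third space derivatives
-/

set_option maxSynthPendingDepth 3
set_option linter.unusedSectionVars false

open Set Metric Filter Topology
open scoped ContDiff
open Vale.Agent.P272.K.R
open Vale.Agent.P272.K.LIN (Jet jet)

noncomputable section

namespace Vale.Agent.P253W.FP

variable {E : Type} [NormedAddCommGroup E] [NormedSpace ℝ E]

namespace R3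

section avg

variable {Q : Type} [NormedAddCommGroup Q] [NormedSpace ℝ Q] {Φ : Q → ℝ} {M : ℝ} {S : Set Q}
  {p q p' q' : Q}

theorem seg_cont (hS : Convex ℝ S) (M0 : 0 ≤ M)
    (hL : ∀ p ∈ S, ∀ p' ∈ S, ‖fderiv ℝ Φ p - fderiv ℝ Φ p'‖ ≤ M * ‖p - p'‖) (hp : p ∈ S)
    (hq : q ∈ S) : ContinuousOn (fun t : ℝ => fderiv ℝ Φ (p + t • (q - p))) (Icc 0 1) :=
  (LipschitzOnWith.of_dist_le_mul (K := ⟨M, M0⟩) (f := fderiv ℝ Φ) (s := S) fun z hz z' hz' => by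
    rw [dist_eq_norm, dist_eq_norm]
    exact hL z hz z' hz').continuousOn.comp (by fun_prop) fun _ ht => hS.add_smul_sub_mem hp hq ht

/-- the averaged derivative is Lipschitz in the end points -/
theorem avg_lip (hS : Convex ℝ S) (M0 : 0 ≤ M)
    (hL : ∀ p ∈ S, ∀ p' ∈ S, ‖fderiv ℝ Φ p - fderiv ℝ Φ p'‖ ≤ M * ‖p - p'‖) (hp : p ∈ S)
    (hq : q ∈ S) (hp' : p' ∈ S) (hq' : q' ∈ S) {d : ℝ} (h1 : ‖p - p'‖ ≤ d) (h2 : ‖q - q'‖ ≤ d) :
    ‖avgD Φ p (q - p) - avgD Φ p' (q' - p')‖ ≤ M * d := by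
  refine norm_avgD_sub_avgD_le (seg_cont hS M0 hL hp hq) (seg_cont hS M0 hL hp' hq') fun t ht =>
    (hL _ (hS.add_smul_sub_mem hp hq ht) _ (hS.add_smul_sub_mem hp' hq' ht)).trans
      (mul_le_mul_of_nonneg_left ?_ M0)
  have e : p + t • (q - p) - (p' + t • (q' - p')) = (1 - t) • (p - p') + t • (q - q') := by module
  rw [e]
  refine (norm_add_le _ _).trans ?_
  rw [norm_smul, norm_smul, Real.norm_of_nonneg ht.1, Real.norm_of_nonneg (sub_nonneg.2 ht.2)]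
  nlinarith [mul_le_mul_of_nonneg_left h1 (sub_nonneg.2 ht.2), mul_le_mul_of_nonneg_left h2 ht.1]

theorem avg_cont (hS : Convex ℝ S) (hO : IsOpen S) (M0 : 0 ≤ M)
    (hL : ∀ p ∈ S, ∀ p' ∈ S, ‖fderiv ℝ Φ p - fderiv ℝ Φ p'‖ ≤ M * ‖p - p'‖) (hp : p ∈ S)
    (hq : q ∈ S) : ContinuousAt (fun z : Q × Q => avgD Φ z.1 (z.2 - z.1)) (p, q) :=
  (LipschitzOnWith.of_dist_le_mul (K := ⟨M, M0⟩) (s := S ×ˢ S) fun z hz z' hz' => by
    rw [dist_eq_norm, dist_eq_norm]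
    exact avg_lip hS M0 hL hz.1 hz.2 hz'.1 hz'.2 (norm_fst_le (z - z'))
      (norm_snd_le (z - z'))).continuousOn.continuousAt ((hO.prod hO).mem_nhds ⟨hp, hq⟩)

/-- bounds for the derivatives near a compact curve -/
theorem tube {V : Set Q} (hV : IsOpen V) (hΦ : ContDiffOn ℝ ∞ Φ V) {T : ℝ} {c : ℝ → Q}
    (hc : ContinuousOn c (Icc 0 T)) (m : ∀ t ∈ Icc 0 T, c t ∈ V) : ∃ δ > 0, ∃ M ≥ 0,
    ∀ t ∈ Icc 0 T, ball (c t) δ ⊆ V ∧ ‖fderiv ℝ Φ (c t)‖ ≤ M ∧ ∀ p ∈ ball (c t) δ,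
      ∀ p' ∈ ball (c t) δ, ‖fderiv ℝ Φ p - fderiv ℝ Φ p'‖ ≤ M * ‖p - p'‖ := by
  have hK := isCompact_Icc.image_of_continuousOn hc
  have h1 : ContDiffOn ℝ ∞ (fderiv ℝ Φ) V := hΦ.fderiv_of_isOpen hV le_rfl
  have c : ContinuousOn (fun v => (fderiv ℝ Φ v, fderiv ℝ (fderiv ℝ Φ) v)) V :=
    h1.continuousOn.prodMk (h1.continuousOn_fderiv_of_isOpen hV (by simp))
  have KV := image_subset_iff.2 m
  obtain ⟨M, hM⟩ := hK.exists_bound_of_continuousOn (c.mono KV)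
  obtain ⟨δ, hδ, e⟩ := hK.exists_thickening_subset_open
    (c.norm.isOpen_inter_preimage hV (isOpen_Iio (a := |M| + 1)))
    fun v hv => ⟨KV hv, ((hM v hv).trans (le_abs_self M)).trans_lt (lt_add_one _)⟩
  refine ⟨δ, hδ, |M| + 1, by positivity, fun t ht => ?_⟩
  have w := fun v hv => e (ball_subset_thickening (mem_image_of_mem _ ht) δ (a := v) hv)
  refine ⟨fun v hv => (w v hv).1, (norm_fst_le (_, _)).trans (w _ (mem_ball_self hδ)).2.le,
    fun p hp p' hp' => (convex_ball _ δ).norm_image_sub_le_of_norm_fderiv_le (fun v hv =>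
      (h1.contDiffAt (hV.mem_nhds (w v hv).1)).differentiableAt (by simp)) (fun v hv =>
      (norm_snd_le (fderiv ℝ Φ v, _)).trans (w v hv).2.le) hp' hp⟩

end avg

/-- a uniform ellipticity constant -/
theorem ell_const [FiniteDimensional ℝ E] {T : ℝ} {B : ℝ → Bil E →L[ℝ] ℝ}
    (hc : ContinuousOn B (Icc 0 T))
    (h : ∀ t ∈ Icc 0 T, ∀ ξ : E →L[ℝ] ℝ, ξ ≠ 0 → 0 < B t (ξ.smulRight ξ)) :
    ∃ l > 0, ∀ t ∈ Icc 0 T, ∀ ξ : E →L[ℝ] ℝ, l * ‖ξ‖ ^ 2 ≤ B t (ξ.smulRight ξ) := by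
  have := FiniteDimensional.proper_real (E →L[ℝ] ℝ)
  obtain ⟨l, l0, hl⟩ := (isCompact_Icc.prod (isCompact_sphere (0 : E →L[ℝ] ℝ) 1)).exists_forall_le'
    (f := fun q => B q.1 (q.2.smulRight q.2)) (a := 0)
    ((hc.comp continuousOn_fst fun _ h => h.1).clm_apply
      (((ContinuousLinearMap.smulRightL ℝ E (E →L[ℝ] ℝ)).continuous.comp continuous_snd).clm_apply
        continuous_snd).continuousOn)
    fun q hq => h _ hq.1 _ (ne_zero_of_mem_unit_sphere ⟨_, hq.2⟩)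
  refine ⟨l, l0, fun t ht ξ => ?_⟩
  rcases eq_or_ne ξ 0 with rfl | h0
  · simp
  have n := norm_pos_iff.2 h0
  have h1 := hl (t, ‖ξ‖⁻¹ • ξ) ⟨ht, by simp [norm_smul, n.ne']⟩
  have e : ξ.smulRight ξ = ‖ξ‖ ^ 2 • (‖ξ‖⁻¹ • ξ).smulRight (‖ξ‖⁻¹ • ξ) := by
    ext x y
    simp only [ContinuousLinearMap.smulRight_apply, smul_apply, smul_eq_mul]
    field_simp
  rw [e, map_smul, smul_eq_mul, mul_comm]
  exact mul_le_mul_of_nonneg_left h1 (by positivity)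

theorem pb_dq {F : Type} [NormedAddCommGroup F] [NormedSpace ℝ F] {α r R h C : ℝ} {I : Set ℝ}
    {x₀ v : E} {f : ℝ → E → F} (hh : 0 < h) (hr : r + h * ‖v‖ ≤ R)
    (hc : ContinuousOn (fun q : ℝ × E => f q.1 q.2) (I ×ˢ ball x₀ R))
    (hd : ∀ t ∈ I, ∀ x ∈ ball x₀ R, DifferentiableAt ℝ (f t) x)
    (hf : PB α I (ball x₀ R) (fun t => fderiv ℝ (f t)) C C) :
    PB α I (ball x₀ r) (fun t => dq v h (f t)) (C * ‖v‖) (C * ‖v‖) :=
  ⟨((hc.comp (f := fun q : ℝ × E => (q.1, q.2 + h • v)) (by fun_prop) fun _ hq =>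
      ⟨hq.1, Dq.sh hh hr hq.2⟩).sub (hc.mono (prod_mono_right (Dq.sub hh hr)))).const_smul h⁻¹,
    fun t ht _ hx => norm_dq_le hh (hd t ht) (fun _ hτ => add_smul_mem_ball hr hx hτ) (hf.sup t ht),
    fun t ht => Hol.dq hh (hd t ht) (fun _ hx _ hτ => add_smul_mem_ball hr hx hτ) (hf.hol t ht)⟩

variable {P : Type} [NormedAddCommGroup P] [NormedSpace ℝ P]

variable (P) in
/-- the inclusion of the second order part -/
def j3 : Bil E →L[ℝ] P × Jet E := (ContinuousLinearMap.inr ℝ P (Jet E)).comp j2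

theorem norm_comp_j3 (T : P × Jet E →L[ℝ] ℝ) : ‖T.comp (j3 P)‖ ≤ ‖T‖ := by
  refine ContinuousLinearMap.opNorm_le_bound _ (norm_nonneg _) fun b => ?_
  refine (T.le_opNorm _).trans (le_of_eq ?_)
  simp [j3, j2_apply, Prod.norm_def]

theorem pb_j3 {α A B : ℝ} {I : Set ℝ} {s : Set E} {f : ℝ → E → P × Jet E →L[ℝ] ℝ}
    (h : PB α I s f A B) : PB α I s (fun t x => (f t x).comp (j3 P)) A B :=
  ⟨h.cont.clm_comp continuousOn_const, fun t ht x hx => (norm_comp_j3 _).trans (h.sup t ht x hx),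
    fun t ht x hx y hy => by
      rw [← ContinuousLinearMap.sub_comp]
      exact (norm_comp_j3 _).trans (h.hol t ht x hx y hy)⟩

/-- the local step, for given constants -/
theorem step (hD : DQ E) [FiniteDimensional ℝ E] {α T r C δ M l : ℝ} {U : Set E}
    {V : Set (P × Jet E)} {a : ℝ → E → P} {Φ : P × Jet E → ℝ} {w : ℝ → E → ℝ}
    (H : RegH α T U V a Φ w) {x₀ : E} (hr : 0 < r) (hU : ball x₀ (3 * r) ⊆ U) (C0 : 0 ≤ C)
    (hJ : PB α (Icc 0 T) (ball x₀ (3 * r)) (fun t x => (a t x, jet (w t) x)) C C)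
    (ha : PB α (Icc 0 T) (ball x₀ (3 * r)) (fun t => fderiv ℝ (a t)) C C)
    (δ0 : 0 < δ) (M0 : 0 ≤ M) (l0 : 0 < l) (hl : M * δ ≤ l)
    (hm : ∀ t ∈ Icc 0 T, ∀ x ∈ ball x₀ (3 * r), (a t x, jet (w t) x) ∈ ball (a t x₀, jet (w t) x₀) δ)
    (hM : ∀ t ∈ Icc 0 T, ball (a t x₀, jet (w t) x₀) (2 * δ) ⊆ V ∧
      ‖fderiv ℝ Φ (a t x₀, jet (w t) x₀)‖ ≤ M ∧ ∀ p ∈ ball (a t x₀, jet (w t) x₀) (2 * δ),
      ∀ p' ∈ ball (a t x₀, jet (w t) x₀) (2 * δ), ‖fderiv ℝ Φ p - fderiv ℝ Φ p'‖ ≤ M * ‖p - p'‖)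
    (he : ∀ t ∈ Icc 0 T, ∀ ξ : E →L[ℝ] ℝ, 2 * l * ‖ξ‖ ^ 2 ≤
      (fderiv ℝ Φ (a t x₀, jet (w t) x₀)).comp (j3 P) (ξ.smulRight ξ)) (v : E) :
    Tw (Icc 0 T) (ball x₀ (r / 4)) (TH α (Icc 0 T) (ball x₀ (r / 4))) 2 ℝ
      fun t x => fderiv ℝ (w t) x v := by
  have v0 := norm_nonneg v
  have s2 : ball x₀ (2 * r) ⊆ ball x₀ (3 * r) := ball_subset_ball (by linarith)
  have s1 : ball x₀ r ⊆ ball x₀ (2 * r) := ball_subset_ball (by linarith)
  have sδ : ∀ c : P × Jet E, ball c δ ⊆ ball c (2 * δ) := fun c => ball_subset_ball (by linarith)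
  have hv : r / (‖v‖ + 1) * ‖v‖ ≤ r := by
    rw [div_mul_eq_mul_div, div_le_iff₀ (by positivity)]
    nlinarith
  have hR : ∀ h ∈ Ioc 0 (r / (‖v‖ + 1)), r + h * ‖v‖ ≤ 2 * r := fun h hh => by
    linarith [mul_le_mul_of_nonneg_right hh.2 v0]
  set J : ℝ → E → P × Jet E := fun t x => (a t x, jet (w t) x) with eJ
  set Ψ : ℝ → ℝ → E → P × Jet E →L[ℝ] ℝ := fun h t x => avgD Φ (J t x) (J t (x + h • v) - J t x)
    with eΨ
  have cl := H.cl.mono subset_rfl (s2.trans hU)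
  have n1 := mul_nonneg M0 C0
  have n2 := mul_nonneg C0 v0
  have n3 := mul_nonneg (add_nonneg M0 l0.le) n2
  have n4 := mul_nonneg n2 n1
  refine hD α T l (M + l) (C + (M + l) + M * C + (M + l) * (C * ‖v‖) + C * ‖v‖ * (M * C)) r
    (r / (‖v‖ + 1)) x₀ v w _ (fun h t x => (Ψ h t x).comp (j3 P)) H.α0 H.α1 H.T0.le l0 hr
    (by positivity) hv cl (fun x hx => H.zero x (hU (s2 hx)))
    ((hJ.snd.mono_set subset_rfl s2).mono (by linarith) (by linarith)) (fun h hh => ?_)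
    fun ε ε0 => ?_
  · have m0 := fun t ht x hx => hm t ht x (s2 (s1 hx))
    have m1 := fun t ht x hx => hm t ht _ (s2 (Dq.sh (x := x) hh.1 (hR h hh) hx))
    have h1 : ∀ t ∈ Icc 0 T, ∀ x ∈ ball x₀ r, ‖Ψ h t x - fderiv ℝ Φ (J t x₀)‖ ≤ l :=
      fun t ht x hx => norm_avgD_sub_le (seg_cont (convex_ball _ _) M0 (hM t ht).2.2
        (sδ _ (m0 t ht x hx)) (sδ _ (m1 t ht x hx))) fun s hs => by
        have h2 := (convex_ball _ _).add_smul_sub_mem (m0 t ht x hx) (m1 t ht x hx) hs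
        exact ((hM t ht).2.2 _ (sδ _ h2) _ (mem_ball_self (by linarith))).trans
          ((mul_le_mul_of_nonneg_left (mem_ball_iff_norm.1 h2).le M0).trans hl)
    have h2 : PB α (Icc 0 T) (ball x₀ r) (Ψ h) (M + l) (M * C) := by
      refine ⟨fun q hq => ?_, fun t ht x hx => ?_, fun t ht x hx y hy => ?_⟩
      · refine (avg_cont (convex_ball _ _) isOpen_ball M0 (hM _ hq.1).2.2 (sδ _ (m0 _ hq.1 _ hq.2))
          (sδ _ (m1 _ hq.1 _ hq.2))).comp_continuousWithinAt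
          (f := fun q : ℝ × E => (J q.1 q.2, J q.1 (q.2 + h • v))) ?_
        exact ((hJ.cont.mono (prod_mono_right (s1.trans s2))).prodMk (hJ.cont.comp
          (f := fun q : ℝ × E => (q.1, q.2 + h • v)) (by fun_prop) fun _ hq =>
            ⟨hq.1, s2 (Dq.sh hh.1 (hR h hh) hq.2)⟩)) q hq
      · linarith [norm_le_insert' (Ψ h t x) (fderiv ℝ Φ (J t x₀)), h1 t ht x hx, (hM t ht).2.1]
      · rw [mul_assoc]
        refine avg_lip (convex_ball _ _) M0 (hM t ht).2.2 (sδ _ (m0 t ht x hx))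
          (sδ _ (m1 t ht x hx)) (sδ _ (m0 t ht y hy)) (sδ _ (m1 t ht y hy))
          (hJ.hol t ht x (s2 (s1 hx)) y (s2 (s1 hy))) ?_
        simpa only [add_sub_add_right_eq_sub] using hJ.hol t ht _
          (s2 (Dq.sh hh.1 (hR h hh) hx)) _ (s2 (Dq.sh hh.1 (hR h hh) hy))
    refine ⟨(pb_j3 h2).mono (by linarith) (by linarith), fun t ht x hx =>
      ⟨(pb_j3 h2).sup t ht x hx, fun ξ => ?_⟩, ?_⟩
    · have h3 := ((Ψ h t x - fderiv ℝ Φ (J t x₀)).comp (j3 P)).le_of_opNorm_le_of_le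
        ((norm_comp_j3 _).trans (h1 t ht x hx)) (le_refl ‖ξ.smulRight ξ‖)
      rw [ContinuousLinearMap.norm_smulRight_apply, ContinuousLinearMap.sub_comp,
        sub_apply, Real.norm_eq_abs, abs_le] at h3
      nlinarith [he t ht ξ, h3.1]
    have hJ' := hJ.mono_set subset_rfl s2
    have h3 := (pb_dq hh.1 (hR h hh) hJ'.fst.cont (fun t ht x hx => ((sm_slice H.sa ht).contDiffAt
      (H.oU.mem_nhds (hU (s2 hx)))).differentiableAt (by simp)) (ha.mono_set subset_rfl s2)).prod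
      ((pb_dq hh.1 (hR h hh) hJ'.snd.fst.cont (fun t ht => Dq.d1 (cl.c2 t ht))
        hJ'.snd.snd.fst).prod ((pb_dq hh.1 (hR h hh) hJ'.snd.snd.fst.cont
        (fun t ht => Dq.d2 (cl.c2 t ht)) hJ'.snd.snd.snd).prod
        ((PB.zero (F := Bil E) α _ _).mono n2 n2)))
    refine ((h2.app h3).mono (by linarith) (by linarith)).congr fun t ht x hx => ?_
    have h4 : Ψ h t x (J t (x + h • v) - J t x) = Φ (J t x + (J t (x + h • v) - J t x)) - Φ (J t x) :=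
      avgD_apply (fun s hs => (H.sΦ.contDiffAt (H.oV.mem_nhds ((hM t ht).1 (sδ _
        ((convex_ball _ _).add_smul_sub_mem (m0 t ht x hx) (m1 t ht x hx) hs))))).differentiableAt
          (by simp)) (seg_cont (convex_ball _ _) M0 (hM t ht).2.2 (sδ _ (m0 t ht x hx))
          (sδ _ (m1 t ht x hx)))
    rw [add_sub_cancel] at h4
    show _ = h⁻¹ * (Φ (J t (x + h • v)) - Φ (J t x)) - Ψ h t x (j3 P _)
    rw [← h4, ← smul_eq_mul, ← map_smul, ← map_sub]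
    congr 1
    simp [eJ, j3, j2_apply, jet, dq, D2]
  · have := FiniteDimensional.proper_real E
    have s3 : closedBall x₀ (2 * r) ⊆ ball x₀ (3 * r) := closedBall_subset_ball (by linarith)
    obtain ⟨τ, τ0, hτ⟩ := Metric.uniformContinuousOn_iff_le.1
      ((isCompact_Icc.prod (isCompact_closedBall x₀ (2 * r))).uniformContinuousOn_of_continuous
        (hJ.cont.mono (prod_mono_right s3))) (min δ (ε / (M + 1))) (by positivity)
    refine ⟨τ, τ0, fun h hh t ht s hs hts x hx => ?_⟩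
    have h1 : ∀ y ∈ ball x₀ (2 * r), ‖J t y - J s y‖ ≤ min δ (ε / (M + 1)) := fun y hy => by
      rw [← dist_eq_norm]
      exact hτ (t, y) ⟨ht, ball_subset_closedBall hy⟩ (s, y) ⟨hs, ball_subset_closedBall hy⟩
        (max_le hts (by simpa using τ0.le))
    have h2 : ∀ y ∈ ball x₀ (2 * r), J s y ∈ ball (J t x₀) (2 * δ) := fun y hy => by
      have h3 := (h1 y hy).trans (min_le_left _ _)
      rw [← dist_eq_norm] at h3
      exact mem_ball.2 ((dist_triangle_left _ _ (J t y)).trans_lt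
        (by linarith [mem_ball.1 (hm t ht y (s2 hy))]))
    have y1 := Dq.sh hh.1 (hR h hh) hx
    rw [← ContinuousLinearMap.sub_comp]
    refine (norm_comp_j3 _).trans ((avg_lip (convex_ball _ _) M0 (hM t ht).2.2
      (sδ _ (hm t ht x (s2 (s1 hx)))) (sδ _ (hm t ht _ (s2 y1))) (h2 x (s1 hx)) (h2 _ y1)
      ((h1 x (s1 hx)).trans (min_le_right _ _)) ((h1 _ y1).trans (min_le_right _ _))).trans ?_)
    rw [← mul_div_assoc, div_le_iff₀ (by positivity)]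
    nlinarith

end R3

open R3

/-- **REG3** -/
theorem reg3_of [FiniteDimensional ℝ E] (_ : TWB E) (hD : DQ E) : REG3 E := by
  intro P _ _ α T U V a Φ w H
  have b := base_th (T := T) H.α0 H.α1.le H.oU
  have h2 := H.cl.tw H.α1.le H.oU H.hol
  have ha := (b.tw H.oU 1).smooth _ _ H.sa
  have hJ : TH α (Icc 0 T) U _ fun t x => (a t x, jet (w t) x) :=
    b.prodMk ha.1 (Tw.jet (k := 0) b H.oU h2)
  refine Tw.loc fun x₀ hx => ?_
  obtain ⟨ρ, ρ0, hρ, C, C0, p, p'⟩ := hJ.two ha.2.2 hx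
  have c : ContinuousOn (fun t => (a t x₀, jet (w t) x₀)) (Icc 0 T) :=
    p.cont.comp (Continuous.prodMk_left x₀).continuousOn fun _ ht => ⟨ht, mem_ball_self ρ0⟩
  have m := fun t ht => H.mem t ht x₀ hx
  obtain ⟨δ, δ0, M, M0, hM⟩ := tube H.oV H.sΦ c m
  obtain ⟨l, l0, hl⟩ := ell_const (B := fun t => (fderiv ℝ Φ (a t x₀, jet (w t) x₀)).comp (j3 P))
    (((H.sΦ.continuousOn_fderiv_of_isOpen H.oV (by simp)).comp c m).clm_comp continuousOn_const)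
    fun t ht => H.ell t ht x₀ hx
  obtain ⟨η, η0, η1, η2⟩ : ∃ η > 0, 2 * η ≤ δ ∧ M * η ≤ l / 2 := by
    refine ⟨min (δ / 2) (l / 2 / (M + 1)), by positivity, (le_div_iff₀' two_pos).1 (min_le_left _ _),
      (mul_le_mul_of_nonneg_left (min_le_right _ _) M0).trans ?_⟩
    rw [← mul_div_assoc, div_le_iff₀ (by positivity)]
    nlinarith
  have c' : Continuous fun y => C * ‖y - x₀‖ ^ α := continuous_const.mul
    ((continuous_id.sub continuous_const).norm.rpow_const fun _ => .inr H.α0.le)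
  obtain ⟨R, R0, e⟩ := Metric.mem_nhds_iff.1 (inter_mem (ball_mem_nhds x₀ ρ0)
    ((c'.tendsto x₀).eventually_lt_const (u := η) (by simpa [Real.zero_rpow H.α0.ne'] using η0)))
  have e1 : ball x₀ (3 * (R / 3)) ⊆ ball x₀ R := ball_subset_ball (by linarith)
  have e2 : ball x₀ (3 * (R / 3)) ⊆ ball x₀ ρ := fun y hy => (e (e1 hy)).1
  have e3 : ball x₀ (R / 3 / 4) ⊆ U := (ball_subset_ball (by linarith)).trans (e2.trans hρ)
  have e4 : ∀ c : P × Jet E, ball c (2 * η) ⊆ ball c δ := fun _ => ball_subset_ball η1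
  have h3 := h2.mono isOpen_ball e3
  refine ⟨R / 3 / 4, by positivity, e3, h3.1, h3.2.1,
    ((base_th H.α0 H.α1.le isOpen_ball).tw isOpen_ball 2).of_apply fun v => ?_⟩
  exact step hD H (by positivity) (e2.trans hρ) C0 (p.mono_set subset_rfl e2)
    (p'.mono_set subset_rfl e2) η0 M0 (half_pos l0) η2
    (fun t ht x hx => mem_ball_iff_norm.2
      ((p.hol t ht x (e2 hx) x₀ (mem_ball_self ρ0)).trans_lt (e (e1 hx)).2))
    (fun t ht => ⟨(e4 _).trans (hM t ht).1, (hM t ht).2.1,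
      fun q hq q' hq' => (hM t ht).2.2 q (e4 _ hq) q' (e4 _ hq')⟩)
    (fun t ht ξ => by rw [mul_div_cancel₀ _ two_ne_zero]; exact hl t ht ξ) v

end Vale.Agent.P253W.FP
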