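import Vale.Agent.P253W.FP.Step1

/-!
# P253W, block FP: a solution with bounds extends by a definite time
-/

set_option maxSynthPendingDepth 3
set_option linter.unusedSectionVars false

open scoped Manifold ContDiff Bundle Topology ComplexOrder Matrix
open Bundle Set Metric Filter Vale.Agent.P253.Mfd Vale.Agent.P253Z
open Vale.Agent.P272.K (Cm dz cHess jacM Chart)
open Vale.Agent.P272.K.R (Hol Bil D2)
open Vale.Agent.P272.K.LIN (Jet jet)
open Vale.Agent.P272.K.N (lev lev_add lev_smul)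

noncomputable section

namespace Vale.Agent.P253W.FP

theorem Adm.mono_ball {E : Type} [NormedAddCommGroup E] [NormedSpace ℝ E] {α KF δ δ' T ε : ℝ}
    {B : Bil E →L[ℝ] ℝ} {F : ℝ → E → Jet E → ℝ} {A : ℝ → E → Jet E → Jet E →L[ℝ] ℝ}
    (h : Adm α KF δ T ε B F A) (hδ : δ' ≤ δ) : Adm α KF δ' T ε B F A :=
  have s : ball (0 : Jet E) δ' ⊆ ball 0 δ := ball_subset_ball hδ
  ⟨fun t ht y hy z hz => h.der t ht y hy z (s hz),
    h.cont.mono (prod_mono subset_rfl (prod_mono subset_rfl s)),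
    fun t ht y hy z hz => h.bdA t ht y hy z (s hz),
    fun t ht y hy z hz y' hy' z' hz' => h.holA t ht y hy z (s hz) y' hy' z' (s hz'),
    h.bdF, h.holF, fun t ht y hy z hz => h.near t ht y hy z (s hz)⟩

theorem D2_add_mul {E : Type} [NormedAddCommGroup E] [NormedSpace ℝ E] {f g : E → ℝ} {y : E}
    (c : ℝ) (h1 : ContDiffAt ℝ 2 f y) (h2 : ContDiffAt ℝ 2 g y) :
    D2 (fun z => f z + c * g z) y = D2 f y + c • D2 g y := by
  have h3 := jet_add h1 (contDiffAt_const.mul h2 : ContDiffAt ℝ 2 (fun z => c * g z) y)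
  rw [jet_const_mul _ h2] at h3
  exact congrArg (fun q : Jet E => q.2.2) h3

theorem psd_mono {n : ℕ} {G H : Mx n} {c c' C C' : ℝ} (hH : H.PosSemidef) (hc : c' ≤ c)
    (hC : C ≤ C') (h : (G - (c : ℂ) • H).PosSemidef ∧ ((C : ℂ) • H - G).PosSemidef) :
    (G - (c' : ℂ) • H).PosSemidef ∧ ((C' : ℂ) • H - G).PosSemidef := by
  have a := h.1.add (psd_real hH (sub_nonneg.2 hc))
  have b := h.2.add (psd_real hH (sub_nonneg.2 hC))
  rw [Complex.ofReal_sub, sub_smul] at a b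
  exact ⟨by convert a using 1; abel, by convert b using 1; abel⟩

namespace St

variable {n : ℕ} {M : Type} [MetricSpace M] [ChartedSpace (Cm n) M]
  [RiemannianBundle (fun x : M => TangentSpace 𝓘(ℝ, Cm n) x)]

/-- the right hand side of the restarted flow -/
def FF (σ : M → ℝ) (φ : ℝ → M → ℝ) (T r : ℝ) (e : Chart n M) (t : ℝ) (y : Cm n)
    (z : Jet (Cm n)) : ℝ := ΦM (aa σ φ T r e t y, z.2.2) + 0 * z.1 + ff σ r e y

variable {σ : M → ℝ} {φ : ℝ → M → ℝ} {T r Λ K η δ : ℝ} {e : Chart n M}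

/-- the restarted flow in a chart -/
theorem Dt.res (h : Dt σ φ T r e Λ K η) (hr : 0 < r) (hΛ : 0 < Λ)
    (hn : ∀ a₀ ∈ QM n Λ, ∀ a : Pm n, (Matrix.of a).IsHermitian → ‖a - a₀‖ ≤ η + δ →
      a ∈ QM n (2 * Λ)) {y : Cm n} (hy : y ∈ ball (0 : Cm n) 4) {u : M → ℝ} {ψ : ℝ → M → ℝ}
    {t t' : ℝ} (ht : t' ∈ Icc (0 : ℝ) 1) (et : (t - T) / r ^ 2 = t')
    (h1 : ContDiffAt ℝ 2 (fun z => φ T (e.symm z)) y) (h2 : ContDiffAt ℝ 2 (fun z => u (e.symm z)) y)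
    (hδ : ‖jet (fun z => u (e.symm z)) y‖ ≤ δ) (hψ : ψ t = fun x => φ T x + r ^ 2 * u x) :
    (gh σ ψ t e y).PosDef ∧ FF σ φ T r e t' y (jet (fun z => u (e.symm z)) y) =
      Real.log (gh σ ψ t e y).det.re - Real.log (hh σ e y).det.re ∧
    (gh σ ψ t e y - ((((2 * Λ) ^ 2)⁻¹ : ℝ) : ℂ) • hh σ e y).PosSemidef ∧
      ((((2 * Λ) ^ 2 : ℝ) : ℂ) • hh σ e y - gh σ ψ t e y).PosSemidef := by
  have k := key (σ := σ) hr h1 h2 hψ
  rw [et] at k
  have m : (fun i j => (Matrix.of (aa σ φ T r e t' y) +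
      lev (D2 (fun z => u (e.symm z)) y)) i j) ∈ QM n (2 * Λ) := by
    refine hn _ h.g0 _ ((h.herm t' y hy).add (lev_herm h2)) ?_
    have a1 := h.near t' ht y hy
    have a2 : ‖(fun i j => lev (D2 (fun z => u (e.symm z)) y) i j : Pm n)‖ ≤ δ :=
      pm_le ((norm_nonneg _).trans hδ) fun i j => (MaqA.levn _ i j).trans
        (((norm_snd_le _).trans (norm_snd_le (jet (fun z => u (e.symm z)) y))).trans hδ)
    refine le_trans (le_of_eq ?_) ((norm_add_le _ _).trans (add_le_add a1 a2))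
    congr 1
    ext i j
    simp only [Matrix.add_apply, Matrix.of_apply, Pi.add_apply, Pi.sub_apply]
    ring
  have un : ∀ A : Mx n, ((r ^ 2 : ℝ) : ℂ) • (((r ^ 2)⁻¹ : ℝ) : ℂ) • A = A := fun A => by
    rw [smul_smul, ← Complex.ofReal_mul, mul_inv_cancel₀ (by positivity), Complex.ofReal_one,
      one_smul]
  rw [k] at m
  have p1 : (gh σ ψ t e y).PosDef := by
    rw [← un (gh σ ψ t e y)]
    exact pd_real (MaqA.pos _ (by linarith) _ m) (by positivity)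
  have p2 : (hh σ e y).PosDef := by
    rw [← un (hh σ e y)]
    exact pd_real (MaqA.pos _ (by linarith) _ (h.hq y hy)) (by positivity)
  obtain ⟨c1, c2⟩ := cmp_QM (by linarith) m (h.hq y hy)
  have c3 := psd_real c1 (c := r ^ 2) (by positivity)
  have c4 := psd_real c2 (c := r ^ 2) (by positivity)
  rw [smul_sub, smul_comm _ (_ : ℂ) (_ • hh σ e y), un, un] at c3 c4
  refine ⟨p1, ?_, c3, c4⟩
  have e1 : FF σ φ T r e t' y (jet (fun z => u (e.symm z)) y) =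
      Real.log (Matrix.of (aa σ φ T r e t' y) + lev (D2 (fun z => u (e.symm z)) y)).det.re +
        0 * u (e.symm y) + ff σ r e y := rfl
  rw [e1, k, ff, log_det_smul (det_re_pos p1) (by positivity),
    log_det_smul (det_re_pos p2) (by positivity)]
  ring

end St

open St

variable {n : ℕ} {M : Type} [MetricSpace M] [ChartedSpace (Cm n) M]
  [RiemannianBundle (fun x : M => TangentSpace 𝓘(ℝ, Cm n) x)]

/-- **the extension by a definite time** -/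
theorem step_of (ha : B1a n M) (hu : MU n M) (hA : AT n M) (h0 : W0 n M) (h1 : W1 n M)
    (hE : EX (Cm n)) (hD : ADM (Cm n)) (hG : GLUE (Cm n)) : STEP n M := by
  intro σ c₀ C₀ hσ hK hc
  obtain ⟨m, c, Q, K, r₀, N₀, hr₀, hQ, hA⟩ := hA σ hσ hK
  choose C0 hC0 hC0' using fun a => h0 σ (c a) (Q a) hσ (hQ a).1 (hQ a).2.1 (hQ a).2.2
  choose C1 hC1 using fun a => h1 σ (c a) (Q a) c₀ C₀ hσ (hQ a).1 (hQ a).2.1 (hQ a).2.2 hc
  obtain ⟨C', hC'⟩ := Finite.exists_le fun a => max (C0 a) (C1 a)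
  obtain ⟨C, hC, hC2⟩ : ∃ C : ℝ, 1 ≤ C ∧ C' ≤ C := ⟨max 1 C', le_max_left _ _, le_max_right _ _⟩
  obtain ⟨Λ, l0, l1, l2⟩ : ∃ Λ : ℝ, 16 * C ≤ Λ ∧ Λ⁻¹ ≤ c₀ * (16 * C)⁻¹ ∧ |C₀| * (16 * C) ≤ Λ := by
    have a1 : 0 ≤ c₀⁻¹ * (16 * C) := by positivity
    have a2 : 0 ≤ |C₀| * (16 * C) := by positivity
    refine ⟨16 * C + c₀⁻¹ * (16 * C) + |C₀| * (16 * C), by linarith, ?_, by linarith⟩
    rw [← inv_inv c₀, ← mul_inv, inv_inv]
    exact inv_anti₀ (by positivity) (by linarith)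
  have hΛ : 0 < Λ := by linarith
  obtain ⟨CL, hL0, hL⟩ := exists_ld (n := n) (16 * C) (by linarith)
  obtain ⟨η₁, hη₁, hn⟩ := MaqA.near (n := n) Λ hΛ
  obtain ⟨l, L, hl, hD⟩ := hD (Pm n) _ ΦM (QM n Λ) MaqA.oM MaqA.sM (MaqA.cpt Λ) fun a₀ ha₀ => by
    have p : (Matrix.of a₀ + lev 0).PosDef := by
      rw [lev_zero, add_zero]; exact MaqA.pos Λ hΛ a₀ ha₀
    exact ⟨det_re_pos p, MaqA.eM (a₀, 0) p⟩
  obtain ⟨ε, hε, hE⟩ := hE (1 / 2) K l L N₀ (by norm_num) (by norm_num) hl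
  obtain ⟨δ, η, hδ, hη, hD⟩ := hD ε hε
  obtain ⟨KF, hD⟩ := hD (1 / 2) (Λ + CL + 1024 * C)
  obtain ⟨r, r0, r1, r2, r3, r4⟩ : ∃ r : ℝ, 0 < r ∧ r ≤ r₀ ∧ r ≤ 1 ∧ 272 * C * r ≤ η ∧
      272 * C * r ≤ η₁ / 2 := by
    refine ⟨min (min r₀ 1) (min η (η₁ / 2) / (272 * C)), by positivity,
      (min_le_left _ _).trans (min_le_left _ _), (min_le_left _ _).trans (min_le_right _ _),
      le_min_iff.1 ?_⟩
    rw [mul_comm, ← le_div_iff₀ (by positivity)]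
    exact min_le_right _ _
  obtain ⟨δ', δ0, δ1, δ2⟩ : ∃ δ' : ℝ, 0 < δ' ∧ δ' ≤ δ ∧ δ' ≤ η₁ / 2 :=
    ⟨min δ (η₁ / 2), by positivity, min_le_left _ _, min_le_right _ _⟩
  replace hn : ∀ a₀ ∈ QM n Λ, ∀ a : Pm n, (Matrix.of a).IsHermitian →
      ‖a - a₀‖ ≤ 272 * C * r + δ' → a ∈ QM n (2 * Λ) := fun a₀ ha₀ a h1 h2 =>
    hn a₀ ha₀ a h1 (by linarith)
  obtain ⟨τ, C₂, τ0, τ1, hE⟩ := hE KF δ' 1 δ0 one_pos
  obtain ⟨𝒜, a, p, s, hi, hcov⟩ := hA r ⟨r0, r1⟩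
  refine ⟨r ^ 2 * τ, by positivity, fun T φ hT hs hb => ?_⟩
  have hTT : T ∈ Icc 0 T := ⟨hT, le_rfl⟩
  have hDt : ∀ i, Dt σ φ T r (𝒜.e i) Λ (Λ + CL + 1024 * C) (272 * C * r) := fun i => by
    obtain ⟨i1, i2, i3, i4, i5, i6⟩ := hi i
    have b0 : C0 (a i) ≤ C := (le_max_left _ _).trans ((hC' _).trans hC2)
    have b1 : C1 (a i) ≤ C := (le_max_right _ _).trans ((hC' _).trans hC2)
    refine dt_of ha hu hσ hT hs hc hb ⟨i1, (hQ _).1, (hQ _).2.2, 𝒜.tgt i, r0, i2, i3, i4, i5, i6⟩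
      r2 hC (fun z hz hp => ?_) l0 l1 l2 hL0 hL
    obtain ⟨w1, w2⟩ := hC0' _ z hz hp
    refine ⟨MaqA.QM_mono (by linarith [hC0 (a i)]) b0 w1, ?_, fun k l =>
      ⟨(w2 k l).1.trans b0, (w2 k l).2.1.trans b0, (hC1 _ T φ hT hs hb T hTT z hz hp k l).trans b1⟩⟩
    rcases Nat.eq_zero_or_pos n with rfl | hn0
    · simp only [Matrix.det_isEmpty, fderiv_fun_const, Pi.zero_apply, norm_zero, mul_zero]
      linarith
    · exact (w2 ⟨0, hn0⟩ ⟨0, hn0⟩).2.2.trans b0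
  have c2 := fun i t (ht : t ∈ Icc 0 T) y (hy : y ∈ ball (0 : Cm n) 4) =>
    sol_c2 ha hu hσ hs ht (hDt i).he (𝒜.tgt i hy) ((hDt i).pos y hy)
  choose B A hB hF using fun i => hD 1 _ (hDt i).g0 (aa σ φ T r (𝒜.e i)) (fun _ _ => 0)
    (fun _ => ff σ r (𝒜.e i)) (hDt i).pa ((PB.zero _ _ _).mono (by positivity) (by positivity))
    (hDt i).pf fun t ht y hy => ((hDt i).near t ht y hy).trans r3
  obtain ⟨u, u0, hu'⟩ := hE M 𝒜 B (fun i => FF σ φ T r (𝒜.e i)) A hB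
    (fun i => (hF i).mono_ball δ1) fun i j t ht y hy y' hy' hx u h2 h2' d d' => by
      have et : (T + r ^ 2 * t - T) / r ^ 2 = t := by field_simp; ring
      have q := (hDt i).res r0 hΛ hn hy ht et (c2 i T hTT y hy) h2 d.le
        (ψ := fun _ x => φ T x + r ^ 2 * u x) rfl
      have q' := (hDt j).res r0 hΛ hn hy' ht et (c2 j T hTT y' hy') h2' d'.le
        (ψ := fun _ x => φ T x + r ^ 2 * u x) rfl
      have s1 := (𝒜.e i).map_target (𝒜.tgt i hy)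
      have s2 : (𝒜.e i).symm y ∈ (𝒜.e j).source := hx ▸ (𝒜.e j).map_target (𝒜.tgt j hy')
      have e2 : 𝒜.e j ((𝒜.e i).symm y) = y' := by rw [hx, (𝒜.e j).right_inv (𝒜.tgt j hy')]
      have g1 := gh_ch (φ := fun _ x => φ T x + r ^ 2 * u x) (t := T + r ^ 2 * t) hu hσ (hDt i).he
        (hDt j).he s1 s2 ((hDt i).pos y hy)
        (by rw [e2]; exact (c2 j T hTT y' hy').add (contDiffAt_const.mul h2'))
      have g2 := hu.hh_ch σ _ _ (hDt i).he (hDt j).he _ s1 s2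
      rw [e2, (𝒜.e i).right_inv (𝒜.tgt i hy)] at g1 g2
      refine q.2.1.trans (Eq.trans ?_ q'.2.1.symm)
      rw [g1, g2]
      exact hu.ld_ch _ _ _ (ha.jac_ne _ _ (hDt i).he (hDt j).he _ s1 s2) (det_re_pos q'.1).ne'
        (det_re_pos (hu.hh_pos σ _ (hDt j).he _ (𝒜.tgt j hy') ((hDt j).pos y' hy'))).ne'
  set ψ : ℝ → M → ℝ := fun t x => if t ≤ T then φ t x else φ T x + r ^ 2 * u ((t - T) / r ^ 2) x
    with hψ
  have ψ1 : ∀ t, t ≤ T → ψ t = φ t := fun t ht => funext fun x => if_pos ht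
  have ψ2 : ∀ t, ¬t ≤ T → ψ t = fun x => φ T x + r ^ 2 * u ((t - T) / r ^ 2) x := fun t ht =>
    funext fun x => if_neg ht
  have g1 : ∀ t, t ≤ T → gh (n := n) σ ψ t = gh σ φ t := fun t ht => by
    funext e z; rw [gh, gh, ψ1 t ht]
  have tm : ∀ t ∈ Icc 0 (T + r ^ 2 * τ), ¬t ≤ T → (t - T) / r ^ 2 ∈ Icc 0 τ := fun t ht h =>
    ⟨div_nonneg (by linarith [not_le.1 h]) (by positivity), by
      rw [div_le_iff₀ (by positivity)]; linarith [ht.2]⟩
  have uc := fun i t (ht : t ∈ Icc 0 τ) y (hy : y ∈ ball (0 : Cm n) 4) =>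
    ((hu' i).1.c2 t ht).contDiffAt (isOpen_ball.mem_nhds hy)
  have rs := fun i t (ht : t ∈ Icc 0 (T + r ^ 2 * τ)) (h : ¬t ≤ T) y
      (hy : y ∈ ball (0 : Cm n) 4) =>
    (hDt i).res r0 hΛ hn hy ⟨(tm t ht h).1, (tm t ht h).2.trans τ1⟩ rfl (c2 i T hTT y hy)
      (uc i _ (tm t ht h) y hy) (((hu' i).2.sup _ (tm t ht h) y hy).trans (half_le_self δ0.le))
      (ψ2 t h)
  refine ⟨ψ, min c₀ ((2 * Λ) ^ 2)⁻¹, max C₀ ((2 * Λ) ^ 2), by positivity,
    ⟨fun x hx => by rw [ψ1 0 hT]; exact hs.zero x hx, fun x hx => ?_⟩, fun t ht e he z hz hp => ?_⟩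
  · obtain ⟨i, y, hy, rfl⟩ := hcov x hx
    obtain ⟨cl, hl⟩ := hu.cl σ hσ T φ hs _ (hDt i).he
    obtain ⟨ρ, hρ, Cφ, hl⟩ := hl y (𝒜.tgt i hy) hx
    have oU : IsOpen (ball y ρ ∩ ball (0 : Cm n) 4) := isOpen_ball.inter isOpen_ball
    refine ⟨𝒜.e i, ball y ρ ∩ ball 0 4, Cφ + |r ^ 2| * |C₂|, (hDt i).he,
      (𝒜.e i).map_target (𝒜.tgt i hy), oU, ?_, fun z hz => 𝒜.tgt i hz.2,
      fun z hz => (hDt i).pos z hz.2, ?_, fun t ht => ?_⟩
    · rw [(𝒜.e i).right_inv (𝒜.tgt i hy)]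
      exact ⟨mem_ball_self hρ, hy⟩
    · refine (hG T τ (r ^ 2) _ _ _ _ _ hT τ0.le (by positivity) oU
        (cl.mono subset_rfl fun z hz => ⟨𝒜.tgt i hz.2, (hDt i).pos z hz.2⟩)
        ((hu' i).1.mono subset_rfl inter_subset_right) (fun z _ => u0 _) (r ^ 2)
        fun z hz => ?_).congr oU (fun t _ z _ => rfl) fun t ht z hz => ?_
      · have h0 : (0 : ℝ) ∈ Icc 0 τ := ⟨le_rfl, τ0.le⟩
        rw [div_self (by positivity), one_mul]
        exact ((hDt i).res r0 hΛ hn hz.2 ⟨le_rfl, zero_le_one⟩ (by rw [sub_self, zero_div])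
          (c2 i T hTT z hz.2) (uc i 0 h0 z hz.2)
          (((hu' i).2.sup 0 h0 z hz.2).trans (half_le_self δ0.le)) (ψ := φ) (t := T)
          (funext fun x => by rw [u0, mul_zero, add_zero])).2.1.symm
      · by_cases h : t ≤ T
        · rw [if_pos h, g1 t h]
        · rw [if_neg h, div_self (by positivity), one_mul]
          exact (rs i t ht h z hz.2).2.1
    · by_cases h : t ≤ T
      · rw [g1 t h, ψ1 t h]
        exact ⟨((hl t ⟨ht.1, h⟩).mono inter_subset_left).mono_const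
          (le_add_of_nonneg_right (by positivity)),
          fun z hz => hs.pos t ⟨ht.1, h⟩ _ (hDt i).he z (𝒜.tgt i hz.2) ((hDt i).pos z hz.2)⟩
      · refine ⟨?_, fun z hz => (rs i t ht h z hz.2).1⟩
        rw [ψ2 t h]
        have k1 := (((hu' i).2.snd.snd.const_smul (r ^ 2)).hol _ (tm t ht h)).mono
          (inter_subset_right (s := ball y ρ))
        refine ((((hl T hTT).mono inter_subset_left).add k1).mono_const (add_le_add le_rfl
          (mul_le_mul_of_nonneg_left (le_abs_self _) (abs_nonneg _)))).congr fun z hz => ?_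
        exact (D2_add_mul _ (c2 i T hTT z hz.2) (uc i _ (tm t ht h) z hz.2)).symm
  · have p := (hu.hh_pos σ e he z hz hp).posSemidef
    by_cases h : t ≤ T
    · rw [g1 t h]
      exact psd_mono p (min_le_left _ _) (le_max_left _ _) (hb t ⟨ht.1, h⟩ e he z hz hp)
    · refine psd_mono p (min_le_right _ _) (le_max_right _ _) ?_
      obtain ⟨i, y, hy, hx⟩ := hcov _ hp
      have s1 := e.map_target hz
      have s2 : e.symm z ∈ (𝒜.e i).source := hx ▸ (𝒜.e i).map_target (𝒜.tgt i hy)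
      have e2 : 𝒜.e i (e.symm z) = y := by rw [hx, (𝒜.e i).right_inv (𝒜.tgt i hy)]
      have k1 := gh_ch (φ := ψ) (t := t) hu hσ he (hDt i).he s1 s2 hp (by
        rw [e2, ψ2 t h]
        exact (c2 i T hTT y hy).add (contDiffAt_const.mul (uc i _ (tm t ht h) y hy)))
      have k2 := hu.hh_ch σ _ _ he (hDt i).he _ s1 s2
      rw [e2, e.right_inv hz] at k1 k2
      rw [k1, k2, ← pb_smul, ← pb_smul, ← pb_sub, ← pb_sub]
      exact ⟨hu.psd_ch _ _ (rs i t ht h y hy).2.2.1, hu.psd_ch _ _ (rs i t ht h y hy).2.2.2⟩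

end Vale.Agent.P253W.FP
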