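import Vale.Agent.P253W.FP.Twb
import Mathlib.Analysis.Calculus.TangentCone.Prod

/-!
# P253W, block FP, row SWAP: space derivatives of an evolution equation, joint regularity
-/

set_option maxSynthPendingDepth 3

open Set Metric Filter Topology
open scoped ContDiff
open Vale.Agent.P272.K.LIN (Jet jet)

noncomputable section

namespace Vale.Agent.P253W.FP

variable {E F : Type} [NormedAddCommGroup E] [NormedSpace ℝ E] [NormedAddCommGroup F]
  [NormedSpace ℝ F] {T t : ℝ} {I : Set ℝ} {U : Set E} {f ft : ℝ → E → F} {x : E}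

/-- the linearisation in space is uniform for nearby times -/
theorem near_lin (hU : IsOpen U) (d : ∀ t ∈ I, ∀ x ∈ U, DifferentiableAt ℝ (f t) x)
    (c : ContinuousOn (fun q : ℝ × E => fderiv ℝ (f q.1) q.2) (I ×ˢ U)) (ht : t ∈ I) (hx : x ∈ U)
    {ε : ℝ} (hε : 0 < ε) : ∃ δ > 0, ball x δ ⊆ U ∧ ∀ s ∈ I ∩ ball t δ, ∀ y ∈ ball x δ,
      ‖f s y - f s x - fderiv ℝ (f t) x (y - x)‖ ≤ ε * ‖y - x‖ := by
  obtain ⟨δ, hδ, h⟩ := Metric.continuousWithinAt_iff.1 (c (t, x) ⟨ht, hx⟩) ε hε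
  obtain ⟨r, hr, e⟩ := Metric.isOpen_iff.1 hU x hx
  have e' := (ball_subset_ball (min_le_right δ r)).trans e
  refine ⟨min δ r, lt_min hδ hr, e', fun s hs y hy => ?_⟩
  refine (convex_ball x _).norm_image_sub_le_of_norm_fderiv_le' (fun z hz => d s hs.1 z (e' hz))
    (fun z hz => ?_) (mem_ball_self (lt_min hδ hr)) hy
  rw [← dist_eq_norm]
  exact (h (x := (s, z)) ⟨hs.1, e' hz⟩
    (max_lt (lt_of_lt_of_le hs.2 (min_le_left _ _)) (lt_of_lt_of_le hz (min_le_left _ _)))).le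

theorem swap' (hI : Convex ℝ I) (hU : IsOpen U)
    (h : ∀ t ∈ I, ∀ x ∈ U, HasDerivWithinAt (fun s => f s x) (ft t x) I t)
    (d : ∀ t ∈ I, ∀ x ∈ U, DifferentiableAt ℝ (f t) x) (p : Tw I U (JC 0 I U) 1 F ft)
    (ht : t ∈ I) (hx : x ∈ U) :
    HasDerivWithinAt (fun s => fderiv ℝ (f s) x) (fderiv ℝ (ft t) x) I t := by
  refine hasDerivWithinAt_iff_isLittleO.2 (Asymptotics.isLittleO_iff.2 fun ε hε => ?_)
  obtain ⟨δ, hδ, e, b⟩ := near_lin hU p.2.1 (ContDiffOn.continuousOn p.2.2) ht hx hε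
  filter_upwards [inter_mem_nhdsWithin I (ball_mem_nhds t hδ)] with s hs
  refine (((d s hs.1 x hx).hasFDerivAt.sub (d t ht x hx).hasFDerivAt).sub
    ((fderiv ℝ (ft t) x).hasFDerivAt.const_smul (s - t))).le_of_lip' (by positivity) ?_
  filter_upwards [ball_mem_nhds x hδ] with y hy
  have := (hI.inter (convex_ball t δ)).norm_image_sub_le_of_norm_hasDerivWithin_le
    (fun σ hσ => (((h σ hσ.1 y (e hy)).sub (h σ hσ.1 x hx)).sub
      (((hasDerivWithinAt_id σ I).smul_const (fderiv ℝ (ft t) x (y - x))))).mono inter_subset_left)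
    (fun σ hσ => by rw [one_smul]; exact b σ hσ y hy) ⟨ht, mem_ball_self hδ⟩ hs
  rw [mul_right_comm] at this
  convert this using 2
  simp only [Pi.sub_apply, Pi.smul_apply, id, map_sub, smul_sub, sub_smul]
  abel

variable (E) in
theorem swap : SWAP E := fun _ _ _ _ _ _ _ _ hU h d p _ ht _ hx =>
  swap' (convex_Icc _ _) hU h d p ht hx

/-- continuous derivatives in space and a derivative in time give the total derivative -/
theorem joint (hU : IsOpen U) (d : ∀ t ∈ I, ∀ x ∈ U, DifferentiableAt ℝ (f t) x)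
    (c : ContinuousOn (fun q : ℝ × E => fderiv ℝ (f q.1) q.2) (I ×ˢ U)) (ht : t ∈ I) (hx : x ∈ U)
    {v : F} (h : HasDerivWithinAt (fun s => f s x) v I t) :
    HasFDerivWithinAt (fun q : ℝ × E => f q.1 q.2) ((ContinuousLinearMap.fst ℝ ℝ E).smulRight v +
      (fderiv ℝ (f t) x).comp (.snd ℝ ℝ E)) (I ×ˢ U) (t, x) := by
  have h1 := HasFDerivWithinAt.comp (f := (Prod.fst : ℝ × E → ℝ)) (s := I ×ˢ U) (t, x)
    h.hasFDerivWithinAt hasFDerivWithinAt_fst fun _ hq => hq.1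
  have h2 : HasFDerivWithinAt (fun q : ℝ × E => f q.1 q.2 - f q.1 x)
      ((fderiv ℝ (f t) x).comp (.snd ℝ ℝ E)) (I ×ˢ U) (t, x) := by
    refine hasFDerivWithinAt_iff_isLittleO.2 (Asymptotics.isLittleO_iff.2 fun ε hε => ?_)
    obtain ⟨δ, hδ, -, b⟩ := near_lin hU d c ht hx hε
    filter_upwards [inter_mem_nhdsWithin _ (prod_mem_nhds (ball_mem_nhds t hδ) (ball_mem_nhds x hδ))]
      with q hq
    rw [sub_self, sub_zero]
    exact (b q.1 ⟨hq.1.1, hq.2.1⟩ q.2 hq.2.2).trans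
      (mul_le_mul_of_nonneg_left (norm_snd_le (q - (t, x))) hε.le)
  refine ((h1.add h2).congr (fun q _ => by simp) (by simp)).congr_fderiv ?_
  ext <;> simp

theorem jc_succ {m : ℕ} (hI : UniqueDiffOn ℝ I) (hU : IsOpen U)
    (h : ∀ t ∈ I, ∀ x ∈ U, HasDerivWithinAt (fun s => f s x) (ft t x) I t)
    (p : Tw I U (JC m I U) 1 F f) (p' : JC m I U F ft) : JC (m + 1) I U F f := by
  have d := fun (q : ℝ × E) (hq : q ∈ I ×ˢ U) =>
    joint hU p.2.1 (ContDiffOn.continuousOn p.2.2) hq.1 hq.2 (h q.1 hq.1 q.2 hq.2)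
  have b := base_jc m I U
  have e := b.add _ _ _ (b.clm (ContinuousLinearMap.smulRightL ℝ (ℝ × E) F (.fst ℝ ℝ E)) p')
    (b.clm ((ContinuousLinearMap.compL ℝ (ℝ × E) E F).flip (.snd ℝ ℝ E)) p.2.2)
  unfold JC
  push_cast
  exact contDiffOn_succ_of_fderivWithin (fun q hq => (d q hq).differentiableWithinAt) (by simp)
    (ContDiffOn.congr e fun q hq => (d q hq).fderivWithin (hI.prod hU.uniqueDiffOn q hq))

theorem tw_succ {m : ℕ} (hc : Convex ℝ I) (hI : UniqueDiffOn ℝ I) (hU : IsOpen U) :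
    ∀ {k : ℕ} {F : Type} [NormedAddCommGroup F] [NormedSpace ℝ F] {f ft : ℝ → E → F},
    (∀ t ∈ I, ∀ x ∈ U, HasDerivWithinAt (fun s => f s x) (ft t x) I t) →
    Tw I U (JC m I U) (k + 1) F f → Tw I U (JC m I U) k F ft → Tw I U (JC (m + 1) I U) k F f
  | 0, _, _, _, _, _, h, p, p' => jc_succ hI hU h p p'
  | k + 1, _, _, _, _, _, h, p, p' =>
    ⟨jc_succ hI hU h (p.of_le (by omega)) p'.1, p.2.1, tw_succ hc hI hU (fun _ ht _ hx =>
      swap' hc hU h p.2.1 ((p'.of_le (by omega)).imp fun _ _ _ _ e =>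
        ContDiffOn.of_le e (by exact_mod_cast m.zero_le)) ht hx) p.2.2 p'.2.2⟩

theorem reg_of (_ : TWB E) (hS : REGS E) : REG E := fun P _ _ α T U V a Φ w h => by
  have e : ∀ m k, Tw (Icc 0 T) U (JC m (Icc 0 T) U) k ℝ w := fun m => by
    induction m with
    | zero => exact fun k => (hS P α T U V a Φ w h k).imp fun _ _ _ _ => TH.jc
    | succ m ih =>
      intro k
      have b := base_jc m (Icc 0 T) U
      exact tw_succ (convex_Icc _ _) (uniqueDiffOn_Icc h.T0) h.oU h.cl.dt (ih _)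
        ((b.tw h.oU k).comp _ _ V Φ _ h.oV h.sΦ
          (Tw.prodMk b h.oU ((b.tw h.oU k).smooth _ _ h.sa) ((ih _).jet b h.oU)) h.mem)
  exact contDiffOn_infty.2 fun m => e m 0

end Vale.Agent.P253W.FP
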