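import Vale.Agent.P253W.FP.Defs
import Mathlib.Topology.Algebra.MetricSpace.Lipschitz
import Mathlib.Analysis.Calculus.ContDiff.RCLike
import Mathlib.Analysis.Normed.Affine.Convex

/-!
# P253W, block FP, row TR: change of charts in a uniform atlas
-/

set_option maxSynthPendingDepth 3
set_option linter.unusedSectionVars false

open Set Metric Filter Topology
open scoped ContDiff
open Vale.Agent.P272.K.R (Hol Bil D2)
open Vale.Agent.P272.K.LIN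

noncomputable section

namespace Vale.Agent.P253W.FP

variable {E : Type} [NormedAddCommGroup E] [NormedSpace ℝ E]

namespace TRa

/-- extension of a Hölder bound across the boundary of the support -/
theorem hol_ext {F X : Type} [NormedAddCommGroup F] [TopologicalSpace X] {α C : ℝ} (hα : 0 ≤ α)
    (hC : 0 ≤ C) {s : Set E} (hs : Convex ℝ s) {g : E → X} (hg : ContinuousOn g s) {Q : Set X}
    (hQ : IsClosed Q) {k : E → F} (hk : ContinuousOn k s) (h0 : ∀ y ∈ s, g y ∉ Q → k y = 0)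
    (h : Hol α C k {y ∈ s | g y ∈ Q}) : Hol α C k s := by
  have key : ∀ x ∈ s, ∀ y ∈ s, g x ∈ Q → g y ∉ Q → ‖k x‖ ≤ C * ‖x - y‖ ^ α := by
    intro x hx y hy h1 h2
    have h3 : segment ℝ x y ⊆ s := hs.segment_subset hx hy
    have h4 : IsClosed (segment ℝ x y) := by
      rw [segment_eq_image]
      exact (isCompact_Icc.image (by fun_prop)).isClosed
    obtain ⟨z, hz, ⟨-, h5⟩, -, h6⟩ := isPreconnected_closed_iff.1
      (convex_segment x y).isPreconnected _ _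
      ((hg.mono h3).preimage_isClosed_of_isClosed h4 hQ)
      ((hk.mono h3).preimage_isClosed_of_isClosed h4 (isClosed_singleton (x := (0 : F))))
      (fun z hz => (em (g z ∈ Q)).imp (fun h => ⟨hz, h⟩) fun h => ⟨hz, h0 z (h3 hz) h⟩)
      ⟨x, left_mem_segment ℝ x y, left_mem_segment ℝ x y, h1⟩
      ⟨y, right_mem_segment ℝ x y, right_mem_segment ℝ x y, h0 y hy h2⟩
    have h7 := h x ⟨hx, h1⟩ z ⟨h3 hz, h5⟩
    rw [show k z = 0 from h6, sub_zero] at h7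
    have h8 : ‖x - z‖ ≤ ‖x - y‖ := by
      rw [← dist_eq_norm, ← dist_eq_norm, ← dist_add_dist_of_mem_segment hz]
      exact le_add_of_nonneg_right dist_nonneg
    exact h7.trans (mul_le_mul_of_nonneg_left (Real.rpow_le_rpow (norm_nonneg _) h8 hα) hC)
  intro x hx y hy
  by_cases h1 : g x ∈ Q <;> by_cases h2 : g y ∈ Q
  · exact h x ⟨hx, h1⟩ y ⟨hy, h2⟩
  · rw [h0 y hy h2, sub_zero]
    exact key x hx y hy h1 h2
  · rw [h0 x hx h1, zero_sub, norm_neg, norm_sub_rev]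
    exact key y hy x hx h2 h1
  · rw [h0 x hx h1, h0 y hy h2, sub_zero, norm_zero]
    positivity

theorem le_rpow {α d : ℝ} (h0 : 0 < α) (h1 : α ≤ 1) (hd : 0 ≤ d) (h8 : d ≤ 8) :
    d ≤ 8 * d ^ α := by
  rcases hd.eq_or_lt with rfl | hd
  · positivity
  have h2 : d = d ^ (1 - α) * d ^ α := by rw [← Real.rpow_add hd, sub_add_cancel, Real.rpow_one]
  have h3 : d ^ (1 - α) ≤ 8 := (Real.rpow_le_rpow hd.le h8 (by linarith)).trans
    ((Real.rpow_le_rpow_of_exponent_le (by norm_num) (by linarith)).trans_eq (Real.rpow_one 8))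
  conv_lhs => rw [h2]
  exact mul_le_mul_of_nonneg_right h3 (by positivity)

theorem exists_JT [FiniteDimensional ℝ E] (K : ℝ) : ∃ M : ℝ, 0 ≤ M ∧
    ∀ (A A' : E →L[ℝ] E) (B B' : E →L[ℝ] E →L[ℝ] E), ‖A‖ ≤ K → ‖A'‖ ≤ K → ‖B‖ ≤ K → ‖B'‖ ≤ K →
      ‖JT A B‖ ≤ M ∧ ∀ d, ‖A - A'‖ ≤ d → ‖B - B'‖ ≤ d → ‖JT A B - JT A' B'‖ ≤ M * d := by
  have hc : IsCompact (closedBall (0 : (E →L[ℝ] E) × (E →L[ℝ] E →L[ℝ] E)) K) :=
    haveI := FiniteDimensional.proper_real ((E →L[ℝ] E) × (E →L[ℝ] E →L[ℝ] E))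
    isCompact_closedBall _ _
  have h1 := contDiff_JT (E := E) (F := E)
  obtain ⟨M, hM⟩ := hc.exists_bound_of_continuousOn h1.continuous.continuousOn
  obtain ⟨L, hL⟩ := LocallyLipschitzOn.exists_lipschitzOnWith_of_compact hc
    (h1.of_le (by simp)).locallyLipschitz.locallyLipschitzOn
  refine ⟨max M L, le_max_of_le_right L.2, fun A A' B B' a a' b b' => ?_⟩
  have m : (A, B) ∈ closedBall (0 : (E →L[ℝ] E) × (E →L[ℝ] E →L[ℝ] E)) K :=
    mem_closedBall_zero_iff.2 (max_le a b)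
  have m' : (A', B') ∈ closedBall (0 : (E →L[ℝ] E) × (E →L[ℝ] E →L[ℝ] E)) K :=
    mem_closedBall_zero_iff.2 (max_le a' b')
  refine ⟨(hM _ m).trans (le_max_left _ _), fun d h2 h3 => (hL.norm_sub_le m m').trans ?_⟩
  exact mul_le_mul (le_max_right _ _) (max_le h2 h3) (norm_nonneg _) (le_max_of_le_right L.2)

variable {X : Type} [TopologicalSpace X] {K : ℝ} {N₀ : ℕ} (𝒜 : UA E X K N₀) (i j : 𝒜.ι)

/-- the transition map -/
abbrev tau (z : E) : E := 𝒜.e i ((𝒜.e j).symm z)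

/-- the support -/
abbrev QQ : Set X := (𝒜.e i).symm '' closedBall 0 3

theorem cont_symm : ContinuousOn (𝒜.e j).symm (ball 0 4) :=
  (𝒜.e j).continuousOn_symm.mono (𝒜.tgt j)

theorem sub34 : closedBall (0 : E) 3 ⊆ ball 0 4 := closedBall_subset_ball (by norm_num)

theorem closed_Q [FiniteDimensional ℝ E] [T2Space X] : IsClosed (QQ 𝒜 i) :=
  haveI := FiniteDimensional.proper_real E
  ((isCompact_closedBall _ _).image_of_continuousOn ((cont_symm 𝒜 i).mono sub34)).isClosed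

variable {𝒜 i j}

theorem near_in {y : E} (hy : y ∈ ball (0 : E) 4) (h : (𝒜.e j).symm y ∈ QQ 𝒜 i) :
    ∀ᶠ z in 𝓝 y, (𝒜.e i).symm (tau 𝒜 i j z) = (𝒜.e j).symm z ∧ tau 𝒜 i j z ∈ ball (0 : E) 4 := by
  have h1 := (𝒜.sm i j y hy h).1.continuousAt
  obtain ⟨q, hq, e⟩ := h
  have h2 := 𝒜.tgt i (sub34 hq)
  refine .and ?_ (h1.eventually_mem (isOpen_ball.mem_nhds ?_))
  · filter_upwards [((cont_symm 𝒜 j).continuousAt (isOpen_ball.mem_nhds hy)).eventually_mem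
      ((𝒜.e i).open_source.mem_nhds (e ▸ (𝒜.e i).map_target h2))] with z hz
    exact (𝒜.e i).left_inv hz
  · rw [← e, (𝒜.e i).right_inv h2]
    exact sub34 hq

theorem near_out [FiniteDimensional ℝ E] [T2Space X] {y : E} (hy : y ∈ ball (0 : E) 4)
    (h : (𝒜.e j).symm y ∉ QQ 𝒜 i) : ∀ᶠ z in 𝓝 y, (𝒜.e j).symm z ∉ QQ 𝒜 i :=
  ((cont_symm 𝒜 j).continuousAt (isOpen_ball.mem_nhds hy)).eventually_mem
    ((closed_Q 𝒜 i).isOpen_compl.mem_nhds h)

theorem ev_prod {I : Set ℝ} {s : Set E} {q : ℝ × E} {P : ℝ → E → Prop}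
    (h : ∀ᶠ z in 𝓝 q.2, ∀ t ∈ I, P t z) : ∀ᶠ r in 𝓝[I ×ˢ s] q, P r.1 r.2 := by
  filter_upwards [mem_nhdsWithin_of_mem_nhds (continuousAt_snd.eventually h),
    self_mem_nhdsWithin] with r h1 h2
  exact h1 _ h2.1

/-- continuity of the composition with the transition map -/
theorem cont_tau {F : Type} [TopologicalSpace F] {I : Set ℝ} {g : ℝ → E → F}
    (hg : ContinuousOn (fun q : ℝ × E => g q.1 q.2) (I ×ˢ ball 0 4)) {q : ℝ × E}
    (hq : q ∈ I ×ˢ ball (0 : E) 4) (h : (𝒜.e j).symm q.2 ∈ QQ 𝒜 i) :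
    ContinuousWithinAt (fun r : ℝ × E => g r.1 (tau 𝒜 i j r.2)) (I ×ˢ ball 0 4) q := by
  have h1 := near_in hq.2 h
  refine (hg (q.1, tau 𝒜 i j q.2) ⟨hq.1, h1.self_of_nhds.2⟩).comp_of_preimage_mem_nhdsWithin
    (f := fun r : ℝ × E => (r.1, tau 𝒜 i j r.2)) (continuousAt_fst.prodMk
      ((𝒜.sm i j _ hq.2 h).1.continuousAt.comp continuousAt_snd)).continuousWithinAt ?_
  exact ev_prod (P := fun t z => (t, tau 𝒜 i j z) ∈ I ×ˢ ball (0 : E) 4)
    (h1.mono fun z hz t ht => ⟨ht, hz.2⟩)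

theorem cont_loc [FiniteDimensional ℝ E] [T2Space X] {I : Set ℝ} {f : ℝ → X → ℝ}
    (h0 : ∀ t ∈ I, ∀ x ∉ QQ 𝒜 i, f t x = 0)
    (hf : ContinuousOn (fun q : ℝ × E => 𝒜.loc i f q.1 q.2) (I ×ˢ ball 0 4)) :
    ContinuousOn (fun q : ℝ × E => 𝒜.loc j f q.1 q.2) (I ×ˢ ball 0 4) := by
  intro q hq
  by_cases h : (𝒜.e j).symm q.2 ∈ QQ 𝒜 i
  · refine (cont_tau hf hq h).congr_of_eventuallyEq_of_mem ?_ hq
    exact ev_prod (P := fun t z => 𝒜.loc j f t z = 𝒜.loc i f t (tau 𝒜 i j z))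
      ((near_in hq.2 h).mono fun z hz t _ => congrArg (f t) hz.1.symm)
  · refine (continuousWithinAt_const (b := (0 : ℝ))).congr_of_eventuallyEq_of_mem ?_ hq
    exact ev_prod (P := fun t z => 𝒜.loc j f t z = 0)
      ((near_out hq.2 h).mono fun z hz t ht => h0 t ht _ hz)

theorem jet_in {I : Set ℝ} {u : ℝ → X → ℝ}
    (hu : ∀ t ∈ I, ContDiffOn ℝ 2 (𝒜.loc i u t) (ball 0 4)) {y : E} (hy : y ∈ ball (0 : E) 4)
    (h : (𝒜.e j).symm y ∈ QQ 𝒜 i) : ∀ᶠ z in 𝓝 y, ∀ t ∈ I, ContDiffAt ℝ 2 (𝒜.loc j u t) z ∧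
      jet (𝒜.loc j u t) z = JT (fderiv ℝ (tau 𝒜 i j) z) (fderiv ℝ (fderiv ℝ (tau 𝒜 i j)) z)
        (jet (𝒜.loc i u t) (tau 𝒜 i j z)) := by
  filter_upwards [(near_in hy h).eventually_nhds, (𝒜.sm i j y hy h).1.eventually (by simp)]
    with z h1 h2 t ht
  have h3 := (hu t ht).contDiffAt (isOpen_ball.mem_nhds h1.self_of_nhds.2)
  have h4 : 𝒜.loc j u t =ᶠ[𝓝 z] fun w => 𝒜.loc i u t (tau 𝒜 i j w) :=
    h1.mono fun w hw => congrArg (u t) hw.1.symm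
  exact ⟨(h3.comp z h2).congr_of_eventuallyEq h4, (jet_congr h4).trans (jet_comp h3 h2)⟩

theorem jet_out [FiniteDimensional ℝ E] [T2Space X] {I : Set ℝ} {u : ℝ → X → ℝ}
    (h0 : ∀ t ∈ I, ∀ x ∉ QQ 𝒜 i, u t x = 0) {y : E} (hy : y ∈ ball (0 : E) 4)
    (h : (𝒜.e j).symm y ∉ QQ 𝒜 i) : ∀ᶠ z in 𝓝 y, ∀ t ∈ I, ContDiffAt ℝ 2 (𝒜.loc j u t) z ∧
      jet (𝒜.loc j u t) z = 0 := by
  filter_upwards [(near_out hy h).eventually_nhds] with z h1 t ht
  have h4 : 𝒜.loc j u t =ᶠ[𝓝 z] fun _ => 0 := h1.mono fun w hw => h0 t ht _ hw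
  refine ⟨contDiffAt_const.congr_of_eventuallyEq h4, (jet_congr h4).trans ?_⟩
  simp [jet]

theorem cont_JT {y : E} {τ : E → E} (h2 : ContDiffAt ℝ 2 τ y) :
    ContinuousAt (fun z => JT (fderiv ℝ τ z) (fderiv ℝ (fderiv ℝ τ) z)) y := by
  have h3 : ContDiffAt ℝ 1 (fderiv ℝ τ) y := h2.fderiv_right (by norm_num)
  have h4 : ContDiffAt ℝ 0 (fderiv ℝ (fderiv ℝ τ)) y := h3.fderiv_right (by norm_num)
  exact (contDiff_JT (E := E) (F := E)).continuous.continuousAt.comp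
    (f := fun z => (fderiv ℝ τ z, fderiv ℝ (fderiv ℝ τ) z))
    (h3.continuousAt.prodMk h4.continuousAt)

theorem cont_jet [FiniteDimensional ℝ E] [T2Space X] {I : Set ℝ} {u : ℝ → X → ℝ}
    (u0 : ∀ t ∈ I, ∀ x ∉ QQ 𝒜 i, u t x = 0)
    (hu : ∀ t ∈ I, ContDiffOn ℝ 2 (𝒜.loc i u t) (ball 0 4))
    (hb : ContinuousOn (fun q : ℝ × E => jet (𝒜.loc i u q.1) q.2) (I ×ˢ ball 0 4)) :
    ContinuousOn (fun q : ℝ × E => jet (𝒜.loc j u q.1) q.2) (I ×ˢ ball 0 4) := by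
  intro q hq
  by_cases h : (𝒜.e j).symm q.2 ∈ QQ 𝒜 i
  · have h5 := (cont_JT (𝒜.sm i j _ hq.2 h).1).comp (f := Prod.snd) (x := q) continuousAt_snd
    refine (h5.continuousWithinAt.clm_apply (cont_tau (g := fun t => jet (𝒜.loc i u t))
      hb hq h)).congr_of_eventuallyEq_of_mem ?_ hq
    exact ev_prod (P := fun t z => jet (𝒜.loc j u t) z = JT (fderiv ℝ (tau 𝒜 i j) z)
      (fderiv ℝ (fderiv ℝ (tau 𝒜 i j)) z) (jet (𝒜.loc i u t) (tau 𝒜 i j z)))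
      ((jet_in hu hq.2 h).mono fun z hz t ht => (hz t ht).2)
  · refine (continuousWithinAt_const (b := (0 : Jet E))).congr_of_eventuallyEq_of_mem ?_ hq
    exact ev_prod (P := fun t z => jet (𝒜.loc j u t) z = 0)
      ((jet_out u0 hq.2 h).mono fun z hz t ht => (hz t ht).2)

theorem tau_hol {α : ℝ} (h0 : 0 < α) (h1 : α ≤ 1) {y y' : E}
    (hy : y ∈ {y ∈ ball (0 : E) 4 | (𝒜.e j).symm y ∈ QQ 𝒜 i})
    (hy' : y' ∈ {y ∈ ball (0 : E) 4 | (𝒜.e j).symm y ∈ QQ 𝒜 i}) :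
    ‖tau 𝒜 i j y - tau 𝒜 i j y'‖ ^ α ≤ max K 1 * ‖y - y'‖ ^ α := by
  have h2 := 𝒜.lip0 i j y hy y' hy'
  rw [Real.rpow_one] at h2
  have h3 : ‖tau 𝒜 i j y - tau 𝒜 i j y'‖ ≤ max K 1 * ‖y - y'‖ :=
    h2.trans (mul_le_mul_of_nonneg_right (le_max_left _ _) (norm_nonneg _))
  refine (Real.rpow_le_rpow (norm_nonneg _) h3 h0.le).trans ?_
  rw [Real.mul_rpow (by positivity) (norm_nonneg _)]
  exact mul_le_mul_of_nonneg_right ((Real.rpow_le_rpow_of_exponent_le (le_max_right _ _) h1).trans_eq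
    (Real.rpow_one _)) (by positivity)

end TRa

open TRa

variable (E) in
/-- **TR** -/
theorem tr [FiniteDimensional ℝ E] : TR E := by
  intro α K h0 h1
  obtain ⟨M, M0, hM⟩ := exists_JT (E := E) K
  have K1 : 1 ≤ max K 1 := le_max_right _ _
  have K0 : 0 ≤ max K 1 := zero_le_one.trans K1
  refine ⟨8 * (M + 1) * max K 1, by nlinarith, fun N₀ X _ _ 𝒜 i j => ⟨fun f A A0 f0 hf => ?_,
    fun I f f0 hf => cont_loc f0 hf, fun I u A A' A0 A0' u0 hu hb => ?_⟩⟩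
  · have hc : ContinuousOn (fun q : ℝ × E => 𝒜.loc j (fun _ => f) q.1 q.2) (univ ×ˢ ball 0 4) :=
      cont_loc (fun _ _ => f0) ((hf.continuousOn h0).comp continuousOn_snd fun _ h => h.2)
    refine hol_ext h0.le (by positivity) (convex_ball 0 4) (cont_symm 𝒜 j) (closed_Q 𝒜 i)
      (hc.comp (f := fun y => ((0 : ℝ), y)) (by fun_prop) fun _ h => ⟨trivial, h⟩)
      (fun y _ h => f0 _ h) fun y hy y' hy' => ?_
    have e := (near_in hy.1 hy.2).self_of_nhds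
    have e' := (near_in hy'.1 hy'.2).self_of_nhds
    have h2 := hf _ e.2 _ e'.2
    simp only [e.1, e'.1] at h2
    refine h2.trans ((mul_le_mul_of_nonneg_left (tau_hol h0 h1 hy hy') A0).trans ?_)
    rw [← mul_assoc]
    refine mul_le_mul_of_nonneg_right ?_ (by positivity)
    nlinarith [mul_nonneg A0 K0, mul_nonneg M0 (mul_nonneg A0 K0)]
  have hc := cont_jet (j := j) u0 hu hb.cont
  refine ⟨fun t ht y hy => ?_, hc, fun t ht y hy => ?_, fun t ht => ?_⟩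
  · by_cases h : (𝒜.e j).symm y ∈ QQ 𝒜 i
    · exact ((jet_in hu hy h).self_of_nhds t ht).1.contDiffWithinAt
    · exact ((jet_out u0 hy h).self_of_nhds t ht).1.contDiffWithinAt
  · by_cases h : (𝒜.e j).symm y ∈ QQ 𝒜 i
    · obtain ⟨-, a, b⟩ := 𝒜.sm i j y hy h
      rw [((jet_in hu hy h).self_of_nhds t ht).2]
      refine (ContinuousLinearMap.le_opNorm _ _).trans (mul_le_mul ?_
        (hb.sup t ht _ (near_in hy h).self_of_nhds.2) (norm_nonneg _) (by positivity))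
      exact (hM _ _ _ _ a a b b).1.trans (by nlinarith)
    · rw [((jet_out u0 hy h).self_of_nhds t ht).2, norm_zero]
      positivity
  · refine hol_ext h0.le (by positivity) (convex_ball 0 4) (cont_symm 𝒜 j) (closed_Q 𝒜 i)
      (hc.comp (f := fun y => (t, y)) (by fun_prop) fun _ h => ⟨ht, h⟩)
      (fun y hy h => ((jet_out u0 hy h).self_of_nhds t ht).2) fun y hy y' hy' => ?_
    obtain ⟨-, a, b⟩ := 𝒜.sm i j y hy.1 hy.2
    obtain ⟨-, a', b'⟩ := 𝒜.sm i j y' hy'.1 hy'.2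
    have e := (near_in hy.1 hy.2).self_of_nhds.2
    have e' := (near_in hy'.1 hy'.2).self_of_nhds.2
    have d8 : ‖y - y'‖ ≤ 8 * ‖y - y'‖ ^ α := le_rpow h0 h1 (norm_nonneg _) (by
      linarith [norm_sub_le y y', mem_ball_zero_iff.1 hy.1, mem_ball_zero_iff.1 hy'.1])
    have d0 : 0 ≤ ‖y - y'‖ ^ α := by positivity
    have d1 : K * ‖y - y'‖ ^ (1 : ℝ) ≤ max K 1 * (8 * ‖y - y'‖ ^ α) := by
      rw [Real.rpow_one]
      exact mul_le_mul (le_max_left _ _) d8 (norm_nonneg _) K0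
    obtain ⟨m1, m2⟩ := hM _ _ _ _ a a' b b'
    have m3 := m2 _ ((𝒜.lip1 i j y hy y' hy').trans d1) ((𝒜.lip2 i j y hy y' hy').trans d1)
    have m4 := (hb.hol t ht _ e _ e').trans (mul_le_mul_of_nonneg_left (tau_hol h0 h1 hy hy') A0')
    have m5 := hb.sup t ht _ e'
    rw [((jet_in hu hy.1 hy.2).self_of_nhds t ht).2, ((jet_in hu hy'.1 hy'.2).self_of_nhds t ht).2]
    generalize JT (fderiv ℝ (tau 𝒜 i j) y) (fderiv ℝ (fderiv ℝ (tau 𝒜 i j)) y) = J at m1 m3 ⊢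
    generalize JT (fderiv ℝ (tau 𝒜 i j) y') (fderiv ℝ (fderiv ℝ (tau 𝒜 i j)) y') = J' at m3 ⊢
    generalize jet (𝒜.loc i u t) (tau 𝒜 i j y) = p at m4 ⊢
    generalize jet (𝒜.loc i u t) (tau 𝒜 i j y') = p' at m4 m5 ⊢
    have e2 : J p - J' p' = J (p - p') + (J - J') p' := by simp
    rw [e2]
    refine (norm_add_le _ _).trans ((add_le_add
      ((J.le_opNorm _).trans (mul_le_mul m1 m4 (norm_nonneg _) M0))
      (((J - J').le_opNorm _).trans (mul_le_mul m3 m5 (norm_nonneg _) (by positivity)))).trans ?_)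
    have n1 := mul_nonneg (mul_nonneg A0 K0) d0
    have n2 := mul_nonneg (mul_nonneg A0' K0) d0
    nlinarith [mul_nonneg M0 n2]

end Vale.Agent.P253W.FP
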