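import Vale.Agent.P253W.FP.Pb

/-!
# P253W, block FP, row TWB: closure properties of the classes and of their towers
-/

set_option maxSynthPendingDepth 3
set_option linter.unusedSectionVars false

open Set Metric Filter Topology
open scoped ContDiff
open Vale.Agent.P272.K.R (Hol Bil D2)
open Vale.Agent.P272.K.LIN (Jet jet)

noncomputable section

namespace Vale.Agent.P253W.FP

variable {E F G H : Type} [NormedAddCommGroup E] [NormedSpace ℝ E] [NormedAddCommGroup F]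
  [NormedSpace ℝ F] [NormedAddCommGroup G] [NormedSpace ℝ G] [NormedAddCommGroup H]
  [NormedSpace ℝ H] {α T A B A' B' : ℝ} {I : Set ℝ} {U s s' : Set E} {P : Cls E} {f : ℝ → E → F}
  {g : ℝ → E → G} {k : ℕ}

/-! ### jointly smooth functions -/

theorem sm_slice {n : WithTop ℕ∞} (h : ContDiffOn ℝ n (fun q : ℝ × E => f q.1 q.2) (I ×ˢ U))
    {t : ℝ} (ht : t ∈ I) : ContDiffOn ℝ n (f t) U :=
  h.comp (contDiff_prodMk_right t).contDiffOn fun _ hx => ⟨ht, hx⟩

theorem sm_fderiv {m n : WithTop ℕ∞} (hU : IsOpen U) (hmn : m + 1 ≤ n)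
    (h : ContDiffOn ℝ n (fun q : ℝ × E => f q.1 q.2) (I ×ˢ U)) :
    ContDiffOn ℝ m (fun q : ℝ × E => fderiv ℝ (f q.1) q.2) (I ×ˢ U) := fun q hq =>
  (ContDiffWithinAt.fderivWithin (f := fun (q : ℝ × E) y => f q.1 y) (g := Prod.snd)
    (ContDiffWithinAt.comp (g := fun q : ℝ × E => f q.1 q.2)
      (f := fun z : (ℝ × E) × E => (z.1.1, z.2)) _ (h q hq) (by fun_prop)
      fun _ hz => ⟨hz.1.1, hz.2⟩) contDiffWithinAt_snd hU.uniqueDiffOn hmn hq
    fun _ hz => hz.2).congr (fun _ hz => (fderivWithin_of_isOpen hU hz.2).symm)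
    (fderivWithin_of_isOpen hU hq.2).symm

/-! ### consequences of the closure properties -/

namespace Base

variable (b : Base I U P)
include b

theorem const (c : F) : P F fun _ _ => c := b.smooth F _ contDiffOn_const

theorem clm (L : F →L[ℝ] G) (h : P F f) : P G fun t x => L (f t x) :=
  b.comp F G univ L f isOpen_univ L.contDiff.contDiffOn h fun _ _ _ _ => trivial

theorem neg (h : P F f) : P F fun t x => -f t x := b.clm (-ContinuousLinearMap.id ℝ F) h

theorem sub {g : ℝ → E → F} (h : P F f) (h' : P F g) : P F fun t x => f t x - g t x :=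
  b.congr _ _ _ (b.add _ _ _ h (b.neg h')) fun _ _ _ _ => (sub_eq_add_neg _ _).symm

theorem prodMk (h : P F f) (h' : P G g) : P (F × G) fun t x => (f t x, g t x) :=
  b.congr _ _ _ (b.add _ _ _ (b.clm (.inl ℝ F G) h) (b.clm (.inr ℝ F G) h')) fun _ _ _ _ => by simp

theorem smul {c : ℝ → E → ℝ} (hc : P ℝ c) (h : P F f) : P F fun t x => c t x • f t x :=
  b.bilin _ _ _ (.lsmul ℝ ℝ) c f hc h

theorem mul {c d : ℝ → E → ℝ} (hc : P ℝ c) (hd : P ℝ d) : P ℝ fun t x => c t x * d t x :=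
  b.smul hc hd

theorem apply {l : ℝ → E → F →L[ℝ] G} (hl : P _ l) (h : P F f) : P G fun t x => l t x (f t x) :=
  b.bilin _ _ _ (.id ℝ (F →L[ℝ] G)) l f hl h

theorem sum {ι : Type*} (S : Finset ι) {f : ι → ℝ → E → F} (h : ∀ i ∈ S, P F (f i)) :
    P F fun t x => ∑ i ∈ S, f i t x := by
  classical
  induction S using Finset.induction_on with
  | empty => simpa using b.const (0 : F)
  | insert i S hi ih =>
    simp only [Finset.sum_insert hi]
    exact b.add _ _ _ (h i (by simp)) (ih fun j hj => h j (by simp [hj]))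

theorem of_apply [FiniteDimensional ℝ G] {f : ℝ → E → G →L[ℝ] F}
    (h : ∀ v, P F fun t x => f t x v) : P _ f := by
  let e := Module.finBasis ℝ G
  refine b.congr _ _ _ (b.sum Finset.univ fun i _ => b.clm (ContinuousLinearMap.smulRightL ℝ G F
    (LinearMap.toContinuousLinearMap (e.coord i))) (h (e i))) fun t _ x _ => ?_
  ext v
  conv_rhs => rw [← e.sum_repr v, map_sum]
  simp

end Base

/-! ### towers -/

theorem Tw.of_succ : ∀ {k : ℕ} {F : Type} [NormedAddCommGroup F] [NormedSpace ℝ F]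
    {f : ℝ → E → F}, Tw I U P (k + 1) F f → Tw I U P k F f
  | 0, _, _, _, _, h => h.1
  | _ + 1, _, _, _, _, h => ⟨h.1, h.2.1, Tw.of_succ h.2.2⟩

theorem Tw.of_le {l : ℕ} (hkl : k ≤ l) (h : Tw I U P l F f) : Tw I U P k F f := by
  induction hkl with
  | refl => exact h
  | step _ ih => exact ih h.of_succ

theorem Tw.imp {Q : Cls E} (e : ∀ (F : Type) [NormedAddCommGroup F] [NormedSpace ℝ F]
    (f : ℝ → E → F), P F f → Q F f) : ∀ {k : ℕ} {F : Type} [NormedAddCommGroup F]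
    [NormedSpace ℝ F] {f : ℝ → E → F}, Tw I U P k F f → Tw I U Q k F f
  | 0, _, _, _, _, h => e _ _ h
  | _ + 1, _, _, _, _, h => ⟨e _ _ h.1, h.2.1, Tw.imp e h.2.2⟩

theorem Base.tw (b : Base I U P) (hU : IsOpen U) (k : ℕ) : Base I U (Tw I U P k) := by
  induction k with
  | zero => exact b
  | succ k c =>
    refine ⟨fun F _ _ f g h e => ?_, fun F _ _ f g h h' => ?_, fun F G H _ _ _ _ _ _ L f g h h' => ?_,
      fun F G _ _ _ _ V φ f hV hφ h m => ?_, fun F _ _ f h => ?_⟩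
    · have e' : ∀ t ∈ I, ∀ x ∈ U, f t =ᶠ[𝓝 x] g t := fun t ht x hx =>
        eventually_of_mem (hU.mem_nhds hx) (e t ht)
      exact ⟨b.congr _ _ _ h.1 e, fun t ht x hx =>
        (h.2.1 t ht x hx).congr_of_eventuallyEq (e' t ht x hx).symm,
        c.congr _ _ _ h.2.2 fun t ht x hx => (e' t ht x hx).fderiv_eq⟩
    · exact ⟨b.add _ _ _ h.1 h'.1, fun t ht x hx => (h.2.1 t ht x hx).add (h'.2.1 t ht x hx),
        c.congr _ _ _ (c.add _ _ _ h.2.2 h'.2.2) fun t ht x hx =>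
          (fderiv_fun_add (h.2.1 t ht x hx) (h'.2.1 t ht x hx)).symm⟩
    · have d := fun t ht x hx => L.hasFDerivAt_of_bilinear (h.2.1 t ht x hx).hasFDerivAt
        (h'.2.1 t ht x hx).hasFDerivAt
      exact ⟨b.bilin _ _ _ L _ _ h.1 h'.1, fun t ht x hx => (d t ht x hx).differentiableAt,
        c.congr _ _ _ (c.add _ _ _ (c.bilin _ _ _ (L.precompR E) _ _ h.of_succ h'.2.2)
          (c.bilin _ _ _ (L.precompL E) _ _ h.2.2 h'.of_succ))
          fun t ht x hx => (d t ht x hx).fderiv.symm⟩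
    · have d := fun t ht x hx => ((hφ.contDiffAt (hV.mem_nhds (m t ht x hx))).differentiableAt
        (by simp)).hasFDerivAt.comp x (h.2.1 t ht x hx).hasFDerivAt
      exact ⟨b.comp _ _ V φ f hV hφ h.1 m, fun t ht x hx => (d t ht x hx).differentiableAt,
        c.congr _ _ _ (c.bilin _ _ _ (.compL ℝ E F G) _ _ (c.comp _ _ V _ f hV
          (hφ.fderiv_of_isOpen hV le_rfl) h.of_succ m) h.2.2)
          fun t ht x hx => (d t ht x hx).fderiv.symm⟩
    · exact ⟨b.smooth _ _ h, fun t ht x hx =>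
        ((sm_slice h ht).contDiffAt (hU.mem_nhds hx)).differentiableAt (by simp),
        c.smooth _ _ (sm_fderiv hU le_rfl h)⟩

theorem Tw.clm (b : Base I U P) (hU : IsOpen U) (L : F →L[ℝ] G) (h : Tw I U P k F f) :
    Tw I U P k G fun t x => L (f t x) := (b.tw hU k).clm L h

theorem Tw.prodMk (b : Base I U P) (hU : IsOpen U) (h : Tw I U P k F f) (h' : Tw I U P k G g) :
    Tw I U P k (F × G) fun t x => (f t x, g t x) := (b.tw hU k).prodMk h h'

/-- the jets -/
theorem Tw.jet (b : Base I U P) (hU : IsOpen U) {w : ℝ → E → ℝ} (h : Tw I U P (k + 2) ℝ w) :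
    Tw I U P k (Jet E) fun t => jet (w t) :=
  Tw.prodMk b hU h.of_succ.of_succ (Tw.prodMk b hU h.2.2.of_succ h.2.2.2.2)

/-! ### the two basic classes -/

theorem base_jc (m : ℕ) (I : Set ℝ) (U : Set E) : Base I U (JC m I U) :=
  ⟨fun _ _ _ _ _ h e => ContDiffOn.congr h fun q hq => (e q.1 hq.1 q.2 hq.2).symm,
    fun _ _ _ _ _ h h' => ContDiffOn.add h h',
    fun _ _ _ _ _ _ _ _ _ L _ _ h h' => (L.contDiff.comp_contDiffOn h).clm_apply h',
    fun _ _ _ _ _ _ _ _ _ _ hφ h e => (hφ.of_le (by exact_mod_cast le_top)).comp h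
      fun q hq => e q.1 hq.1 q.2 hq.2,
    fun _ _ _ _ h => h.of_le (by exact_mod_cast le_top)⟩

theorem TH.cont (h : TH α I U F f) : ContinuousOn (fun q : ℝ × E => f q.1 q.2) (I ×ˢ U) :=
  fun q hq => by
    obtain ⟨r, hr, -, C, -, p⟩ := h q.2 hq.2
    exact (p.cont q ⟨hq.1, mem_ball_self hr⟩).mono_of_mem_nhdsWithin (by
      filter_upwards [self_mem_nhdsWithin, mem_nhdsWithin_of_mem_nhds
        (continuous_snd.continuousAt.preimage_mem_nhds (ball_mem_nhds q.2 hr))] with z a b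
        using ⟨a.1, b⟩)

theorem TH.jc (h : TH α I U F f) : JC 0 I U F f := contDiffOn_zero.2 h.cont

theorem TH.two (h : TH α I U F f) (h' : TH α I U G g) {x : E} (hx : x ∈ U) : ∃ r > 0,
    ball x r ⊆ U ∧ ∃ C, 0 ≤ C ∧ PB α I (ball x r) f C C ∧ PB α I (ball x r) g C C := by
  obtain ⟨r, hr, e, C, hC, p⟩ := h x hx
  obtain ⟨r', hr', -, C', -, p'⟩ := h' x hx
  have a := ball_subset_ball (x := x) (min_le_left r r')
  exact ⟨min r r', lt_min hr hr', a.trans e, max C C', le_max_of_le_left hC,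
    (p.mono_set Subset.rfl a).mono (le_max_left _ _) (le_max_left _ _),
    (p'.mono_set Subset.rfl (ball_subset_ball (min_le_right _ _))).mono (le_max_right _ _)
      (le_max_right _ _)⟩

theorem TH.mono {V : Set E} (h : TH α I U F f) (hV : IsOpen V) (e : V ⊆ U) : TH α I V F f :=
  fun x hx => by
    obtain ⟨r, hr, -, C, hC, p⟩ := h x (e hx)
    obtain ⟨r', hr', e'⟩ := Metric.isOpen_iff.1 hV x hx
    exact ⟨min r r', lt_min hr hr', (ball_subset_ball (min_le_right _ _)).trans e', C, hC,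
      p.mono_set Subset.rfl (ball_subset_ball (min_le_left _ _))⟩

theorem Tw.mono {V : Set E} (hV : IsOpen V) (e : V ⊆ U) : ∀ {k : ℕ} {F : Type}
    [NormedAddCommGroup F] [NormedSpace ℝ F] {f : ℝ → E → F},
    Tw I U (TH α I U) k F f → Tw I V (TH α I V) k F f
  | 0, _, _, _, _, h => TH.mono h hV e
  | _ + 1, _, _, _, _, h => ⟨h.1.mono hV e, fun t ht x hx => h.2.1 t ht x (e hx), Tw.mono hV e h.2.2⟩

theorem Tw.loc : ∀ {k : ℕ} {F : Type} [NormedAddCommGroup F] [NormedSpace ℝ F] {f : ℝ → E → F},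
    (∀ x ∈ U, ∃ r > 0, ball x r ⊆ U ∧ Tw I (ball x r) (TH α I (ball x r)) k F f) →
      Tw I U (TH α I U) k F f
  | 0, _, _, _, _, h => fun x hx => by
    obtain ⟨r, hr, e, p⟩ := h x hx
    obtain ⟨r', hr', e', q⟩ := p x (mem_ball_self hr)
    exact ⟨r', hr', e'.trans e, q⟩
  | _ + 1, _, _, _, _, h =>
    ⟨Tw.loc (k := 0) fun x hx => (h x hx).imp fun _ p => ⟨p.1, p.2.1, p.2.2.1⟩,
      fun t ht x hx => (h x hx).elim fun _ p => p.2.2.2.1 t ht x (mem_ball_self p.1),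
      Tw.loc fun x hx => (h x hx).imp fun _ p => ⟨p.1, p.2.1, p.2.2.2.2⟩⟩

theorem TH.comp (hα : 0 < α) {V : Set F} {φ : F → G} (hV : IsOpen V) (hφ : ContDiffOn ℝ 1 φ V)
    (h : TH α (Icc 0 T) U F f) (m : ∀ t ∈ Icc 0 T, ∀ x ∈ U, f t x ∈ V) :
    TH α (Icc 0 T) U G fun t x => φ (f t x) := fun x hx => by
  obtain ⟨r, hr, e, C, hC, p⟩ := h x hx
  have hK : IsCompact ((fun t => f t x) '' Icc 0 T) := isCompact_Icc.image_of_continuousOn
    (p.cont.comp (Continuous.prodMk_left x).continuousOn fun _ ht => ⟨ht, mem_ball_self hr⟩)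
  have c : ContinuousOn (fun v => (φ v, fderiv ℝ φ v)) V :=
    hφ.continuousOn.prodMk (hφ.continuousOn_fderiv_of_isOpen hV le_rfl)
  have KV : (fun t => f t x) '' Icc 0 T ⊆ V := image_subset_iff.2 fun t ht => m t ht x hx
  obtain ⟨M, hM⟩ := hK.exists_bound_of_continuousOn (c.mono KV)
  obtain ⟨δ, hδ, e'⟩ := hK.exists_thickening_subset_open
    (c.norm.isOpen_inter_preimage hV (isOpen_Iio (a := |M| + 1)))
    fun v hv => ⟨KV hv, ((hM v hv).trans (le_abs_self M)).trans_lt (lt_add_one _)⟩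
  have w : ∀ t ∈ Icc 0 T, ∀ v ∈ ball (f t x) δ, v ∈ V ∧ ‖(φ v, fderiv ℝ φ v)‖ < |M| + 1 :=
    fun t ht v hv => e' (ball_subset_thickening (mem_image_of_mem _ ht) δ hv)
  have c' : Continuous fun y => C * ‖y - x‖ ^ α :=
    continuous_const.mul ((continuous_id.sub continuous_const).norm.rpow_const fun _ => .inr hα.le)
  obtain ⟨ρ, hρ, e''⟩ := Metric.mem_nhds_iff.1 (inter_mem (ball_mem_nhds x hr)
    ((c'.tendsto x).eventually_lt_const (u := δ) (by simpa [Real.zero_rpow hα.ne'] using hδ)))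
  have w' : ∀ t ∈ Icc 0 T, ∀ y ∈ ball x ρ, f t y ∈ ball (f t x) δ := fun t ht y hy =>
    mem_ball_iff_norm.2 ((p.hol t ht y (e'' hy).1 x (mem_ball_self hr)).trans_lt (e'' hy).2)
  have a : ball x ρ ⊆ ball x r := fun y hy => (e'' hy).1
  refine ⟨ρ, hρ, a.trans e, (|M| + 1) * (C + 1), by positivity, hφ.continuousOn.comp
    (p.cont.mono (prod_mono_right a)) fun q hq => m q.1 hq.1 q.2 (e (a hq.2)), fun t ht y hy => ?_,
    fun t ht y hy z hz => ?_⟩
  · exact ((norm_fst_le (φ _, fderiv ℝ φ _)).trans (w t ht _ (w' t ht y hy)).2.le).trans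
      (le_mul_of_one_le_right (by positivity) (by linarith))
  · refine ((convex_ball (f t x) δ).norm_image_sub_le_of_norm_fderiv_le (fun v hv =>
      (hφ.contDiffAt (hV.mem_nhds (w t ht v hv).1)).differentiableAt one_ne_zero) (fun v hv =>
      (norm_snd_le (φ v, fderiv ℝ φ v)).trans (w t ht v hv).2.le) (w' t ht z hz)
      (w' t ht y hy)).trans ?_
    rw [mul_assoc]
    exact mul_le_mul_of_nonneg_left (((p.hol t ht).mono_const (by linarith)) y (a hy) z (a hz))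
      (by positivity)

variable [FiniteDimensional ℝ E]

omit [NormedSpace ℝ F] in
/-- local bounds from compactness -/
theorem exists_bd (hU : IsOpen U)
    (c : ContinuousOn (fun q : ℝ × E => f q.1 q.2) (Icc 0 T ×ˢ U)) {x : E} (hx : x ∈ U) {r : ℝ}
    (hr : 0 < r) : ∃ ρ > 0, ρ ≤ r ∧ ball x ρ ⊆ U ∧ ∃ M, 0 ≤ M ∧
      ∀ t ∈ Icc 0 T, ∀ y ∈ ball x ρ, ‖f t y‖ ≤ M := by
  have := FiniteDimensional.proper_real E
  obtain ⟨ρ, hρ, e⟩ := nhds_basis_closedBall.mem_iff.1 (hU.mem_nhds hx)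
  obtain ⟨M, hM⟩ := (isCompact_Icc.prod (isCompact_closedBall x ρ)).exists_bound_of_continuousOn
    (c.mono (prod_mono_right e))
  have a : ball x (min ρ r) ⊆ closedBall x ρ :=
    (ball_subset_ball (min_le_left _ _)).trans ball_subset_closedBall
  exact ⟨min ρ r, lt_min hρ hr, min_le_right _ _, a.trans e, |M|, abs_nonneg _,
    fun t ht y hy => (hM (t, y) ⟨ht, a hy⟩).trans (le_abs_self M)⟩

/-- jointly continuous and locally uniformly Hölder in space -/
theorem th_of_hol (hU : IsOpen U) (c : ContinuousOn (fun q : ℝ × E => f q.1 q.2) (Icc 0 T ×ˢ U))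
    (h : ∀ x ∈ U, ∃ r > 0, ∃ C, ∀ t ∈ Icc 0 T, Hol α C (f t) (ball x r)) :
    TH α (Icc 0 T) U F f := fun x hx => by
  obtain ⟨r, hr, C, hC⟩ := h x hx
  obtain ⟨ρ, hρ, a, e, M, hM, b⟩ := exists_bd hU c hx hr
  exact ⟨ρ, hρ, e, max M C, le_max_of_le_left hM, c.mono (prod_mono_right e),
    fun t ht y hy => (b t ht y hy).trans (le_max_left _ _),
    fun t ht => ((hC t ht).mono (ball_subset_ball a)).mono_const (le_max_right _ _)⟩

/-- jointly continuous with a jointly continuous space derivative -/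
theorem th_of_der (hα : α ≤ 1) (hU : IsOpen U)
    (c : ContinuousOn (fun q : ℝ × E => f q.1 q.2) (Icc 0 T ×ˢ U))
    (d : ∀ t ∈ Icc 0 T, ∀ x ∈ U, DifferentiableAt ℝ (f t) x)
    (c' : ContinuousOn (fun q : ℝ × E => fderiv ℝ (f q.1) q.2) (Icc 0 T ×ˢ U)) :
    TH α (Icc 0 T) U F f := th_of_hol hU c fun x hx => by
  obtain ⟨ρ, hρ, a, e, M, hM, b⟩ :=
    exists_bd (f := fun t => fderiv ℝ (f t)) hU c' hx (one_half_pos (α := ℝ))
  refine ⟨ρ, hρ, M, fun t ht y hy z hz => ((convex_ball x ρ).norm_image_sub_le_of_norm_fderiv_le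
    (fun v hv => d t ht v (e hv)) (b t ht) hz hy).trans (mul_le_mul_of_nonneg_left ?_ hM)⟩
  refine Real.self_le_rpow_of_le_one (norm_nonneg _) ?_ hα
  rw [← dist_eq_norm]
  linarith [dist_triangle_right y z x, mem_ball.1 hy, mem_ball.1 hz]

theorem base_th (hα : 0 < α) (hα1 : α ≤ 1) (hU : IsOpen U) :
    Base (Icc 0 T) U (TH α (Icc 0 T) U) := by
  refine ⟨fun F _ _ f g h e x hx => ?_, fun F _ _ f g h h' x hx => ?_,
    fun F G H _ _ _ _ _ _ L f g h h' x hx => ?_, fun F G _ _ _ _ V φ f hV hφ h m =>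
      h.comp hα hV (hφ.of_le (by exact_mod_cast le_top)) m, fun F _ _ f h => ?_⟩
  · obtain ⟨r, hr, a, C, hC, p⟩ := h x hx
    exact ⟨r, hr, a, C, hC, p.congr fun t ht y hy => e t ht y (a hy)⟩
  · obtain ⟨r, hr, a, C, hC, p, p'⟩ := h.two h' hx
    exact ⟨r, hr, a, C + C, by positivity, p.add p'⟩
  · obtain ⟨r, hr, a, C, hC, p, p'⟩ := h.two h' hx
    exact ⟨r, hr, a, ‖L‖ * (C * C + C * C), by positivity, (p.bilin L p').mono
      (mul_le_mul_of_nonneg_left (le_add_of_nonneg_left (by positivity)) (norm_nonneg _)) le_rfl⟩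
  · exact th_of_der hα1 hU h.continuousOn (fun t ht x hx =>
      ((sm_slice h ht).contDiffAt (hU.mem_nhds hx)).differentiableAt (by simp))
      (sm_fderiv (m := ∞) hU le_rfl h).continuousOn

omit [FiniteDimensional ℝ E] in
/-- towers over joint continuity consist of functions of class `C^k` in space -/
theorem Tw.contDiffOn (hU : IsOpen U) {t : ℝ} (ht : t ∈ I) : ∀ {k : ℕ} {F : Type}
    [NormedAddCommGroup F] [NormedSpace ℝ F] {f : ℝ → E → F},
    Tw I U (TH α I U) k F f → ContDiffOn ℝ k (f t) U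
  | 0, _, _, _, _, h => sm_slice (TH.jc h) ht
  | k + 1, _, _, _, _, h => by
    push_cast
    exact (contDiffOn_succ_iff_fderiv_of_isOpen hU).2
      ⟨fun x hx => (h.2.1 t ht x hx).differentiableWithinAt, by simp, Tw.contDiffOn hU ht h.2.2⟩

omit [FiniteDimensional ℝ E] in
/-- the space part of `Cl` from the tower -/
theorem Tw.cl (hU : IsOpen U) {w wt : ℝ → E → ℝ} (h : Tw I U (TH α I U) 2 ℝ w)
    (d : ∀ t ∈ I, ∀ x ∈ U, HasDerivWithinAt (fun s => w s x) (wt t x) I t) : Cl I U w wt :=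
  ⟨fun _ ht => Tw.contDiffOn hU ht h, h.1.cont.prodMk (h.2.2.1.cont.prodMk (TH.cont h.2.2.2.2)), d⟩

/-- the tower from `Cl` and local Hölder bounds for the second derivatives -/
theorem Cl.tw (hα : α ≤ 1) (hU : IsOpen U) {w wt : ℝ → E → ℝ} (h : Cl (Icc 0 T) U w wt)
    (hol : ∀ x ∈ U, ∃ r > 0, ∃ C, ∀ t ∈ Icc 0 T, Hol α C (D2 (w t)) (ball x r)) :
    Tw (Icc 0 T) U (TH α (Icc 0 T) U) 2 ℝ w := by
  have d := fun t ht x hx => (h.c2 t ht).contDiffAt (hU.mem_nhds (x := x) hx)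
  have d1 := fun t ht x hx => (d t ht x hx).differentiableAt two_ne_zero
  have d2 := fun t ht x hx =>
    ((d t ht x hx).fderiv_right (m := 1) le_rfl).differentiableAt one_ne_zero
  exact ⟨th_of_der hα hU h.cj.fst d1 h.cj.snd.fst, d1,
    th_of_der hα hU h.cj.snd.fst d2 h.cj.snd.snd, d2, th_of_hol hU h.cj.snd.snd hol⟩

variable (E) in
theorem twb : TWB E :=
  ⟨fun _ _ _ hU b => b.tw hU, fun _ _ _ => base_th, base_jc, fun _ _ _ _ _ h _ _ _ _ => Tw.of_le h,
    fun _ _ _ _ e _ _ _ _ _ => Tw.imp e, fun _ _ _ b _ _ _ _ => b.of_apply,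
    fun _ _ _ _ _ _ _ _ => Tw.loc, fun _ _ _ _ _ _ _ => TH.jc⟩

end Vale.Agent.P253W.FP
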