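import Vale.Agent.P253W.FP.Defs
import Mathlib.Analysis.Calculus.ContDiff.Bounds

/-!
# P253W, block FP, row UBC: calculus of uniformly bounded families
-/

open Set Metric Filter Topology
open scoped ContDiff

noncomputable section

namespace Vale.Agent.P253W.FP

variable {E : Type} [NormedAddCommGroup E] [NormedSpace ℝ E] {ι F G H : Type}
  [NormedAddCommGroup F] [NormedSpace ℝ F] [NormedAddCommGroup G] [NormedSpace ℝ G]
  [NormedAddCommGroup H] [NormedSpace ℝ H] {k : ℕ} {U : Set E} {f g : ι → E → F}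

namespace Ubc

lemma le_inf (j : ℕ) : (j : WithTop ℕ∞) ≤ ∞ := mod_cast le_top

lemma bd0 (h : UB k U f) : ∃ C : ℝ, 1 ≤ C ∧ ∀ i, ∀ j ≤ k, ∀ x ∈ U,
    ‖iteratedFDeriv ℝ j (f i) x‖ ≤ C :=
  let ⟨C, hC⟩ := h.bd
  ⟨max C 1, le_max_right _ _, fun i j hj x hx => (hC i j hj x hx).trans (le_max_left _ _)⟩

lemma mono {l : ℕ} (hl : l ≤ k) (h : UB k U f) : UB l U f :=
  ⟨h.sm, h.bd.imp fun _ hC i j hj => hC i j (hj.trans hl)⟩

lemma congr (hU : IsOpen U) (h : UB k U f) (e : ∀ i, ∀ x ∈ U, f i x = g i x) : UB k U g :=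
  ⟨fun i => (h.sm i).congr fun x hx => (e i x hx).symm, h.bd.imp fun _ hC i j hj x hx => by
    have : f i =ᶠ[𝓝 x] g i := mem_of_superset (hU.mem_nhds hx) (e i)
    rw [← (this.iteratedFDeriv ℝ j).eq_of_nhds]
    exact hC i j hj x hx⟩

lemma const {c : ι → F} {C : ℝ} (h : ∀ i, ‖c i‖ ≤ C) : UB k U fun i _ => c i :=
  ⟨fun _ => contDiffOn_const, C, fun i j _ x _ => by
    cases j with
    | zero => rw [norm_iteratedFDeriv_zero]; exact h i
    | succ j =>
      rw [iteratedFDeriv_succ_const, Pi.zero_apply, norm_zero]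
      exact (norm_nonneg _).trans (h i)⟩

lemma add (hU : IsOpen U) (hf : UB k U f) (hg : UB k U g) : UB k U fun i x => f i x + g i x := by
  obtain ⟨A, hA⟩ := hf.bd
  obtain ⟨B, hB⟩ := hg.bd
  refine ⟨fun i => (hf.sm i).add (hg.sm i), A + B, fun i j hj x hx => ?_⟩
  rw [fun_iteratedFDeriv_add_apply (((hf.sm i).contDiffAt (hU.mem_nhds hx)).of_le (le_inf j))
    (((hg.sm i).contDiffAt (hU.mem_nhds hx)).of_le (le_inf j))]
  exact norm_add_le_of_le (hA i j hj x hx) (hB i j hj x hx)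

lemma bilin (L : F →L[ℝ] G →L[ℝ] H) {g : ι → E → G} (hU : IsOpen U) (hf : UB k U f)
    (hg : UB k U g) : UB k U fun i x => L (f i x) (g i x) := by
  obtain ⟨A, A1, hA⟩ := bd0 hf
  obtain ⟨B, B1, hB⟩ := bd0 hg
  refine ⟨fun i => (L.contDiff.comp_contDiffOn (hf.sm i)).clm_apply (hg.sm i),
    ‖L‖ * (2 ^ k * (A * B)), fun i j hj x hx => ?_⟩
  rw [← iteratedFDerivWithin_of_isOpen j hU hx]
  refine (L.norm_iteratedFDerivWithin_le_of_bilinear (hf.sm i) (hg.sm i) hU.uniqueDiffOn hx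
    (le_inf j)).trans (mul_le_mul_of_nonneg_left ?_ L.opNorm_nonneg)
  calc _ ≤ ∑ a ∈ Finset.range (j + 1), (j.choose a : ℝ) * (A * B) :=
        Finset.sum_le_sum fun a ha => by
          rw [iteratedFDerivWithin_of_isOpen _ hU hx, iteratedFDerivWithin_of_isOpen _ hU hx,
            mul_assoc]
          have := Finset.mem_range.1 ha
          exact mul_le_mul_of_nonneg_left (mul_le_mul (hA i a (by omega) x hx)
            (hB i _ (by omega) x hx) (norm_nonneg _) (by positivity)) (Nat.cast_nonneg _)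
    _ = 2 ^ j * (A * B) := by
        rw [← Finset.sum_mul, ← Nat.cast_sum, Nat.sum_range_choose]
        push_cast
        rfl
    _ ≤ _ := mul_le_mul_of_nonneg_right (pow_le_pow_right₀ one_le_two hj) (by positivity)

lemma comp {V Q : Set F} {φ : F → G} (hU : IsOpen U) (hV : IsOpen V) (hQ : IsCompact Q)
    (hQV : Q ⊆ V) (hφ : ContDiffOn ℝ ∞ φ V) (hf : UB k U f) (hm : ∀ i, ∀ x ∈ U, f i x ∈ Q) :
    UB k U fun i x => φ (f i x) := by
  obtain ⟨A, A1, hA⟩ := bd0 hf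
  choose B hB using fun j => hQ.exists_bound_of_continuousOn
    ((hφ.continuousOn_iteratedFDerivWithin (le_inf j) hV.uniqueDiffOn).mono hQV)
  have B0 : 0 ≤ ∑ a ∈ Finset.range (k + 1), |B a| := Finset.sum_nonneg fun _ _ => abs_nonneg _
  refine ⟨fun i => hφ.comp (hf.sm i) fun x hx => hQV (hm i x hx),
    k.factorial * (∑ a ∈ Finset.range (k + 1), |B a|) * A ^ k, fun i j hj x hx => ?_⟩
  rw [← iteratedFDerivWithin_of_isOpen j hU hx]
  refine (norm_iteratedFDerivWithin_comp_le hφ (hf.sm i) (le_inf j) hV.uniqueDiffOn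
    hU.uniqueDiffOn (fun x hx => hQV (hm i x hx)) hx
    (C := ∑ a ∈ Finset.range (k + 1), |B a|) (D := A) (fun a ha => ?_) fun a a1 ha => ?_).trans ?_
  · exact (hB a _ (hm i x hx)).trans ((le_abs_self _).trans (Finset.single_le_sum
      (f := fun a => |B a|) (fun _ _ => abs_nonneg _) (Finset.mem_range.2 (by omega))))
  · rw [iteratedFDerivWithin_of_isOpen _ hU hx]
    exact (hA i a (ha.trans hj) x hx).trans (le_self_pow₀ A1 (by omega))
  · gcongr

lemma der (hU : IsOpen U) (hf : UB (k + 1) U f) : UB k U fun i => fderiv ℝ (f i) :=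
  ⟨fun i => (hf.sm i).fderiv_of_isOpen hU le_rfl, hf.bd.imp fun _ hC i j hj x hx => by
    rw [norm_iteratedFDeriv_fderiv]
    exact hC i _ (by omega) x hx⟩

lemma of_der {C : ℝ} (hs : ∀ i, ContDiffOn ℝ ∞ (f i) U) (h0 : ∀ i, ∀ x ∈ U, ‖f i x‖ ≤ C)
    (hf : UB k U fun i => fderiv ℝ (f i)) : UB k U f := by
  obtain ⟨A, hA⟩ := hf.bd
  refine ⟨hs, max C A, fun i j hj x hx => ?_⟩
  cases j with
  | zero => exact le_max_of_le_left (norm_iteratedFDeriv_zero.trans_le (h0 i x hx))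
  | succ j =>
    exact le_max_of_le_right (norm_iteratedFDeriv_fderiv.symm.trans_le (hA i j (by omega) x hx))

lemma aff {R : ℝ} {Q : Set E} {p : ι → E} {s : ι → ℝ}
    (h : ∀ i, 0 < s i ∧ s i ≤ 1 ∧ ball (p i) (R * s i) ⊆ Q) (i : ι) :
    ∀ y ∈ ball (0 : E) R, p i + s i • y ∈ Q := fun y hy => (h i).2.2 (by
  rw [mem_ball, dist_self_add_left, norm_smul, Real.norm_of_nonneg (h i).1.le, mul_comm]
  exact mul_lt_mul_of_pos_right (mem_ball_zero_iff.1 hy) (h i).1)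

lemma scale1 {R : ℝ} {V Q : Set E} {φ : E → F} {p : ι → E} {s : ι → ℝ} (hV : IsOpen V)
    (hQ : IsCompact Q) (hQV : Q ⊆ V) (hφ : ContDiffOn ℝ ∞ φ V)
    (h : ∀ i, 0 < s i ∧ s i ≤ 1 ∧ ball (p i) (R * s i) ⊆ Q) :
    UB k (ball 0 R) fun i y => φ (p i + s i • y) := by
  obtain ⟨C, hC⟩ := hQ.isBounded.exists_norm_le
  refine comp isOpen_ball hV hQ hQV hφ (of_der (fun i => by fun_prop)
    (fun i y hy => hC _ (aff h i y hy)) (congr isOpen_ball
      (const (c := fun i => s i • ContinuousLinearMap.id ℝ E) (C := 1) fun i => ?_)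
        fun i y _ => ?_)) (aff h)
  · rw [norm_smul, Real.norm_of_nonneg (h i).1.le]
    exact mul_le_one₀ (h i).2.1 (norm_nonneg _) ContinuousLinearMap.norm_id_le
  · exact (((hasFDerivAt_id y).const_smul (s i)).const_add (p i)).fderiv.symm

lemma scale2 {R : ℝ} {V Q : Set E} {φ : E → F} {p : ι → E} {s : ι → ℝ} (hV : IsOpen V)
    (hQ : IsCompact Q) (hQV : Q ⊆ V) (hφ : ContDiffOn ℝ ∞ φ V)
    (h : ∀ i, 0 < s i ∧ s i ≤ 1 ∧ ball (p i) (R * s i) ⊆ Q) :
    UB k (ball 0 R) fun i y => (s i)⁻¹ • (φ (p i + s i • y) - φ (p i)) := by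
  have h1 : UB k (ball 0 R) fun i y => fderiv ℝ φ (p i + s i • y) :=
    scale1 hV hQ hQV (hφ.fderiv_of_isOpen hV le_rfl) h
  have hd : ∀ i, ∀ y ∈ ball (0 : E) R, HasFDerivAt
      (fun y => (s i)⁻¹ • (φ (p i + s i • y) - φ (p i))) (fderiv ℝ φ (p i + s i • y)) y :=
    fun i y hy => by
    have h2 := ((hφ.contDiffAt (hV.mem_nhds (hQV (aff h i y hy)))).differentiableAt
      (by simp)).hasFDerivAt.comp y (((hasFDerivAt_id y).const_smul (s i)).const_add (p i))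
    refine ((h2.sub_const (φ (p i))).const_smul (s i)⁻¹).congr_fderiv ?_
    ext v
    simp [smul_smul, inv_mul_cancel₀ (h i).1.ne']
  obtain ⟨C, C1, hC⟩ := bd0 h1
  refine of_der (C := C * R) (fun i => (((scale1 (k := 0) hV hQ hQV hφ h).sm i).sub
    contDiffOn_const).const_smul _) (fun i y hy => ?_)
    (congr isOpen_ball h1 fun i y hy => (hd i y hy).fderiv.symm)
  have h3 := (convex_ball (0 : E) R).norm_image_sub_le_of_norm_hasFDerivWithin_le
    (fun y hy => (hd i y hy).hasFDerivWithinAt)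
    (fun y hy => norm_iteratedFDeriv_zero.symm.trans_le (hC i 0 k.zero_le y hy))
    (mem_ball_self (pos_of_mem_ball hy)) hy
  simp only [smul_zero, add_zero, sub_self, sub_zero] at h3
  exact h3.trans (mul_le_mul_of_nonneg_left (mem_ball_zero_iff.1 hy).le (by positivity))

lemma lip (hU : IsOpen U) (hc : Convex ℝ U) (hf : UB 1 U f) : ∃ C : ℝ, 0 ≤ C ∧ ∀ i, ∀ x ∈ U,
    ‖f i x‖ ≤ C ∧ ∀ y ∈ U, ‖f i x - f i y‖ ≤ C * ‖x - y‖ := by
  obtain ⟨C, C1, hC⟩ := bd0 hf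
  exact ⟨C, by positivity, fun i x hx => ⟨norm_iteratedFDeriv_zero.symm.trans_le
    (hC i 0 zero_le_one x hx), fun y hy => hc.norm_image_sub_le_of_norm_fderiv_le
      (fun z hz => ((hf.sm i).contDiffAt (hU.mem_nhds hz)).differentiableAt (by simp))
      (fun z hz => (norm_iteratedFDeriv_one _).symm.trans_le (hC i 1 le_rfl z hz)) hy hx⟩⟩

end Ubc

theorem ubc : UBC E where
  mono _ _ _ _ _ _ _ _ := Ubc.mono
  congr _ _ _ _ _ _ _ _ := Ubc.congr
  const _ _ _ _ _ _ _ _ := Ubc.const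
  add _ _ _ _ _ _ _ _ := Ubc.add
  bilin _ _ _ _ _ _ _ _ _ _ L _ _ _ _ := Ubc.bilin L
  comp _ _ _ _ _ _ _ _ _ _ _ _ _ := Ubc.comp
  der _ _ _ _ _ _ _ := Ubc.der
  scale _ _ _ _ _ _ _ _ _ _ _ h1 h2 h3 h4 h5 :=
    ⟨Ubc.scale1 h1 h2 h3 h4 h5, Ubc.scale2 h1 h2 h3 h4 h5⟩
  lip _ _ _ _ _ _ := Ubc.lip

end Vale.Agent.P253W.FP
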