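import Vale.Agent.P253W.FP.Pb
import Vale.Agent.P272.K.N.Interp

/-!
# P253W, block FP: limits of solutions along an ultrafilter
-/

set_option maxSynthPendingDepth 3

open Set Metric Filter Topology
open Vale.Agent.P272.K.R (Hol Bil D2)
open Vale.Agent.P272.K.LIN (Jet jet)

noncomputable section

namespace Vale.Agent.P253W.FP

namespace Ulim

variable {E : Type} [NormedAddCommGroup E] [NormedSpace ℝ E]

/-- a small power -/
theorem exists_rpow_le {β : ℝ} (hβ : 0 < β) (K : ℝ) {η r : ℝ} (hη : 0 < η) (hr : 0 < r) :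
    ∃ h, 0 < h ∧ h ≤ r ∧ ∀ s, 0 ≤ s → s ≤ h → K * s ^ β ≤ η := by
  have h1 : Tendsto (fun t : ℝ => |K| * t ^ β) (𝓝[>] 0) (𝓝 (|K| * 0)) := by
    refine Tendsto.const_mul _ ?_
    have h2 := (Real.continuousAt_rpow_const 0 β (Or.inr hβ.le)).tendsto
    rw [Real.zero_rpow hβ.ne'] at h2
    exact h2.mono_left nhdsWithin_le_nhds
  rw [mul_zero] at h1
  have h6 : ∀ᶠ t : ℝ in 𝓝[>] 0, t < r := nhdsWithin_le_nhds (gt_mem_nhds hr)
  obtain ⟨t, ⟨h3, h4⟩, h8⟩ := (((h1.eventually (gt_mem_nhds hη)).and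
    self_mem_nhdsWithin).and h6).exists
  refine ⟨t, h4, h8.le, fun s hs hst => ?_⟩
  have h5 : s ^ β ≤ t ^ β := Real.rpow_le_rpow hs hst hβ.le
  have h7 : 0 ≤ s ^ β := Real.rpow_nonneg hs _
  calc K * s ^ β ≤ |K| * s ^ β := mul_le_mul_of_nonneg_right (le_abs_self K) h7
    _ ≤ |K| * t ^ β := mul_le_mul_of_nonneg_left h5 (abs_nonneg K)
    _ ≤ η := h3.le

/-- derivatives pass to the limit under a uniform modulus at the point -/
theorem lim_deriv {ι G : Type} [NormedAddCommGroup G] [NormedSpace ℝ G] {l : Filter ι} [l.NeBot]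
    {f : ι → E → G} {f' : ι → E → E →L[ℝ] G} {g : E → G} {g' : E →L[ℝ] G} {x : E} {r K β : ℝ}
    (hr : 0 < r) (hβ : 0 < β)
    (hf : ∀ᶠ k in l, ∀ y ∈ ball x r, HasFDerivAt (f k) (f' k y) y ∧
      ‖f' k y - f' k x‖ ≤ K * ‖y - x‖ ^ β)
    (hg : ∀ y ∈ ball x r, Tendsto (fun k => f k y) l (𝓝 (g y)))
    (hg' : Tendsto (fun k => f' k x) l (𝓝 g')) : HasFDerivAt g g' x := by
  rw [hasFDerivAt_iff_isLittleO, Asymptotics.isLittleO_iff]
  intro η hη
  obtain ⟨h, hh0, hhr, hh⟩ := exists_rpow_le hβ K hη hr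
  filter_upwards [ball_mem_nhds x hh0] with y hy
  have hx : x ∈ ball x h := mem_ball_self hh0
  have hsub : ball x h ⊆ ball x r := ball_subset_ball hhr
  have h1 : Tendsto (fun k => ‖f k y - f k x - f' k x (y - x)‖) l
      (𝓝 ‖g y - g x - g' (y - x)‖) := by
    refine Tendsto.norm (((hg y (hsub hy)).sub (hg x (hsub hx))).sub ?_)
    exact ((ContinuousLinearMap.apply ℝ G (y - x)).continuous.tendsto g').comp hg'
  refine le_of_tendsto h1 ?_
  filter_upwards [hf] with k hk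
  refine (convex_ball x h).norm_image_sub_le_of_norm_hasFDerivWithin_le'
    (𝕜 := ℝ) (f := f k) (f' := f' k) (φ := f' k x) (C := η)
    (fun z hz => (hk z (hsub hz)).1.hasFDerivWithinAt) (fun z hz => ?_) hx hy
  refine (hk z (hsub hz)).2.trans (hh _ (norm_nonneg _) ?_)
  exact (mem_ball_iff_norm.1 hz).le

/-- bounds for the jets at a point -/
theorem bound {U : Set E} (hU : IsOpen U) {f : E → ℝ} {α M ε h : ℝ} {x : E} (hα : 0 < α)
    (hM : 0 ≤ M) (hh : 0 < h) (hx : closedBall x h ⊆ U) (hf : ContDiffOn ℝ 2 f U)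
    (hH : Hol α M (D2 f) U) (hε : ∀ y ∈ U, |f y| ≤ ε) :
    ‖fderiv ℝ f x‖ ≤ h * (4 * ε / h ^ 2 + 2 * M * h ^ α) ∧
      ‖D2 f x‖ ≤ 2 * (4 * ε / h ^ 2 + 2 * M * h ^ α) :=
  Vale.Agent.P272.K.N.bound_at hh hM hα.le
    (fun _ hy => hf.contDiffAt (hU.mem_nhds (hx hy)))
    (fun y hy => hH y (hx hy) x (hx (mem_closedBall_self hh.le))) fun y hy => hε y (hx hy)

omit [NormedSpace ℝ E] in
theorem exists_ball {U : Set E} (hU : IsOpen U) {x : E} (hx : x ∈ U) :
    ∃ r > 0, ∀ y ∈ ball x r, closedBall y r ⊆ U := by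
  obtain ⟨r, hr, h⟩ := Metric.isOpen_iff.1 hU x hx
  refine ⟨r / 2, by positivity, fun y hy z hz => h ?_⟩
  rw [mem_ball] at hy ⊢
  rw [mem_closedBall] at hz
  linarith [dist_triangle z y x]

/-- the limit at a fixed time -/
theorem spatial [FiniteDimensional ℝ E] {ι : Type} (𝒰 : Ultrafilter ι) {U : Set E}
    (hU : IsOpen U) {α C : ℝ} (hα : 0 < α) {w : ι → E → ℝ} {v : E → ℝ}
    (hv : ∀ x ∈ U, Tendsto (fun k => w k x) 𝒰 (𝓝 (v x)))
    (hw : ∀ᶠ k in 𝒰, ContDiffOn ℝ 2 (w k) U ∧ Hol α C (D2 (w k)) U ∧ ∀ x ∈ U, |w k x| ≤ C) :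
    ContDiffOn ℝ 2 v U ∧ Hol α C (D2 v) U ∧
      ∀ x ∈ U, Tendsto (fun k => jet (w k) x) 𝒰 (𝓝 (jet v x)) := by
  have hC : ∀ x ∈ U, 0 ≤ C := fun x hx => by
    obtain ⟨k, hk⟩ := hw.exists
    exact (abs_nonneg _).trans (hk.2.2 x hx)
  have hex : ∀ x, ∃ q : (E →L[ℝ] ℝ) × Bil E, x ∈ U →
      Tendsto (fun k => fderiv ℝ (w k) x) 𝒰 (𝓝 q.1) ∧
        Tendsto (fun k => D2 (w k) x) 𝒰 (𝓝 q.2) := by
    intro x
    by_cases hx : x ∈ U
    swap
    · exact ⟨0, fun h => absurd h hx⟩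
    obtain ⟨r, hr, hb⟩ := exists_ball hU hx
    have : ProperSpace (E →L[ℝ] ℝ) := FiniteDimensional.proper_real _
    have : ProperSpace (Bil E) := FiniteDimensional.proper_real _
    have h1 := hw.mono fun k hk =>
      bound hU hα (hC x hx) hr (hb x (mem_ball_self hr)) hk.1 hk.2.1 hk.2.2
    obtain ⟨p, -, hp⟩ := (isCompact_closedBall (0 : E →L[ℝ] ℝ)
      (r * (4 * C / r ^ 2 + 2 * C * r ^ α))).ultrafilter_le_nhds'
      (𝒰.map fun k => fderiv ℝ (w k) x) (h1.mono fun k hk => mem_closedBall_zero_iff.2 hk.1)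
    obtain ⟨B, -, hB⟩ := (isCompact_closedBall (0 : Bil E)
      (2 * (4 * C / r ^ 2 + 2 * C * r ^ α))).ultrafilter_le_nhds'
      (𝒰.map fun k => D2 (w k) x) (h1.mono fun k hk => mem_closedBall_zero_iff.2 hk.2)
    exact ⟨(p, B), fun _ => ⟨hp, hB⟩⟩
  choose q hq using hex
  have hd1 : ∀ k, ContDiffOn ℝ 2 (w k) U → ∀ y ∈ U, HasFDerivAt (w k) (fderiv ℝ (w k) y) y :=
    fun k hk y hy => ((hk.contDiffAt (hU.mem_nhds hy)).differentiableAt (by simp)).hasFDerivAt
  have hd2 : ∀ k, ContDiffOn ℝ 2 (w k) U → ∀ y ∈ U,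
      HasFDerivAt (fderiv ℝ (w k)) (D2 (w k) y) y := fun k hk y hy =>
    (((hk.contDiffAt (hU.mem_nhds hy)).fderiv_right (m := 1) (by norm_num)).differentiableAt
      (by simp)).hasFDerivAt
  have hA : ∀ x ∈ U, HasFDerivAt v (q x).1 x := by
    intro x hx
    obtain ⟨r, hr, hb⟩ := exists_ball hU hx
    have hs : ball x r ⊆ U := fun y hy => hb y hy (mem_closedBall_self hr.le)
    refine lim_deriv (l := 𝒰) (f := w) (f' := fun k => fderiv ℝ (w k))
      (K := 2 * (4 * C / r ^ 2 + 2 * C * r ^ α)) hr one_pos ?_ (fun y hy => hv y (hs hy))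
      (hq x hx).1
    filter_upwards [hw] with k hk y hy
    refine ⟨hd1 k hk.1 y (hs hy), ?_⟩
    rw [Real.rpow_one]
    exact (convex_ball x r).norm_image_sub_le_of_norm_hasFDerivWithin_le (𝕜 := ℝ)
      (fun z hz => (hd2 k hk.1 z (hs hz)).hasFDerivWithinAt)
      (fun z hz => (bound hU hα (hC x hx) hr (hb z hz) hk.1 hk.2.1 hk.2.2).2)
      (mem_ball_self hr) hy
  have hB : ∀ x ∈ U, HasFDerivAt (fun y => (q y).1) (q x).2 x := by
    intro x hx
    obtain ⟨r, hr, hb⟩ := exists_ball hU hx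
    have hs : ball x r ⊆ U := fun y hy => hb y hy (mem_closedBall_self hr.le)
    refine lim_deriv (l := 𝒰) (f := fun k => fderiv ℝ (w k)) (f' := fun k => D2 (w k))
      (K := C) hr hα ?_ (fun y hy => (hq y (hs hy)).1) (hq x hx).2
    filter_upwards [hw] with k hk y hy
    exact ⟨hd2 k hk.1 y (hs hy), hk.2.1 y (hs hy) x hx⟩
  have e1 : ∀ x ∈ U, fderiv ℝ v x = (q x).1 := fun x hx => (hA x hx).fderiv
  have hB' : ∀ x ∈ U, HasFDerivAt (fderiv ℝ v) (q x).2 x := fun x hx =>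
    (hB x hx).congr_of_eventuallyEq (by filter_upwards [hU.mem_nhds hx] with y hy using e1 y hy)
  have e2 : ∀ x ∈ U, D2 v x = (q x).2 := fun x hx => (hB' x hx).fderiv
  have hH : Hol α C (D2 v) U := by
    intro x hx y hy
    rw [e2 x hx, e2 y hy]
    refine le_of_tendsto (((hq x hx).2.sub (hq y hy).2).norm) ?_
    filter_upwards [hw] with k hk using hk.2.1 x hx y hy
  refine ⟨?_, hH, fun x hx => ?_⟩
  · have h2 : (2 : WithTop ℕ∞) = 1 + 1 := by norm_num
    have h1 : (1 : WithTop ℕ∞) = 0 + 1 := by norm_num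
    rw [h2, contDiffOn_succ_iff_fderiv_of_isOpen hU]
    refine ⟨fun x hx => (hA x hx).differentiableAt.differentiableWithinAt, by simp, ?_⟩
    rw [h1, contDiffOn_succ_iff_fderiv_of_isOpen hU]
    refine ⟨fun x hx => (hB' x hx).differentiableAt.differentiableWithinAt, by simp, ?_⟩
    exact contDiffOn_zero.2 (hH.continuousOn hα)
  · have h1 := (hq x hx).1
    have h2 := (hq x hx).2
    rw [← e1 x hx] at h1
    rw [← e2 x hx] at h2
    exact (hv x hx).prodMk_nhds (h1.prodMk_nhds h2)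

/-- two functions which are close have close jets -/
theorem close {α C η r : ℝ} (hα : 0 < α) (hC : 0 ≤ C) (hη : 0 < η) (hr : 0 < r) :
    ∃ δ > 0, ∀ (U : Set E) (f g : E → ℝ) (x : E), IsOpen U → closedBall x r ⊆ U →
      ContDiffOn ℝ 2 f U → ContDiffOn ℝ 2 g U → Hol α C (D2 f) U → Hol α C (D2 g) U →
      (∀ y ∈ U, |f y - g y| ≤ δ) → ‖jet f x - jet g x‖ ≤ η := by
  obtain ⟨h, hh0, hhr, hh⟩ := exists_rpow_le hα (2 * (C + C)) (η := η / 4) (by positivity)
    (lt_min hr one_pos)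
  have hh1 : h ≤ 1 := hhr.trans (min_le_right _ _)
  have hh2 : h ≤ r := hhr.trans (min_le_left _ _)
  refine ⟨min η (η * h ^ 2 / 16), by positivity, fun U f g x hU hx hf hg hHf hHg hs => ?_⟩
  have hxU : x ∈ U := hx (mem_closedBall_self hr.le)
  have e1 : ∀ y ∈ U, fderiv ℝ (fun z => f z - g z) y = fderiv ℝ f y - fderiv ℝ g y :=
    fun y hy => fderiv_fun_sub ((hf.contDiffAt (hU.mem_nhds hy)).differentiableAt (by simp))
      ((hg.contDiffAt (hU.mem_nhds hy)).differentiableAt (by simp))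
  have e2 : ∀ y ∈ U, D2 (fun z => f z - g z) y = D2 f y - D2 g y := by
    intro y hy
    have h1 : fderiv ℝ (fun z => f z - g z) =ᶠ[𝓝 y] fun z => fderiv ℝ f z - fderiv ℝ g z := by
      filter_upwards [hU.mem_nhds hy] with z hz using e1 z hz
    refine h1.fderiv_eq.trans (fderiv_fun_sub ?_ ?_)
    · exact ((hf.contDiffAt (hU.mem_nhds hy)).fderiv_right (m := 1)
        (by norm_num)).differentiableAt (by simp)
    · exact ((hg.contDiffAt (hU.mem_nhds hy)).fderiv_right (m := 1)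
        (by norm_num)).differentiableAt (by simp)
  have hH : Hol α (C + C) (D2 fun z => f z - g z) U :=
    (hHf.sub hHg).congr fun y hy => (e2 y hy).symm
  obtain ⟨h1, h2⟩ := bound hU hα (by positivity) hh0
    ((closedBall_subset_closedBall hh2).trans hx) (hf.sub hg) hH hs
  rw [e1 x hxU] at h1
  rw [e2 x hxU] at h2
  have h3 : 4 * min η (η * h ^ 2 / 16) / h ^ 2 ≤ η / 4 := by
    rw [div_le_iff₀ (by positivity)]
    linarith [min_le_right η (η * h ^ 2 / 16)]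
  have h4 := hh h hh0.le le_rfl
  have h5 : 0 ≤ 4 * min η (η * h ^ 2 / 16) / h ^ 2 + 2 * (C + C) * h ^ α := by positivity
  have h6 := mul_le_mul_of_nonneg_right hh1 h5
  simp only [jet, Prod.norm_def, Prod.fst_sub, Prod.snd_sub]
  refine max_le ((hs x hxU).trans (min_le_left _ _)) (max_le ?_ ?_)
  · linarith
  · exact h2.trans (by linarith)

theorem exists_delta {C δ : ℝ} (hC : 0 ≤ C) (hδ : 0 < δ) :
    ∃ τ > 0, ∀ s, |s| ≤ τ → C * |s| ≤ δ := by
  refine ⟨δ / (C + 1), by positivity, fun s hs => ?_⟩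
  rw [le_div_iff₀ (by positivity)] at hs
  nlinarith [abs_nonneg s]

end Ulim

open Ulim

theorem ulim {E : Type} [NormedAddCommGroup E] [NormedSpace ℝ E] [FiniteDimensional ℝ E] :
    ULIM E := by
  intro α T C ι 𝒰 U W F w v hα _ hT hU hW hF hv hw
  have hsp := fun t (ht : t ∈ Icc 0 T) => spatial 𝒰 hU hα (w := fun k => w k t) (v := v t)
    (hv t ht) (hw.mono fun k hk => ⟨hk.1.c2 t ht, (hk.2 t ht).1,
      fun x hx => ((hk.2 t ht).2 x hx).2.1⟩)
  have hC : ∀ x ∈ U, 0 ≤ C := fun x hx => by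
    obtain ⟨k, hk⟩ := hw.exists
    exact (abs_nonneg _).trans ((hk.2 0 ⟨le_rfl, hT⟩).2 x hx).2.1
  have hmem : ∀ t ∈ Icc 0 T, ∀ x ∈ U, (t, x, jet (v t) x) ∈ W := fun t ht x hx =>
    hW.mem_of_tendsto (tendsto_const_nhds.prodMk_nhds
      (tendsto_const_nhds.prodMk_nhds ((hsp t ht).2.2 x hx)))
      (hw.mono fun k hk => ((hk.2 t ht).2 x hx).1)
  have hlip : ∀ᶠ k in 𝒰, ∀ t ∈ Icc 0 T, ∀ s ∈ Icc 0 T, ∀ x ∈ U,
      |w k t x - w k s x| ≤ C * |t - s| := by
    filter_upwards [hw] with k hk t ht s hs x hx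
    exact (convex_Icc 0 T).norm_image_sub_le_of_norm_hasDerivWithin_le
      (fun t ht => hk.1.dt t ht x hx) (fun t ht => ((hk.2 t ht).2 x hx).2.2) hs ht
  have hlipv : ∀ t ∈ Icc 0 T, ∀ s ∈ Icc 0 T, ∀ x ∈ U, |v t x - v s x| ≤ C * |t - s| := by
    intro t ht s hs x hx
    refine le_of_tendsto ((hv t ht x hx).sub (hv s hs x hx)).abs ?_
    filter_upwards [hlip] with k hk using hk t ht s hs x hx
  refine ⟨⟨fun t ht => (hsp t ht).1, ?_, fun t ht x hx => ?_⟩,
    fun t ht => ⟨(hsp t ht).2.1, fun x hx => ⟨hmem t ht x hx, (hsp t ht).2.2 x hx⟩⟩⟩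
  · rintro ⟨t, x⟩ ⟨ht, hx⟩
    obtain ⟨r, hr, hb⟩ := exists_ball hU hx
    have hc : ContinuousAt (jet (v t)) x :=
      (Vale.Agent.P272.K.LIN.contDiffAt_jet (k := 0)
        (by simpa using (hsp t ht).1.contDiffAt (hU.mem_nhds hx))).continuousAt
    have hc' : Tendsto (fun q : ℝ × E => jet (v t) q.2) (𝓝[Icc 0 T ×ˢ U] (t, x))
        (𝓝 (jet (v t) x)) :=
      (hc.tendsto.comp (continuous_snd.tendsto (t, x))).mono_left nhdsWithin_le_nhds
    have h0 : Tendsto (fun q : ℝ × E => jet (v q.1) q.2 - jet (v t) q.2)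
        (𝓝[Icc 0 T ×ˢ U] (t, x)) (𝓝 0) := by
      rw [NormedAddGroup.tendsto_nhds_zero]
      intro η hη
      obtain ⟨δ, hδ, hcl⟩ := close (E := E) hα (hC x hx) (half_pos hη) hr
      obtain ⟨τ, hτ, hτ'⟩ := exists_delta (hC x hx) hδ
      filter_upwards [self_mem_nhdsWithin, mem_nhdsWithin_of_mem_nhds
        (prod_mem_nhds (closedBall_mem_nhds t hτ) (ball_mem_nhds x hr))] with q h1 h2
      refine lt_of_le_of_lt (hcl U _ _ _ hU (hb _ h2.2) (hsp _ h1.1).1 (hsp t ht).1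
        (hsp _ h1.1).2.1 (hsp t ht).2.1 fun y hy => ?_) (half_lt_self hη)
      exact (hlipv _ h1.1 t ht y hy).trans (hτ' _ (by simpa [Real.dist_eq] using h2.1))
    have h1 := h0.add hc'
    simpa [ContinuousWithinAt] using h1
  · obtain ⟨r, hr, hb⟩ := exists_ball hU hx
    rw [hasDerivWithinAt_iff_isLittleO, Asymptotics.isLittleO_iff]
    intro η hη
    obtain ⟨ρ, hρ, hFρ⟩ := Metric.continuousWithinAt_iff.1 (hF _ (hmem t ht x hx)) η hη
    obtain ⟨δ, hδ, hcl⟩ := close (E := E) hα (hC x hx) (half_pos hρ) hr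
    obtain ⟨τ, hτ, hτ'⟩ := exists_delta (hC x hx) hδ
    filter_upwards [self_mem_nhdsWithin, mem_nhdsWithin_of_mem_nhds
      (ball_mem_nhds t (lt_min hτ hρ))] with s hs hs'
    have h1 : Tendsto (fun k => ‖w k s x - w k t x - (s - t) • F (t, x, jet (v t) x)‖) 𝒰
        (𝓝 ‖v s x - v t x - (s - t) • F (t, x, jet (v t) x)‖) :=
      (((hv s hs x hx).sub (hv t ht x hx)).sub tendsto_const_nhds).norm
    refine le_of_tendsto h1 ?_
    filter_upwards [hw, hlip, Metric.tendsto_nhds.1 ((hsp t ht).2.2 x hx) _ (half_pos hρ)]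
      with k hk hkl hkj
    have h2 := ((convex_Icc 0 T).inter
      (convex_ball t (min τ ρ))).norm_image_sub_le_of_norm_hasDerivWithin_le
      (f := fun s => w k s x - s * F (t, x, jet (v t) x))
      (f' := fun s => F (s, x, jet (w k s) x) - F (t, x, jet (v t) x)) (C := η)
      (fun s hs => by
        have h3 := ((hk.1.dt s hs.1 x hx).mono
          (inter_subset_left (t := ball t (min τ ρ)))).sub
          ((hasDerivAt_id s).mul_const (F (t, x, jet (v t) x))).hasDerivWithinAt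
        rw [one_mul] at h3
        exact h3)
      (fun s hs => by
        rw [← dist_eq_norm]
        refine (hFρ ((hk.2 s hs.1).2 x hx).1 ?_).le
        have h3 : dist s t < min τ ρ := hs.2
        have h4 := hcl U _ _ x hU (hb x (mem_ball_self hr)) (hk.1.c2 s hs.1) (hk.1.c2 t ht)
          (hk.2 s hs.1).1 (hk.2 t ht).1 fun y hy => (hkl s hs.1 t ht y hy).trans
            (hτ' _ (by rw [← Real.dist_eq]; exact h3.le.trans (min_le_left _ _)))
        rw [← dist_eq_norm] at h4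
        rw [Prod.dist_eq, Prod.dist_eq]
        refine max_lt (h3.trans_le (min_le_right _ _)) (max_lt (by simpa using hρ) ?_)
        have h5 := dist_triangle (jet (w k s) x) (jet (w k t) x) (jet (v t) x)
        dsimp only
        linarith)
      ⟨ht, mem_ball_self (lt_min hτ hρ)⟩ ⟨hs, hs'⟩
    refine le_trans (le_of_eq ?_) h2
    congr 1
    simp only [smul_eq_mul]
    ring

end Vale.Agent.P253W.FP
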