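import Vale.Agent.P253W.FP.MDefs
import Vale.Agent.P272.K.AMP.Calc

/-!
# P253W, block FP: weighted bounds for the background, the weighted estimate of Calabi
-/

set_option maxSynthPendingDepth 3

open scoped Manifold ContDiff Bundle Topology ComplexConjugate ComplexOrder Matrix
open Bundle Set Metric Filter Vale.Agent.P253Z Vale.Agent.P272.K

noncomputable section

namespace Vale.Agent.P253W.FP

namespace W1r

variable {n : ℕ}

theorem psd_r {A : Mx n} (h : A.PosSemidef) {c : ℝ} (hc : 0 ≤ c) : ((c : ℂ) • A).PosSemidef :=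
  h.smul (Complex.zero_le_real.2 hc)

theorem lo {G H : Mx n} {a b c l m : ℝ} (h1 : (G - (c : ℂ) • (b : ℂ) • H).PosSemidef)
    (h2 : (H - (l : ℂ) • (1 : Mx n)).PosSemidef) (ha : 0 ≤ a) (hb : 0 ≤ c * (a * b))
    (hm : m ≤ c * (a * b) * l) : ((a : ℂ) • G - (m : ℂ) • (1 : Mx n)).PosSemidef := by
  convert ((psd_r h1 ha).add (psd_r h2 hb)).add (psd_r .one (sub_nonneg.2 hm)) using 1
  push_cast
  module

theorem hi {G H : Mx n} {a b c l m : ℝ} (h1 : ((c : ℂ) • (b : ℂ) • H - G).PosSemidef)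
    (h2 : ((l : ℂ) • (1 : Mx n) - H).PosSemidef) (h3 : H.PosSemidef) (ha : 0 ≤ a) (hb : 0 ≤ a * b)
    (hm : |c| * (a * b) * l ≤ m) : ((m : ℂ) • (1 : Mx n) - (a : ℂ) • G).PosSemidef := by
  convert (((psd_r h1 ha).add (psd_r h2 (mul_nonneg (abs_nonneg c) hb))).add (psd_r h3 (mul_nonneg
    (sub_nonneg.2 (le_abs_self c)) hb))).add (psd_r .one (sub_nonneg.2 hm)) using 1
  push_cast
  module

theorem qm_mono {a : Pm n} {l m : ℝ} (h : a ∈ QM n l) (hl : 0 < l) (hm : l ≤ m) : a ∈ QM n m := by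
  refine ⟨?_, ?_⟩
  · convert h.1.add (psd_r .one (sub_nonneg.2 (inv_anti₀ hl hm))) using 1
    push_cast
    module
  · convert h.2.add (psd_r .one (sub_nonneg.2 hm)) using 1
    push_cast
    module

theorem wt {u : Cm n → ℝ} {ρ : Cm n → ℂ} {Q : Set (Cm n)} (hQ : IsCompact Q)
    (hu : ∀ z ∈ Q, ContDiffAt ℝ 1 u z) (hρ : ∀ z ∈ Q, ContDiffAt ℝ 1 ρ z) :
    ∃ C, ∀ z ∈ Q, 0 < u z → ∀ g : Cm n → ℂ, DifferentiableAt ℝ g z →
      (fun y => u y ^ 2 • g y) =ᶠ[𝓝 z] ρ →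
        u z ^ 2 * ‖g z‖ ≤ C ∧ u z ^ 3 * ‖fderiv ℝ g z‖ ≤ C := by
  obtain ⟨C, hC⟩ := hQ.bddAbove_image (f := fun z => ‖ρ z‖ + (‖u z‖ * ‖fderiv ℝ ρ z‖ +
    2 * ‖fderiv ℝ u z‖ * ‖ρ z‖)) fun z hz => by
      have h1 := (hu z hz).continuousAt
      have h2 := (hρ z hz).continuousAt
      have h3 := (hu z hz).continuousAt_fderiv one_ne_zero
      have h4 := (hρ z hz).continuousAt_fderiv one_ne_zero
      exact ContinuousAt.continuousWithinAt (by fun_prop)
  refine ⟨C, fun z hz h0 g hg e => ?_⟩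
  have h1 := hC (mem_image_of_mem _ hz)
  have h2 : ‖ρ z‖ = u z ^ 2 * ‖g z‖ := by rw [← e.self_of_nhds, norm_smul]; simp
  have h3 := ((((hu z hz).differentiableAt one_ne_zero).hasFDerivAt.pow 2).smul
    hg.hasFDerivAt).fderiv
  have h4 := norm_sub_le (fderiv ℝ ρ z) (((2 • u z ^ (2 - 1)) • fderiv ℝ u z).smulRight (g z))
  rw [← eq_sub_of_add_eq (h3.symm.trans e.fderiv_eq), norm_smul,
    ContinuousLinearMap.norm_smulRight_apply, norm_smul] at h4
  simp only [Real.norm_eq_abs, abs_pow, abs_of_pos h0, Nat.add_one_sub_one, pow_one,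
    nsmul_eq_mul, abs_mul, Nat.cast_ofNat, abs_two] at h1 h4
  have h5 := mul_le_mul_of_nonneg_left h4 h0.le
  have h6 : 0 ≤ u z * ‖fderiv ℝ ρ z‖ := by positivity
  have h7 : 0 ≤ 2 * ‖fderiv ℝ u z‖ * ‖ρ z‖ := by positivity
  exact ⟨by linarith, by rw [h2] at h1; nlinarith [mul_nonneg (sq_nonneg (u z)) (norm_nonneg (g z))]⟩

theorem fd_sc (c : ℂ) (s : ℝ) (g : Cm n → ℂ) (z y v : Cm n) :
    fderiv ℝ (fun y => c * g (z + s • y)) y v = c * s * fderiv ℝ g (z + s • y) v := by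
  rw [show (fun y => c * g (z + s • y)) = c • fun y => g (z + s • y) from rfl,
    fderiv_const_smul_field, Pi.smul_apply, fderiv_comp_smul (f := fun w => g (z + w)),
    fderiv_comp_add_left]
  simp [mul_assoc]

theorem dz_sc (a : Fin n) (c : ℂ) (s : ℝ) (g : Cm n → ℂ) (z y : Cm n) :
    dz a (fun y => c * g (z + s • y)) y = c * s * dz a g (z + s • y) := by
  simp only [dz, fd_sc]; ring

theorem cHess_sc (k s : ℝ) (f : Cm n → ℝ) (z y : Cm n) (i j : Fin n) :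
    cHess (fun y => k + f (z + s • y)) y i j = (s ^ 2 : ℝ) * cHess f (z + s • y) i j := by
  have : dzb j (fun y => ((k + f (z + s • y) : ℝ) : ℂ)) =
      fun y => s * dzb j (fun y => (f y : ℂ)) (z + s • y) := funext fun y => by
    have := fd_sc 1 s (fun y => (f y : ℂ)) z y
    simp only [one_mul] at this
    simp only [dzb, Complex.ofReal_add, fderiv_const_add, this]; ring
  rw [cHess_apply, cHess_apply, this, dz_sc]; push_cast; ring

theorem norm_fd {g : Cm n → ℂ} {z : Cm n} {C : ℝ} (h1 : ∀ a, ‖dz a g z‖ ≤ C)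
    (h2 : ∀ a, ‖dzb a g z‖ ≤ C) : ‖fderiv ℝ g z‖ ≤ n * (2 * |C|) := by
  refine ContinuousLinearMap.opNorm_le_bound _ (by positivity) fun v => ?_
  rw [INT.fderiv_apply, mul_assoc]
  refine (norm_sum_le _ _).trans ((Finset.sum_le_card_nsmul _ _ _ fun a _ => ?_).trans_eq (by
    rw [Finset.card_univ, Fintype.card_fin, nsmul_eq_mul]))
  refine (norm_add_le _ _).trans ?_
  rw [norm_mul, norm_mul, RCLike.norm_conj]
  nlinarith [mul_le_mul (norm_le_pi_norm v a) ((h1 a).trans (le_abs_self C)) (norm_nonneg _)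
    (norm_nonneg _), mul_le_mul (norm_le_pi_norm v a) ((h2 a).trans (le_abs_self C))
    (norm_nonneg _) (norm_nonneg _)]

theorem ub_re {ι κ F : Type} [NormedAddCommGroup F] [NormedSpace ℝ F] {k : ℕ} {U : Set (Cm n)}
    {f : ι → Cm n → F} (h : UB k U f) (e : κ → ι) : UB k U fun i => f (e i) :=
  ⟨fun _ => h.sm _, h.bd.imp fun _ hC _ => hC _⟩

theorem ub_mul (hU : UBC (Cm n)) {ι : Type} {k : ℕ} {U : Set (Cm n)} {f : ι → Cm n → ℂ}
    (o : IsOpen U) (h : UB k U f) (c : ℂ) : UB k U fun i y => c * f i y :=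
  hU.bilin ι ℂ ℂ ℂ (ContinuousLinearMap.mul ℝ ℂ) k U _ f o
    (hU.const ι ℂ k U (fun _ => c) _ fun _ => le_rfl) h

theorem ub_dz (hU : UBC (Cm n)) {ι : Type} {k : ℕ} {U : Set (Cm n)} {f : ι → Cm n → ℂ}
    (o : IsOpen U) (h : UB (k + 1) U f) (a : Fin n) : UB k U fun i => dz a (f i) := by
  have h1 (v : Cm n) : UB k U fun i y => fderiv ℝ (f i) y v :=
    hU.bilin ι _ _ ℂ (ContinuousLinearMap.apply ℝ ℂ) k U _ _ o
      (hU.const ι _ k U (fun _ => v) _ fun _ => le_rfl) (hU.der ι ℂ k U f o h)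
  refine hU.congr ι ℂ k U _ _ o (hU.add ι ℂ k U _ _ o (ub_mul hU o (h1 (Pi.single a 1)) 2⁻¹)
    (ub_mul hU o (h1 (Pi.single a Complex.I)) (-Complex.I / 2))) fun i x _ => ?_
  simp only [dz]; ring

variable {M : Type} [MetricSpace M] [ChartedSpace (Cm n) M]
  [RiemannianBundle (fun x : M => TangentSpace 𝓘(ℝ, Cm n) x)]

theorem ex_qm (hb : B1b n M) (hq : MAQ n) {e : Chart n M} (he : Hc e) {Q : Set (Cm n)}
    (hQ : IsCompact Q) (hQe : Q ⊆ e.target) :
    ∃ Λ : ℝ, 1 ≤ Λ ∧ ∀ z ∈ Q, (fun i j => hm e z i j) ∈ QM n Λ := by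
  obtain ⟨Λ, h1, h2⟩ := hq.unif _ (hQ.image_of_continuousOn (f := fun z i j => hm e z i j)
    (continuousOn_pi.2 fun i => continuousOn_pi.2 fun j z hz =>
      (hb.wsm e he z (hQe hz) i j).continuousAt.continuousWithinAt))
    (forall_mem_image.2 fun z hz => hb.wpos e he z (hQe hz))
  exact ⟨Λ, h1, fun z hz => h2 (mem_image_of_mem _ hz)⟩

theorem bg (hb : B1b n M) (hq : MAQ n) (hU : UBC (Cm n)) {σ : M → ℝ} {e : Chart n M}
    {Q : Set (Cm n)} (hσ : Sm n σ) (he : Hc e) (hQ : IsCompact Q) (hQe : Q ⊆ e.target) :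
    ∃ r Λ : ℝ, 0 < r ∧ 1 ≤ Λ ∧ (∀ z ∈ Q, 0 < σ (e.symm z) → ∀ y ∈ ball (0 : Cm n) 2, ∀ w,
      w = z + (r * σ (e.symm z)) • y → (w ∈ e.target ∧ 0 < σ (e.symm w)) ∧
        r / 2 ≤ r * σ (e.symm z) * (σ (e.symm w))⁻¹ ∧
        r * σ (e.symm z) * (σ (e.symm w))⁻¹ ≤ 2 * r ∧ (fun i j => hm e w i j) ∈ QM n Λ) ∧
      ∀ i j, UB 3 (ball 0 2) fun (z : {z // z ∈ Q ∧ 0 < σ (e.symm z)}) y =>
        (((r * σ (e.symm z)) ^ 2 : ℝ) : ℂ) * hh σ e (z + (r * σ (e.symm z)) • y) i j := by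
  have su : ContDiffOn ℝ ∞ (fun y => σ (e.symm y)) e.target := fun z hz =>
    (hσ e he z hz).contDiffWithinAt
  obtain ⟨δ, δ0, hδ⟩ := hQ.exists_cthickening_subset_open e.open_target hQe
  obtain ⟨Λ, Λ1, hΛ⟩ := ex_qm hb hq he (hQ.cthickening (r := δ)) hδ
  have h0 (q : {q : Cm n × ℝ // q.1 ∈ Q ∧ 0 < q.2 ∧ q.2 ≤ 1 ∧ 2 * q.2 ≤ δ}) :
      ball q.1.1 (2 * q.1.2) ⊆ cthickening δ Q := (ball_subset_closedBall.trans
    (closedBall_subset_closedBall q.2.2.2.2)).trans (closedBall_subset_cthickening q.2.1 δ)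
  have hs {F : Type} [NormedAddCommGroup F] [NormedSpace ℝ F] {φ : Cm n → F}
      (h : ContDiffOn ℝ ∞ φ e.target) := hU.scale _ F 3 2 _ _ φ _ _ e.open_target
    (hQ.cthickening (r := δ)) hδ h fun q => ⟨q.2.2.1, q.2.2.2.1, h0 q⟩
  obtain ⟨B, hB⟩ := (hs su).2.bd
  obtain ⟨A, hA⟩ := hQ.bddAbove_image (su.continuousOn.mono hQe)
  have ev (a b : ℝ) (hb : 0 < b) : ∀ᶠ r in 𝓝[>] (0 : ℝ), r * a ≤ b :=
    (((continuous_mul_const a).tendsto' 0 0 (zero_mul _)).eventually_le_const hb).filter_mono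
      nhdsWithin_le_nhds
  obtain ⟨r, ⟨⟨h1, h2⟩, h3⟩, r0 : 0 < r⟩ := ((((ev B _ one_half_pos).and (ev A _ one_pos)).and
    (ev A _ (half_pos δ0))).and self_mem_nhdsWithin).exists
  have h4 (z) (hz : z ∈ Q) : r * σ (e.symm z) ≤ r * A :=
    mul_le_mul_of_nonneg_left (hA (mem_image_of_mem _ hz)) r0.le
  let κ (z : {z // z ∈ Q ∧ 0 < σ (e.symm z)}) :
      {q : Cm n × ℝ // q.1 ∈ Q ∧ 0 < q.2 ∧ q.2 ≤ 1 ∧ 2 * q.2 ≤ δ} :=
    ⟨(z, r * σ (e.symm z)), z.2.1, mul_pos r0 z.2.2, (h4 _ z.2.1).trans h2,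
      by linarith [h4 _ z.2.1]⟩
  have h5 (z) (y) (hy : y ∈ ball (0 : Cm n) 2) :=
    abs_le.1 (norm_iteratedFDeriv_zero.symm.trans_le (hB (κ z) 0 (by simp) y hy))
  have h6 {a b x : ℝ} (ha : 0 < a) (e : x = (r * a)⁻¹ • (b - a)) (h : -B ≤ x ∧ x ≤ B) :
      r * (1 + r * x)⁻¹ = r * a * b⁻¹ ∧ 0 < b ∧ r / 2 ≤ r * a * b⁻¹ ∧ r * a * b⁻¹ ≤ 2 * r := by
    have h6 : b = a * (1 + r * x) := by rw [e, smul_eq_mul]; field_simp; ring
    have h7 : a / 2 ≤ b := by nlinarith [mul_pos ha r0]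
    have h8 : b ≤ 2 * a := by nlinarith [mul_pos ha r0]
    have h9 : 0 < b := by linarith
    refine ⟨by rw [h6, mul_inv, mul_assoc, mul_inv_cancel_left₀ ha.ne'], h9, ?_, ?_⟩
    · rw [le_mul_inv_iff₀ h9]; nlinarith
    · rw [mul_inv_le_iff₀ h9]; nlinarith
  refine ⟨r, Λ, r0, Λ1, fun z hz hz0 y hy w hw => ?_, fun i j => ?_⟩
  · have h7 : w ∈ cthickening δ Q := h0 (κ ⟨z, hz, hz0⟩) (by
      rw [hw, mem_ball_iff_norm, add_sub_cancel_left, norm_smul, mul_comm,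
        Real.norm_of_nonneg (mul_pos r0 hz0).le]
      exact mul_lt_mul_of_pos_right (mem_ball_zero_iff.1 hy) (mul_pos r0 hz0))
    obtain ⟨-, h8, h9, h10⟩ := h6 hz0 rfl (h5 ⟨z, hz, hz0⟩ y hy)
    subst hw
    exact ⟨⟨hδ h7, h8⟩, h9, h10, hΛ _ h7⟩
  · refine hU.congr _ ℂ 3 _ _ _ isOpen_ball (hU.bilin _ ℝ ℂ ℂ (ContinuousLinearMap.lsmul ℝ ℝ) 3 _ _
      _ isOpen_ball (hU.comp _ ℝ ℝ 3 _ {x | 1 + r * x ≠ 0} (Icc (-B) B)
      (fun x => (r * (1 + r * x)⁻¹) ^ 2) _ isOpen_ball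
      (isOpen_ne_fun (by fun_prop) continuous_const) isCompact_Icc
      (fun x hx => (by nlinarith [hx.1] : 0 < 1 + r * x).ne')
      ((contDiffOn_const.mul (.inv (by fun_prop) fun x hx => hx)).pow 2) (ub_re (hs su).2 κ) h5)
      (ub_re (hs fun z hz => (hb.wsm e he z hz i j).contDiffWithinAt).1 κ)) fun z y hy => ?_
    rw [(h6 z.2.2 rfl (h5 z y hy)).1, mul_pow, hh, Matrix.smul_apply, smul_eq_mul, ← mul_assoc,
      ← Complex.ofReal_mul]
    rfl

end W1r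

open W1r

variable {n : ℕ} {M : Type} [MetricSpace M] [ChartedSpace (Cm n) M]
  [RiemannianBundle (fun x : M => TangentSpace 𝓘(ℝ, Cm n) x)]

theorem w0_of (hb : B1b n M) (hu : MU n M) (hq : MAQ n) : W0 n M := fun σ e Q hσ he hQ hQe => by
  obtain ⟨Λ, Λ1, hΛ⟩ := ex_qm hb hq he hQ hQe
  set u := fun y => σ (e.symm y) with hud
  have su (z) (hz : z ∈ e.target) : ContDiffAt ℝ ∞ u z := hσ e he z hz
  have sv (z) (hz : z ∈ e.target) : ContDiffAt ℝ ∞ (fun y => Real.log (vd e y)) z :=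
    (hb.vd_sm e he z hz).log (hb.vd_pos e he z hz).ne'
  have ev (z) (hz : z ∈ Q) (h : 0 < u z) : ∀ᶠ y in 𝓝 z, y ∈ e.target ∧ 0 < u y :=
    (e.open_target.eventually_mem (hQe hz)).and
      (continuousAt_const.eventually_lt (su z (hQe hz)).continuousAt h)
  choose C hC using fun p : Fin n × Fin n => wt (u := u) (ρ := fun y => u y ^ 2 * ric e y p.1 p.2 +
    n * (2 * u y * cHess u y p.1 p.2 - 2 * AMP.gm u u y p.1 p.2)) hQ
    (fun z hz => (su z (hQe hz)).of_le (by simp)) fun z hz => by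
      have h1 := ofReal_contDiffAt (su z (hQe hz))
      exact (((h1.pow 2).mul (contDiffAt_cHess (sv z (hQe hz)).neg le_rfl _ _)).add
        (contDiffAt_const.mul (((contDiffAt_const.mul h1).mul (contDiffAt_cHess (su z (hQe hz))
          le_rfl _ _)).sub (contDiffAt_const.mul ((INT.smooth_dz h1).mul
            (INT.smooth_dzb h1)))))).of_le (by simp)
  obtain ⟨C₁, h1⟩ := (finite_range C).bddAbove
  obtain ⟨C₂, h2⟩ := hQ.bddAbove_image (f := fun z => ‖u z‖ *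
    ‖fderiv ℝ (fun y => Real.log (vd e y)) z‖ + 2 * n * ‖fderiv ℝ u z‖) fun z hz => by
      have h1 := (su z (hQe hz)).continuousAt
      have h3 := (su z (hQe hz)).continuousAt_fderiv (by simp)
      have h4 := (sv z (hQe hz)).continuousAt_fderiv (by simp)
      exact ContinuousAt.continuousWithinAt (by fun_prop)
  refine ⟨max Λ (max C₁ C₂), Λ1.trans (le_max_left _ _), fun z hz h0 => ⟨qm_mono (hΛ z hz)
    (by linarith) (le_max_left _ _), fun i j => ?_⟩⟩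
  have h3 : C (i, j) ≤ max Λ (max C₁ C₂) :=
    (h1 ⟨_, rfl⟩).trans ((le_max_left _ _).trans (le_max_right _ _))
  obtain ⟨h4, h5⟩ := hC (i, j) z hz h0 (fun y => rh σ e y i j)
    ((hu.hh_sm σ hσ e he z (hQe hz) h0 i j).2.differentiableAt (by simp)) (by
      filter_upwards [ev z hz h0] with y hy
      have h6 := AMP.cHess_comp_real (φ := fun x => 2 * Real.log x) (f := u)
        (contDiffAt_const.mul (Real.contDiffAt_log.2 hy.2.ne')) ((su y hy.1).of_le ENat.LEInfty.out)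
      have h7 : deriv (fun x => 2 * Real.log x) = fun x => 2 * x⁻¹ :=
        funext fun x => by rw [deriv_const_mul_field, Real.deriv_log]
      have h8 : (u y : ℂ) ≠ 0 := Complex.ofReal_ne_zero.2 hy.2.ne'
      rw [h7, deriv_const_mul_field, deriv_inv] at h6
      simp only [rh, hs, Matrix.add_apply, Matrix.smul_apply, smul_eq_mul, Complex.real_smul]
      rw [h6]
      simp only [Matrix.add_apply, Matrix.smul_apply, smul_eq_mul]
      push_cast
      field_simp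
      ring)
  refine ⟨h4.trans h3, h5.trans h3, le_trans ?_ ((h2 (mem_image_of_mem _ hz)).trans
    ((le_max_right _ _).trans (le_max_right _ _)))⟩
  change 0 < u z at h0
  have h6 := ((sv z (hQe hz)).differentiableAt (by simp)).hasFDerivAt.sub
    ((((su z (hQe hz)).differentiableAt (by simp)).hasFDerivAt.log h0.ne').const_mul (2 * n))
  rw [(h6.congr_of_eventuallyEq ?_).fderiv]
  · refine (mul_le_mul_of_nonneg_left (norm_sub_le _ _) h0.le).trans_eq ?_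
    rw [norm_smul, norm_smul, Real.norm_of_nonneg (show 0 ≤ u z from h0.le),
      Real.norm_of_nonneg (inv_pos.2 h0).le, Real.norm_of_nonneg (by positivity)]
    have : u z ≠ 0 := h0.ne'
    field_simp
  · filter_upwards [ev z hz h0] with y hy
    rw [hh, Matrix.det_smul, Fintype.card_fin, ← Complex.ofReal_pow, Complex.re_ofReal_mul]
    change Real.log (((u y)⁻¹ ^ 2) ^ n * vd e y) = _
    rw [Real.log_mul (pow_pos (pow_pos (inv_pos.2 hy.2) 2) n).ne' (hb.vd_pos e he y hy.1).ne']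
    simp only [Real.log_pow, Real.log_inv, Pi.sub_apply]
    push_cast
    ring

theorem w1_of (hb : B1b n M) (hu : MU n M) (hq : MAQ n) (hU : UBC (Cm n)) (hc : C3 n) :
    W1 n M := fun σ e Q c₀ C₀ hσ he hQ hQe c0 => by
  obtain ⟨r, Λ, r0, Λ1, h1, h2⟩ := bg hb hq hU hσ he hQ hQe
  have h3 (a i j) := ub_dz hU isOpen_ball (h2 i j) a
  choose C hC using fun p : Fin n × Fin n × Fin n => (hU.add _ ℂ 2 _ _ _ isOpen_ball
    (h3 p.1 p.2.1 p.2.2) (ub_mul hU isOpen_ball (h3 p.2.1 p.1 p.2.2) (-1))).bd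
  choose C' hC' using fun p : Fin n × Fin n × Fin n => (h3 p.1 p.2.1 p.2.2).bd
  obtain ⟨C₁, h4⟩ := ((finite_range C).union (finite_range C')).bddAbove
  obtain ⟨C₂, h5⟩ := hc 1 2 (c₀ * (r / 2) ^ 2 * Λ⁻¹) (|C₀| * (2 * r) ^ 2 * Λ) C₁ one_pos one_lt_two
    (by positivity)
  refine ⟨n * (2 * |C₂|) / r ^ 3, fun T φ T0 hS hB t ht z hz h0 i j => ?_⟩
  have s0 := mul_pos r0 h0
  replace h1 := fun y hy => h1 z hz h0 y hy _ rfl
  replace hC := fun p => hC p ⟨z, hz, h0⟩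
  replace hC' := fun p => hC' p ⟨z, hz, h0⟩ 0 (by simp)
  simp only [norm_iteratedFDeriv_zero] at hC'
  generalize hs : r * σ (e.symm z) = s at s0 h1 hC hC'
  have h6 := h5 0 T (fun t y => ((s ^ 2 : ℝ) : ℂ) • gh σ φ t e (z + s • y)) _ T0
    (fun i j => contDiffOn_const.mul ((hu.gh_sm σ hσ T φ hS.sm e he i j).comp
      (f := fun q : ℝ × Cm n => (q.1, z + s • q.2)) (by fun_prop) fun q hq => ⟨hq.1, (h1 _ hq.2).1⟩))
    (fun t ht y hy => ?_) (fun t ht y hy i j => ?_) (fun t ht y hy a i j => ?_)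
    (fun a i j k hk y hy => (hC (a, i, j) k hk y hy).trans (h4 (.inl ⟨_, rfl⟩)))
    (fun y hy a i j => ?_) t ht 0 (mem_closedBall_self zero_le_one)
  · have h7 (a i j) : ‖dz a (fun y => gh σ φ t e y i j) z‖ ≤ C₂ / s ^ 3 := by
      have := h6 a i j
      simp only [Matrix.smul_apply, smul_eq_mul] at this
      rw [dz_sc a _ s (fun w => gh σ φ t e w i j), smul_zero, add_zero, ← Complex.ofReal_mul,
        norm_mul, Complex.norm_real, Real.norm_of_nonneg (by positivity)] at this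
      rw [le_div_iff₀' (by positivity)]
      exact this
    refine (mul_le_mul_of_nonneg_left (norm_fd (fun a => h7 a i j) fun a => ?_)
      (by positivity)).trans_eq ?_
    · rw [INT.dzb_congr (G := fun y => conj (gh σ φ t e y j i)), INT.dzb_conj, RCLike.norm_conj]
      · exact h7 a j i
      · filter_upwards [e.open_target.mem_nhds (hQe hz), continuousAt_const.eventually_lt
          (hσ e he z (hQe hz)).continuousAt h0] with y hy hy'
        exact ((hS.pos t ht e he y hy hy').isHermitian.apply i j).symm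
    · rw [abs_div, abs_of_pos (pow_pos s0 3), ← hs]
      field_simp
  · obtain ⟨⟨h7, h8⟩, h9, h10, h11⟩ := h1 y hy
    have h12 := hB t ht e he _ h7 h8
    exact ⟨lo h12.1 h11.1 (sq_nonneg _) (by positivity) (by rw [← mul_pow]; gcongr),
      hi h12.2 h11.2 (hb.wpos e he _ h7).posSemidef (sq_nonneg _) (by positivity)
        (by rw [← mul_pow]; gcongr)⟩
  · refine ((hu.gh_t σ hσ T φ hS t ht e he _ (h1 y hy).1.1 (h1 y hy).1.2 i j).const_mul
      ((s ^ 2 : ℝ) : ℂ)).congr_deriv ?_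
    rw [← cHess_sc (n * Real.log (s ^ 2)), cHess_congr]
    filter_upwards [isOpen_ball.mem_nhds hy] with y hy
    rw [Matrix.det_smul, Fintype.card_fin, ← Complex.ofReal_pow, Complex.re_ofReal_mul,
      Real.log_mul (by positivity) (Complex.pos_iff.1 (hS.pos t (Ioo_subset_Icc_self ht) e he _
        (h1 y hy).1.1 (h1 y hy).1.2).det_pos).1.ne', Real.log_pow (s ^ 2)]
  · simp only [Matrix.smul_apply, smul_eq_mul]
    rw [dz_sc a _ s (fun w => gh σ φ t e w i j), dz_sc i _ s (fun w => gh σ φ t e w a j),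
      dz_sc a _ s (fun w => hh σ e w i j), dz_sc i _ s (fun w => hh σ e w a j), ← mul_sub,
      hu.gh_tor σ hσ T φ hS.sm t ht e he _ (h1 y hy).1.1 (h1 y hy).1.2]
    ring
  · refine le_trans (le_of_eq (congrArg _ (INT.dz_congr ?_)))
      ((hC' (a, i, j) y hy).trans (h4 (.inr ⟨_, rfl⟩)))
    filter_upwards [isOpen_ball.mem_nhds hy] with y hy
    rw [hu.gh_zero σ hσ φ hS.zero e he _ (h1 y hy).1.1 (h1 y hy).1.2]
    rfl

end Vale.Agent.P253W.FP
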