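import Vale.Agent.P253W.FP.MDefs

/-!
# P253W, block FP, row WREG: solutions of the flow are smooth
-/

set_option maxSynthPendingDepth 3

open scoped Manifold ContDiff Bundle Topology ComplexOrder Matrix
open Bundle Set Metric Filter Vale.Agent.P253Z
open Vale.Agent.P272.K (Cm cHess jacM Chart)
open Vale.Agent.P272.K.R (Hol Bil D2)
open Vale.Agent.P272.K.LIN (Jet jet)
open Vale.Agent.P272.K.N (lev cHess_eq_lev)

noncomputable section

namespace Vale.Agent.P253W.FP

variable {n : ℕ} {M : Type} [MetricSpace M] [ChartedSpace (Cm n) M]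
  [RiemannianBundle (fun x : M => TangentSpace 𝓘(ℝ, Cm n) x)]

namespace Wreg

variable (n) in
/-- the projection to the arguments of the model operator -/
def L : (Pm n × ℝ) × Jet (Cm n) →L[ℝ] Pm n × Bil (Cm n) :=
  ((ContinuousLinearMap.fst ℝ _ _).comp (ContinuousLinearMap.fst ℝ _ _)).prod
    (((ContinuousLinearMap.snd ℝ _ _).comp (ContinuousLinearMap.snd ℝ _ _)).comp
      (ContinuousLinearMap.snd ℝ _ _))

variable (n) in
/-- the projection to the scalar parameter -/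
def N : (Pm n × ℝ) × Jet (Cm n) →L[ℝ] ℝ :=
  (ContinuousLinearMap.snd ℝ _ _).comp (ContinuousLinearMap.fst ℝ _ _)

theorem det_pos {A : Mx n} (h : A.PosDef) : 0 < A.det.re := by
  simpa using (Complex.lt_def.1 h.det_pos).1

theorem loc (hu : MU n M) (hq : MAQ n) (hr : REG (Cm n)) {σ : M → ℝ} {T : ℝ} {φ : ℝ → M → ℝ}
    (hσ : Sm n σ) (hT : 0 < T) (h0 : ∀ x, 0 < σ x → φ 0 x = 0) {e : Chart n M} {U : Set (Cm n)}
    {C : ℝ} (he : Hc e) (hU : IsOpen U) (hUt : U ⊆ e.target) (hp : ∀ z ∈ U, 0 < σ (e.symm z))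
    (hc : Cl (Icc 0 T) U (fun t z => φ t (e.symm z))
      (fun t z => Real.log (gh σ φ t e z).det.re - Real.log (hh σ e z).det.re))
    (hh' : ∀ t ∈ Icc 0 T, Hol (1 / 2) C (D2 fun z => φ t (e.symm z)) U ∧
      ∀ z ∈ U, (gh σ φ t e z).PosDef) : ContDiffOn ℝ ∞ (ch e φ) (Icc 0 T ×ˢ U) := by
  let a : ℝ → Cm n → Pm n × ℝ := fun t z =>
    (fun i j => hh σ e z i j - t * rh σ e z i j, Real.log (hh σ e z).det.re)
  have key : ∀ t ∈ Icc 0 T, ∀ z ∈ U,
      Matrix.of (L n (a t z, jet (fun z => φ t (e.symm z)) z)).1 +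
        lev (L n (a t z, jet (fun z => φ t (e.symm z)) z)).2 = gh σ φ t e z := by
    intro t ht z hz
    have h2 := (hc.c2 t ht).contDiffAt (hU.mem_nhds hz)
    rw [gh, hs, cHess_eq_lev ((h2.fderiv_right (m := 1) le_rfl).differentiableAt one_ne_zero)]
    rfl
  refine hr (Pm n × ℝ) (1 / 2) T U
    (L n ⁻¹' {q | 0 < (Matrix.of q.1 + lev q.2).det.re}) a (fun p => ΦM (L n p) - N n p)
    (fun t z => φ t (e.symm z)) ⟨by norm_num, by norm_num, hT, hU,
      hq.oM.preimage (L n).continuous, fun q hq' => ContDiffAt.contDiffWithinAt ?_,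
      (hq.sM.comp (L n).contDiff.contDiffOn fun _ h => h).sub (N n).contDiff.contDiffOn,
      fun t ht z hz => ?_, ⟨hc.c2, hc.cj, fun t ht z hz => ?_⟩, fun z hz => h0 _ (hp z hz),
      fun z hz => ?_, fun t ht z hz ξ hξ => ?_⟩
  · have s := hu.hh_sm σ hσ e he _ (hUt hq'.2) (hp _ hq'.2)
    refine ContDiffAt.prodMk (contDiffAt_pi.2 fun i => contDiffAt_pi.2 fun j => ?_) ?_
    · exact ((s i j).1.comp q contDiffAt_snd).sub
        ((Complex.ofRealCLM.contDiff.contDiffAt.comp q contDiffAt_fst).mul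
          ((s i j).2.comp q contDiffAt_snd))
    · have l0 : lev (0 : Bil (Cm n)) = 0 := by
        ext i j
        simp [lev]
      have m : (((fun i j => hh σ e q.2 i j : Pm n), (0 : Bil (Cm n))) : Pm n × Bil (Cm n)) ∈
          {q : Pm n × Bil (Cm n) | 0 < (Matrix.of q.1 + lev q.2).det.re} := by
        show 0 < (hh σ e q.2 + lev 0).det.re
        rw [l0, add_zero]
        exact det_pos (hu.hh_pos σ e he _ (hUt hq'.2) (hp _ hq'.2))
      have := (hq.sM.contDiffAt (hq.oM.mem_nhds m)).comp q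
        (f := fun q : ℝ × Cm n => ((fun i j => hh σ e q.2 i j : Pm n), (0 : Bil (Cm n))))
        (ContDiffAt.prodMk (contDiffAt_pi.2 fun i => contDiffAt_pi.2 fun j =>
          (s i j).1.comp q contDiffAt_snd) contDiffAt_const)
      refine this.congr_of_eventuallyEq (Eventually.of_forall fun p => ?_)
      show _ = Real.log (hh σ e p.2 + lev 0).det.re
      rw [l0, add_zero]
  · show 0 < (Matrix.of _ + lev _).det.re
    rw [key t ht z hz]
    exact det_pos ((hh' t ht).2 z hz)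
  · have := hc.dt t ht z hz
    rwa [← key t ht z hz] at this
  · obtain ⟨r, hr, h⟩ := Metric.isOpen_iff.1 hU z hz
    exact ⟨r, hr, C, fun t ht => (hh' t ht).1.mono h⟩
  · have p := (hh' t ht).2 z hz
    rw [← key t ht z hz] at p
    have d := ((hq.sM.contDiffAt (hq.oM.mem_nhds (det_pos p))).differentiableAt
      (by simp)).hasFDerivAt
    have d2 := ((d.comp _ (L n).hasFDerivAt).fun_sub (N n).hasFDerivAt).fderiv
    simp only [Function.comp] at d2
    rw [d2]
    simpa [L, N, j2] using hq.eM _ p ξ hξ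

end Wreg

theorem wreg_of (ha : B1a n M) (hu : MU n M) (hq : MAQ n) (hr : REG (Cm n)) : WREG n M := by
  intro σ T φ hσ hT h
  refine ⟨hu.loc σ _ φ fun x hx => ?_, h.zero, fun t ht e' he' z hz hp => ?_, fun t ht x hx => ?_⟩
  · obtain ⟨e, U, C, he, hxe, hU, hxU, hUt, hp, hc, hh'⟩ := h.loc x hx
    exact ⟨e, U, he, hxe, hU, hxU, Wreg.loc hu hq hr hσ hT h.zero he hU hUt hp hc hh'⟩
  · obtain ⟨e, U, C, he, hxe, hU, hxU, -, -, hc, hh'⟩ := h.loc _ hp
    have hx := e'.map_target hz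
    have h2 := (hc.c2 t ht).contDiffAt (hU.mem_nhds hxU)
    have := hu.pd_ch _ _ (ha.jac_ne e' e he' he _ hx hxe) ((hh' t ht).2 _ hxU)
    have e1 := hu.hh_ch σ e' e he' he _ hx hxe
    have e2 := hu.rh_ch σ hσ e' e he' he _ hx hxe hp
    have e3 := (hu.hs_ch (φ t) e' e he' he _ hx hxe h2).2
    rw [e'.right_inv hz] at e1 e2 e3
    rw [gh, e1, e2, e3]
    simpa only [gh, pb, Matrix.mul_add, Matrix.add_mul, Matrix.mul_sub, Matrix.sub_mul,
      Matrix.mul_smul, Matrix.smul_mul] using this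
  · obtain ⟨e, U, C, he, hxe, hU, hxU, hUt, hp, hc, hh'⟩ := h.loc x hx
    have a := hc.dt t ht _ hxU
    have b := hu.lvh_eq σ hσ φ t e he _ (hUt hxU) (hp _ hxU)
      ((hc.c2 t ht).contDiffAt (hU.mem_nhds hxU)) ((hh' t ht).2 _ hxU)
    rwa [← b, e.left_inv hxe] at a

end Vale.Agent.P253W.FP
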