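import Vale.Agent.P253W.FP.At
import Vale.Agent.P253W.FP.C3Cut
import Vale.Agent.P253W.FP.C3Main
import Vale.Agent.P253W.FP.DUHa
import Vale.Agent.P253W.FP.DuhB
import Vale.Agent.P253W.FP.Duh
import Vale.Agent.P253W.FP.Dq
import Vale.Agent.P253W.FP.Ex
import Vale.Agent.P253W.FP.Glue
import Vale.Agent.P253W.FP.Int0
import Vale.Agent.P253W.FP.Int1
import Vale.Agent.P253W.FP.Lim
import Vale.Agent.P253W.FP.Linx
import Vale.Agent.P253W.FP.Lreg
import Vale.Agent.P253W.FP.Lt
import Vale.Agent.P253W.FP.Mu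
import Vale.Agent.P253W.FP.PCE
import Vale.Agent.P253W.FP.Pic
import Vale.Agent.P253W.FP.Reg3
import Vale.Agent.P253W.FP.Step
import Vale.Agent.P253W.FP.Swap
import Vale.Agent.P253W.FP.Tr
import Vale.Agent.P253W.FP.Twb
import Vale.Agent.P253W.FP.Ubc
import Vale.Agent.P253W.FP.Ulim
import Vale.Agent.P253W.FP.W1
import Vale.Agent.P253W.FP.Wreg

/-!
# P253W, block FP: assembly
-/

open scoped Manifold Bundle
open Bundle Vale.Agent.P253Z
open Vale.Agent.P272.K (Cm)

noncomputable section

namespace Vale.Agent.P253W.FP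

namespace All

section

variable (E : Type) [NormedAddCommGroup E] [NormedSpace ℝ E] [FiniteDimensional ℝ E]

theorem duhE : DUH E := duh_of (fun _ => duha) fun _ => duhb _

theorem int0 : INT0 E := int0_of (pce_of (duhE E))

theorem int1 : INT1 E := int1_of (int0 E)

theorem dq : DQ E := dq_of (int0 E)

theorem reg : REG E :=
  reg_of (twb E) (regs_of (twb E) (swap E) (reg3_of (twb E) (dq E))
    (lreg_of (twb E) (dq E) (swap E)))

theorem ex : EX E := ex_of E (duhE E) (tr E) pic

end

theorem c3 (n : ℕ) : C3 n := c3_of n (c3cut n)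

variable {n : ℕ} {M : Type} [MetricSpace M] [ChartedSpace (Cm n) M]
  [RiemannianBundle (fun x : M => TangentSpace 𝓘(ℝ, Cm n) x)]

theorem wreg (a : B1a n M) (b : B1b n M) : WREG n M := wreg_of a (mu_of a b) (maq n) (reg _)

theorem step (a : B1a n M) (b : B1b n M) : STEP n M :=
  step_of a (mu_of a b) (at_of a) (w0_of b (mu_of a b) (maq n))
    (w1_of b (mu_of a b) (maq n) ubc (c3 n)) (ex _) adm glue

theorem lt (a : B1a n M) (b : B1b n M) : LT n M := lt_of (mu_of a b) (step a b) (wreg a b)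

theorem lim (a : B1a n M) (b : B1b n M) : LIM n M :=
  lim_of a b (mu_of a b) (maq n) (c3 n) ulim (wreg a b)

theorem linx (a : B1a n M) (b : B1b n M) : LINX n M :=
  linx_of a (mu_of a b) (maq n) (at_of a) (ex _) adm (reg _) glue

end All

end Vale.Agent.P253W.FP
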