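import Vale.Agent.P272.K.R.Freeze
import Vale.Agent.P272.K.LIN.JetCalc
import Vale.Agent.P272.K.Stmt
import Mathlib.Analysis.Calculus.IteratedDeriv.Defs

/-!
# P253W, block FP: parabolic equations. Definitions and statements on a vector space
-/

set_option maxSynthPendingDepth 3

open Set Metric Filter Topology
open scoped ContDiff ComplexOrder
open Vale.Agent.P272.K (Cm dz cHess)
open Vale.Agent.P272.K.R (Hol Bil D2)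
open Vale.Agent.P272.K.LIN (Jet jet)

noncomputable section

namespace Vale.Agent.P253W.FP

section defs

variable {E : Type} [NormedAddCommGroup E] [NormedSpace ℝ E]

/-- elliptic functionals on bilinear forms -/
def Ell (l L : ℝ) (B : Bil E →L[ℝ] ℝ) : Prop :=
  ‖B‖ ≤ L ∧ ∀ ξ : E →L[ℝ] ℝ, l * ‖ξ‖ ^ 2 ≤ B (ξ.smulRight ξ)

/-- the inclusion `b ↦ (0, 0, b)` -/
def j2 : Bil E →L[ℝ] Jet E :=
  (ContinuousLinearMap.inr ℝ ℝ ((E →L[ℝ] ℝ) × Bil E)).comp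
    (ContinuousLinearMap.inr ℝ (E →L[ℝ] ℝ) (Bil E))

/-- jointly continuous, bounded by `A`, Hölder in space with constant `B` -/
structure PB {F : Type} [NormedAddCommGroup F] (α : ℝ) (I : Set ℝ) (s : Set E) (f : ℝ → E → F)
    (A B : ℝ) : Prop where
  cont : ContinuousOn (fun q : ℝ × E => f q.1 q.2) (I ×ˢ s)
  sup : ∀ t ∈ I, ∀ x ∈ s, ‖f t x‖ ≤ A
  hol : ∀ t ∈ I, Hol α B (f t) s

/-- `C²` in space with jointly continuous jets, time derivative `wt` -/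
structure Cl (I : Set ℝ) (U : Set E) (w wt : ℝ → E → ℝ) : Prop where
  c2 : ∀ t ∈ I, ContDiffOn ℝ 2 (w t) U
  cj : ContinuousOn (fun q : ℝ × E => jet (w q.1) q.2) (I ×ˢ U)
  dt : ∀ t ∈ I, ∀ x ∈ U, HasDerivWithinAt (fun s => w s x) (wt t x) I t

/-- properties of functions of time and space with values in an arbitrary space -/
abbrev Cls (E : Type) : Type 1 :=
  ∀ (F : Type) [NormedAddCommGroup F] [NormedSpace ℝ F], (ℝ → E → F) → Prop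

/-- locally in space: jointly continuous, bounded, Hölder in space -/
def TH (α : ℝ) (I : Set ℝ) (U : Set E) : Cls E := fun _ _ _ f =>
  ∀ x ∈ U, ∃ r > 0, ball x r ⊆ U ∧ ∃ C, 0 ≤ C ∧ PB α I (ball x r) f C C

/-- jointly of class `C^m` -/
def JC (m : ℕ) (I : Set ℝ) (U : Set E) : Cls E := fun _ _ _ f =>
  ContDiffOn ℝ m (fun q : ℝ × E => f q.1 q.2) (I ×ˢ U)

/-- all space derivatives of order at most `k` exist and have the property `P` -/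
def Tw (I : Set ℝ) (U : Set E) (P : Cls E) : ℕ → Cls E
  | 0 => P
  | k + 1 => fun F _ _ f => P F f ∧ (∀ t ∈ I, ∀ x ∈ U, DifferentiableAt ℝ (f t) x) ∧
      Tw I U P k (E →L[ℝ] F) (fun t => fderiv ℝ (f t))

/-- closure properties of a class -/
structure Base (I : Set ℝ) (U : Set E) (P : Cls E) : Prop where
  congr : ∀ (F : Type) [NormedAddCommGroup F] [NormedSpace ℝ F] (f g : ℝ → E → F), P F f →
    (∀ t ∈ I, ∀ x ∈ U, f t x = g t x) → P F g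
  add : ∀ (F : Type) [NormedAddCommGroup F] [NormedSpace ℝ F] (f g : ℝ → E → F), P F f → P F g →
    P F (fun t x => f t x + g t x)
  bilin : ∀ (F G H : Type) [NormedAddCommGroup F] [NormedSpace ℝ F] [NormedAddCommGroup G]
    [NormedSpace ℝ G] [NormedAddCommGroup H] [NormedSpace ℝ H] (L : F →L[ℝ] G →L[ℝ] H)
    (f : ℝ → E → F) (g : ℝ → E → G), P F f → P G g → P H (fun t x => L (f t x) (g t x))
  comp : ∀ (F G : Type) [NormedAddCommGroup F] [NormedSpace ℝ F] [NormedAddCommGroup G]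
    [NormedSpace ℝ G] (V : Set F) (φ : F → G) (f : ℝ → E → F), IsOpen V → ContDiffOn ℝ ∞ φ V →
    P F f → (∀ t ∈ I, ∀ x ∈ U, f t x ∈ V) → P G (fun t x => φ (f t x))
  smooth : ∀ (F : Type) [NormedAddCommGroup F] [NormedSpace ℝ F] (f : ℝ → E → F),
    ContDiffOn ℝ ∞ (fun q : ℝ × E => f q.1 q.2) (I ×ˢ U) → P F f

/-- a family of smooth functions with uniformly bounded derivatives of order at most `k` -/
structure UB {ι F : Type} [NormedAddCommGroup F] [NormedSpace ℝ F] (k : ℕ) (U : Set E)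
    (f : ι → E → F) : Prop where
  sm : ∀ i, ContDiffOn ℝ ∞ (f i) U
  bd : ∃ C : ℝ, ∀ i, ∀ j ≤ k, ∀ x ∈ U, ‖iteratedFDeriv ℝ j (f i) x‖ ≤ C

/-- extension by zero of a function given in a chart -/
def ext {X : Type} [TopologicalSpace X] (e : OpenPartialHomeomorph X E) (f : E → ℝ) : X → ℝ :=
  e.source.indicator fun x => f (e x)

variable (E) in
/-- a uniform atlas -/
structure UA (X : Type) [TopologicalSpace X] (K : ℝ) (N₀ : ℕ) where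
  ι : Type
  e : ι → OpenPartialHomeomorph X E
  χ : ι → E → ℝ
  N : ι → Finset ι
  tgt : ∀ i, ball 0 4 ⊆ (e i).target
  χ0 : ∀ i y, 2 < ‖y‖ → χ i y = 0
  χb : ∀ i y, |χ i y| ≤ 1
  χl : ∀ i, Hol 1 K (χ i) (ball 0 4)
  card : ∀ j, (N j).card ≤ N₀
  mem : ∀ i j, ∀ y ∈ ball (0 : E) 4, (e j).symm y ∈ (e i).symm '' closedBall 0 3 → i ∈ N j
  sum : ∀ j, ∀ y ∈ ball (0 : E) 4, ∑ i ∈ N j, ext (e i) (χ i) ((e j).symm y) = 1
  sm : ∀ i j, ∀ y ∈ ball (0 : E) 4, (e j).symm y ∈ (e i).symm '' closedBall 0 3 →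
    ContDiffAt ℝ 2 (fun z => e i ((e j).symm z)) y ∧
    ‖fderiv ℝ (fun z => e i ((e j).symm z)) y‖ ≤ K ∧
    ‖fderiv ℝ (fderiv ℝ fun z => e i ((e j).symm z)) y‖ ≤ K
  lip0 : ∀ i j, Hol 1 K (fun z => e i ((e j).symm z))
    {y ∈ ball (0 : E) 4 | (e j).symm y ∈ (e i).symm '' closedBall 0 3}
  lip1 : ∀ i j, Hol 1 K (fderiv ℝ fun z => e i ((e j).symm z))
    {y ∈ ball (0 : E) 4 | (e j).symm y ∈ (e i).symm '' closedBall 0 3}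
  lip2 : ∀ i j, Hol 1 K (fderiv ℝ (fderiv ℝ fun z => e i ((e j).symm z)))
    {y ∈ ball (0 : E) 4 | (e j).symm y ∈ (e i).symm '' closedBall 0 3}

/-- a function in the chart `i` -/
def UA.loc {X : Type} [TopologicalSpace X] {K : ℝ} {N₀ : ℕ} (𝒜 : UA E X K N₀) {F : Type}
    (i : 𝒜.ι) (u : ℝ → X → F) (t : ℝ) (y : E) : F := u t ((𝒜.e i).symm y)

/-- admissible right hand sides `F t y z` with derivative `A t y z` in the jet `z`, whose second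
order part is close to `B` -/
structure Adm (α KF δ T ε : ℝ) (B : Bil E →L[ℝ] ℝ) (F : ℝ → E → Jet E → ℝ)
    (A : ℝ → E → Jet E → Jet E →L[ℝ] ℝ) : Prop where
  der : ∀ t ∈ Icc 0 T, ∀ y ∈ ball (0 : E) 4, ∀ z ∈ ball (0 : Jet E) δ,
    HasFDerivAt (F t y) (A t y z) z
  cont : ContinuousOn (fun q : ℝ × E × Jet E => F q.1 q.2.1 q.2.2)
    (Icc 0 T ×ˢ ball 0 4 ×ˢ ball 0 δ)
  bdA : ∀ t ∈ Icc 0 T, ∀ y ∈ ball (0 : E) 4, ∀ z ∈ ball (0 : Jet E) δ, ‖A t y z‖ ≤ KF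
  holA : ∀ t ∈ Icc 0 T, ∀ y ∈ ball (0 : E) 4, ∀ z ∈ ball (0 : Jet E) δ, ∀ y' ∈ ball (0 : E) 4,
    ∀ z' ∈ ball (0 : Jet E) δ, ‖A t y z - A t y' z'‖ ≤ KF * (‖y - y'‖ ^ α + ‖z - z'‖)
  bdF : ∀ t ∈ Icc 0 T, ∀ y ∈ ball (0 : E) 4, |F t y 0| ≤ KF
  holF : ∀ t ∈ Icc 0 T, Hol α KF (fun y => F t y 0) (ball 0 4)
  near : ∀ t ∈ Icc 0 T, ∀ y ∈ ball (0 : E) 4, ∀ z ∈ ball (0 : Jet E) δ,
    ‖(A t y z).comp j2 - B‖ ≤ ε

/-- the right hand sides in the charts describe one operator -/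
def UA.Inv {X : Type} [TopologicalSpace X] {K : ℝ} {N₀ : ℕ} (𝒜 : UA E X K N₀) (δ T : ℝ)
    (F : 𝒜.ι → ℝ → E → Jet E → ℝ) : Prop :=
  ∀ i j, ∀ t ∈ Icc 0 T, ∀ y ∈ ball (0 : E) 4, ∀ y' ∈ ball (0 : E) 4,
    (𝒜.e i).symm y = (𝒜.e j).symm y' → ∀ u : X → ℝ,
    ContDiffAt ℝ 2 (fun z => u ((𝒜.e i).symm z)) y →
    ContDiffAt ℝ 2 (fun z => u ((𝒜.e j).symm z)) y' →
    ‖jet (fun z => u ((𝒜.e i).symm z)) y‖ < δ → ‖jet (fun z => u ((𝒜.e j).symm z)) y'‖ < δ →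
    F i t y (jet (fun z => u ((𝒜.e i).symm z)) y) = F j t y' (jet (fun z => u ((𝒜.e j).symm z)) y')

end defs

section stmts

variable (E : Type) [NormedAddCommGroup E] [NormedSpace ℝ E]

/-- **DUH**: the solution operator of `u_t = B D²u + f`, `u(0) = 0` -/
def DUH : Prop :=
  ∀ α : ℝ, 0 < α → α < 1 → ∀ l L : ℝ, 0 < l → ∃ C : ℝ, 0 ≤ C ∧ ∀ B : Bil E →L[ℝ] ℝ, Ell l L B →
    ∃ H : (ℝ → E → ℝ) → ℝ → E → ℝ,
      (∀ (T c A A' A₁ A₁' : ℝ) (f g : ℝ → E → ℝ), PB α (Icc 0 T) univ f A A' →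
        PB α (Icc 0 T) univ g A₁ A₁' → ∀ t ∈ Icc 0 T, ∀ x,
          H (fun s y => f s y + c * g s y) t x = H f t x + c * H g t x) ∧
      ∀ (T A A' : ℝ) (f : ℝ → E → ℝ), 0 ≤ T → 0 ≤ A' → PB α (Icc 0 T) univ f A A' →
        (∀ x, H f 0 x = 0) ∧
        Cl (Icc 0 T) univ (H f) (fun t x => B (D2 (H f t) x) + f t x) ∧
        PB α (Icc 0 T) univ (H f) (T * A) (C * T * A') ∧
        PB α (Icc 0 T) univ (fun t => fderiv ℝ (H f t)) (C * √T * A) (C * √T * A') ∧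
        PB α (Icc 0 T) univ (fun t => D2 (H f t)) (C * T ^ (α / 2) * A') (C * A')

/-- **PCE**: the estimate for constant coefficients -/
def PCE : Prop :=
  ∀ α : ℝ, 0 < α → α < 1 → ∀ l L : ℝ, 0 < l → ∃ C : ℝ, 0 ≤ C ∧ ∀ B : Bil E →L[ℝ] ℝ, Ell l L B →
    ∀ (s T M A K : ℝ) (v vt : ℝ → E → ℝ), s ≤ T → 0 ≤ K → Cl (Icc s T) univ v vt →
      (∀ x, v s x = 0) → (∀ t ∈ Icc s T, ∀ x, |v t x| ≤ M) →
      PB α (Icc s T) univ (fun t x => vt t x - B (D2 (v t) x)) A K →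
      ∀ t ∈ Icc s T, Hol α (C * K) (D2 (v t)) univ

/-- **INT0**: interior estimate from bounds on the first derivatives -/
def INT0 : Prop :=
  ∀ α : ℝ, 0 < α → α < 1 → ∀ l L : ℝ, 0 < l → ∃ ε : ℝ, 0 < ε ∧ ∀ τ r K : ℝ, 0 < τ → 0 < r →
    ∃ C : ℝ, 0 ≤ C ∧ ∀ (T M : ℝ) (x₀ : E) (A : ℝ → E → Bil E →L[ℝ] ℝ) (w wt : ℝ → E → ℝ),
      0 ≤ T → 0 ≤ M → Cl (Icc 0 T) (ball x₀ r) w wt → (∀ x ∈ ball x₀ r, w 0 x = 0) →
      PB α (Icc 0 T) (ball x₀ r) A K K → (∀ t ∈ Icc 0 T, ∀ x ∈ ball x₀ r, Ell l L (A t x)) →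
      (∀ t ∈ Icc 0 T, ∀ s ∈ Icc 0 T, |t - s| ≤ τ → ∀ x ∈ ball x₀ r, ‖A t x - A s x‖ ≤ ε) →
      PB α (Icc 0 T) (ball x₀ r) (fun t x => wt t x - A t x (D2 (w t) x)) M M →
      PB α (Icc 0 T) (ball x₀ r) w M M →
      PB α (Icc 0 T) (ball x₀ r) (fun t => fderiv ℝ (w t)) M M →
      (∃ N, ∀ t ∈ Icc 0 T, Hol α N (D2 (w t)) (ball x₀ r)) →
      PB α (Icc 0 T) (ball x₀ (r / 2)) (fun t => D2 (w t)) (C * M) (C * M)

/-- **INT1**: interior estimate from the bound on the function -/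
def INT1 : Prop :=
  ∀ α : ℝ, 0 < α → α < 1 → ∀ l L : ℝ, 0 < l → ∃ ε : ℝ, 0 < ε ∧ ∀ τ r K : ℝ, 0 < τ → 0 < r →
    ∃ C : ℝ, 0 ≤ C ∧ ∀ (T M : ℝ) (x₀ : E) (A : ℝ → E → Jet E →L[ℝ] ℝ) (w wt : ℝ → E → ℝ),
      0 ≤ T → 0 ≤ M → Cl (Icc 0 T) (ball x₀ r) w wt → (∀ x ∈ ball x₀ r, w 0 x = 0) →
      PB α (Icc 0 T) (ball x₀ r) A K K →
      (∀ t ∈ Icc 0 T, ∀ x ∈ ball x₀ r, Ell l L ((A t x).comp j2)) →
      (∀ t ∈ Icc 0 T, ∀ s ∈ Icc 0 T, |t - s| ≤ τ → ∀ x ∈ ball x₀ r,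
        ‖(A t x).comp j2 - (A s x).comp j2‖ ≤ ε) →
      PB α (Icc 0 T) (ball x₀ r) (fun t x => wt t x - A t x (jet (w t) x)) M M →
      (∀ t ∈ Icc 0 T, ∀ x ∈ ball x₀ r, |w t x| ≤ M) →
      (∃ N, ∀ t ∈ Icc 0 T, Hol α N (D2 (w t)) (ball x₀ r)) →
      PB α (Icc 0 T) (ball x₀ (r / 2)) (fun t => jet (w t)) (C * M) (C * M)

/-- **TWB**: the closure properties pass to the towers, and hold for the two basic classes -/
structure TWB : Prop where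
  tw : ∀ (I : Set ℝ) (U : Set E) (P : Cls E), IsOpen U → Base I U P → ∀ k, Base I U (Tw I U P k)
  th : ∀ (α T : ℝ) (U : Set E), 0 < α → α ≤ 1 → IsOpen U → Base (Icc 0 T) U (TH α (Icc 0 T) U)
  jc : ∀ (m : ℕ) (I : Set ℝ) (U : Set E), Base I U (JC m I U)
  succ : ∀ (I : Set ℝ) (U : Set E) (P : Cls E) (k l : ℕ), k ≤ l → ∀ (F : Type)
    [NormedAddCommGroup F] [NormedSpace ℝ F] (f : ℝ → E → F), Tw I U P l F f → Tw I U P k F f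
  imp : ∀ (I : Set ℝ) (U : Set E) (P Q : Cls E), (∀ (F : Type) [NormedAddCommGroup F]
    [NormedSpace ℝ F] (f : ℝ → E → F), P F f → Q F f) → ∀ (k : ℕ) (F : Type)
    [NormedAddCommGroup F] [NormedSpace ℝ F] (f : ℝ → E → F), Tw I U P k F f → Tw I U Q k F f
  app : ∀ (I : Set ℝ) (U : Set E) (P : Cls E), Base I U P → ∀ (F : Type) [NormedAddCommGroup F]
    [NormedSpace ℝ F] (f : ℝ → E → E →L[ℝ] F), (∀ v, P F fun t x => f t x v) → P (E →L[ℝ] F) f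
  loc : ∀ (α : ℝ) (I : Set ℝ) (U : Set E) (k : ℕ) (F : Type) [NormedAddCommGroup F]
    [NormedSpace ℝ F] (f : ℝ → E → F),
    (∀ x ∈ U, ∃ r > 0, ball x r ⊆ U ∧ Tw I (ball x r) (TH α I (ball x r)) k F f) →
      Tw I U (TH α I U) k F f
  thc : ∀ (α : ℝ) (I : Set ℝ) (U : Set E) (F : Type) [NormedAddCommGroup F] [NormedSpace ℝ F]
    (f : ℝ → E → F), TH α I U F f → JC 0 I U F f

/-- **SWAP**: space derivatives of an evolution equation -/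
def SWAP : Prop :=
  ∀ (T : ℝ) (U : Set E) (F : Type) [NormedAddCommGroup F] [NormedSpace ℝ F] [CompleteSpace F]
    (f ft : ℝ → E → F), IsOpen U →
    (∀ t ∈ Icc 0 T, ∀ x ∈ U, HasDerivWithinAt (fun s => f s x) (ft t x) (Icc 0 T) t) →
    (∀ t ∈ Icc 0 T, ∀ x ∈ U, DifferentiableAt ℝ (f t) x) →
    Tw (Icc 0 T) U (JC 0 (Icc 0 T) U) 1 F ft →
    ∀ t ∈ Icc 0 T, ∀ x ∈ U,
      HasDerivWithinAt (fun s => fderiv ℝ (f s) x) (fderiv ℝ (ft t) x) (Icc 0 T) t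

/-- **DQ**: one more derivative from uniform equations for the difference quotients -/
def DQ : Prop :=
  ∀ (α T l L K r h₀ : ℝ) (x₀ v : E) (w wt : ℝ → E → ℝ) (A : ℝ → ℝ → E → Bil E →L[ℝ] ℝ),
    0 < α → α < 1 → 0 ≤ T → 0 < l → 0 < r → 0 < h₀ → h₀ * ‖v‖ ≤ r →
    Cl (Icc 0 T) (ball x₀ (2 * r)) w wt → (∀ x ∈ ball x₀ (2 * r), w 0 x = 0) →
    PB α (Icc 0 T) (ball x₀ (2 * r)) (fun t => jet (w t)) K K →
    (∀ h ∈ Ioc 0 h₀, PB α (Icc 0 T) (ball x₀ r) (A h) K K ∧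
      (∀ t ∈ Icc 0 T, ∀ x ∈ ball x₀ r, Ell l L (A h t x)) ∧
      PB α (Icc 0 T) (ball x₀ r) (fun t x => h⁻¹ * (wt t (x + h • v) - wt t x) -
        A h t x (h⁻¹ • (D2 (w t) (x + h • v) - D2 (w t) x))) K K) →
    (∀ ε > 0, ∃ τ > 0, ∀ h ∈ Ioc 0 h₀, ∀ t ∈ Icc 0 T, ∀ s ∈ Icc 0 T, |t - s| ≤ τ →
      ∀ x ∈ ball x₀ r, ‖A h t x - A h s x‖ ≤ ε) →
    Tw (Icc 0 T) (ball x₀ (r / 4)) (TH α (Icc 0 T) (ball x₀ (r / 4))) 2 ℝ
      fun t x => fderiv ℝ (w t) x v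

/-- **LREG**: regularity in space for linear equations -/
def LREG : Prop :=
  ∀ (α T : ℝ) (U : Set E) (k : ℕ) (A : ℝ → E → Bil E →L[ℝ] ℝ) (g w : ℝ → E → ℝ),
    0 < α → α < 1 → 0 ≤ T → IsOpen U →
    Tw (Icc 0 T) U (TH α (Icc 0 T) U) k _ A → Tw (Icc 0 T) U (TH α (Icc 0 T) U) k _ g →
    (∀ t ∈ Icc 0 T, ∀ x ∈ U, ∀ ξ : E →L[ℝ] ℝ, ξ ≠ 0 → 0 < A t x (ξ.smulRight ξ)) →
    Tw (Icc 0 T) U (TH α (Icc 0 T) U) 2 _ w → (∀ x ∈ U, w 0 x = 0) →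
    (∀ t ∈ Icc 0 T, ∀ x ∈ U,
      HasDerivWithinAt (fun s => w s x) (A t x (D2 (w t) x) + g t x) (Icc 0 T) t) →
    Tw (Icc 0 T) U (TH α (Icc 0 T) U) (k + 2) _ w

/-- the hypotheses of the regularity theorem: `w_t = Φ (a, jet w)`, `a` and `Φ` smooth -/
structure RegH {E : Type} [NormedAddCommGroup E] [NormedSpace ℝ E] {P : Type}
    [NormedAddCommGroup P] [NormedSpace ℝ P] (α T : ℝ) (U : Set E) (V : Set (P × Jet E))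
    (a : ℝ → E → P) (Φ : P × Jet E → ℝ) (w : ℝ → E → ℝ) : Prop where
  α0 : 0 < α
  α1 : α < 1
  T0 : 0 < T
  oU : IsOpen U
  oV : IsOpen V
  sa : ContDiffOn ℝ ∞ (fun q : ℝ × E => a q.1 q.2) (Icc 0 T ×ˢ U)
  sΦ : ContDiffOn ℝ ∞ Φ V
  mem : ∀ t ∈ Icc 0 T, ∀ x ∈ U, (a t x, jet (w t) x) ∈ V
  cl : Cl (Icc 0 T) U w fun t x => Φ (a t x, jet (w t) x)
  zero : ∀ x ∈ U, w 0 x = 0
  hol : ∀ x ∈ U, ∃ r > 0, ∃ C, ∀ t ∈ Icc 0 T, Hol α C (D2 (w t)) (ball x r)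
  ell : ∀ t ∈ Icc 0 T, ∀ x ∈ U, ∀ ξ : E →L[ℝ] ℝ, ξ ≠ 0 →
    0 < fderiv ℝ Φ (a t x, jet (w t) x) (0, j2 (ξ.smulRight ξ))

/-- **REG3**: the first step -/
def REG3 : Prop :=
  ∀ (P : Type) [NormedAddCommGroup P] [NormedSpace ℝ P] (α T : ℝ) (U : Set E)
    (V : Set (P × Jet E)) (a : ℝ → E → P) (Φ : P × Jet E → ℝ) (w : ℝ → E → ℝ),
    RegH α T U V a Φ w → Tw (Icc 0 T) U (TH α (Icc 0 T) U) 3 _ w

/-- **REGS**: all space derivatives -/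
def REGS : Prop :=
  ∀ (P : Type) [NormedAddCommGroup P] [NormedSpace ℝ P] (α T : ℝ) (U : Set E)
    (V : Set (P × Jet E)) (a : ℝ → E → P) (Φ : P × Jet E → ℝ) (w : ℝ → E → ℝ),
    RegH α T U V a Φ w → ∀ k, Tw (Icc 0 T) U (TH α (Icc 0 T) U) k _ w

/-- **REG**: solutions are smooth up to the initial time -/
def REG : Prop :=
  ∀ (P : Type) [NormedAddCommGroup P] [NormedSpace ℝ P] (α T : ℝ) (U : Set E)
    (V : Set (P × Jet E)) (a : ℝ → E → P) (Φ : P × Jet E → ℝ) (w : ℝ → E → ℝ),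
    RegH α T U V a Φ w → ContDiffOn ℝ ∞ (fun q : ℝ × E => w q.1 q.2) (Icc 0 T ×ˢ U)

/-- **TR**: change of charts in a uniform atlas -/
def TR : Prop :=
  ∀ α K : ℝ, 0 < α → α ≤ 1 → ∃ C : ℝ, 1 ≤ C ∧ ∀ (N₀ : ℕ) (X : Type) [TopologicalSpace X]
    [T2Space X] (𝒜 : UA E X K N₀) (i j : 𝒜.ι),
    (∀ (f : X → ℝ) (A : ℝ), 0 ≤ A → (∀ x ∉ (𝒜.e i).symm '' closedBall 0 3, f x = 0) →
      Hol α A (fun y => f ((𝒜.e i).symm y)) (ball 0 4) →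
      Hol α (C * A) (fun y => f ((𝒜.e j).symm y)) (ball 0 4)) ∧
    (∀ (I : Set ℝ) (f : ℝ → X → ℝ), (∀ t ∈ I, ∀ x ∉ (𝒜.e i).symm '' closedBall 0 3, f t x = 0) →
      ContinuousOn (fun q : ℝ × E => 𝒜.loc i f q.1 q.2) (I ×ˢ ball 0 4) →
      ContinuousOn (fun q : ℝ × E => 𝒜.loc j f q.1 q.2) (I ×ˢ ball 0 4)) ∧
    ∀ (I : Set ℝ) (u : ℝ → X → ℝ) (A A' : ℝ), 0 ≤ A → 0 ≤ A' →
      (∀ t ∈ I, ∀ x ∉ (𝒜.e i).symm '' closedBall 0 3, u t x = 0) →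
      (∀ t ∈ I, ContDiffOn ℝ 2 (𝒜.loc i u t) (ball 0 4)) →
      PB α I (ball 0 4) (fun t => jet (𝒜.loc i u t)) A A' →
      (∀ t ∈ I, ContDiffOn ℝ 2 (𝒜.loc j u t) (ball 0 4)) ∧
        PB α I (ball 0 4) (fun t => jet (𝒜.loc j u t)) (C * A) (C * (A + A'))

/-- **PIC**: the fixed point of a contraction for the norm `sup + Hölder` in all charts -/
def PIC : Prop :=
  ∀ (α N : ℝ) (I : Set ℝ) (s : Set E) (X ι : Type) (κ : ι → E → X)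
    (Ψ : (ℝ → X → ℝ) → ℝ → X → ℝ), 0 ≤ N →
    (∀ g : ℝ → X → ℝ, (∀ i, PB α I s (fun t y => g t (κ i y)) N N) →
      ∀ i, PB α I s (fun t y => Ψ g t (κ i y)) N N) →
    (∀ (g g' : ℝ → X → ℝ) (d : ℝ), 0 ≤ d → (∀ i, PB α I s (fun t y => g t (κ i y)) N N) →
      (∀ i, PB α I s (fun t y => g' t (κ i y)) N N) →
      (∀ i, PB α I s (fun t y => g t (κ i y) - g' t (κ i y)) d d) →
      ∀ i, PB α I s (fun t y => Ψ g t (κ i y) - Ψ g' t (κ i y)) (d / 2) (d / 2)) →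
    ∃ g : ℝ → X → ℝ, (∀ i, PB α I s (fun t y => g t (κ i y)) N N) ∧
      ∀ i, ∀ t ∈ I, ∀ y ∈ s, Ψ g t (κ i y) = g t (κ i y)

/-- **EX**: existence for a short time -/
def EX : Prop :=
  ∀ (α K l L : ℝ) (N₀ : ℕ), 0 < α → α < 1 → 0 < l → ∃ ε : ℝ, 0 < ε ∧ ∀ KF δ T : ℝ, 0 < δ →
    0 < T → ∃ τ C : ℝ, 0 < τ ∧ τ ≤ T ∧ ∀ (X : Type) [TopologicalSpace X] [T2Space X]
      (𝒜 : UA E X K N₀) (B : 𝒜.ι → Bil E →L[ℝ] ℝ) (F : 𝒜.ι → ℝ → E → Jet E → ℝ)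
      (A : 𝒜.ι → ℝ → E → Jet E → Jet E →L[ℝ] ℝ), (∀ i, Ell l L (B i)) →
      (∀ i, Adm α KF δ T ε (B i) (F i) (A i)) → 𝒜.Inv δ T F →
      ∃ u : ℝ → X → ℝ, (∀ x, u 0 x = 0) ∧ ∀ i,
        Cl (Icc 0 τ) (ball 0 4) (𝒜.loc i u) (fun t y => F i t y (jet (𝒜.loc i u t) y)) ∧
        PB α (Icc 0 τ) (ball 0 4) (fun t => jet (𝒜.loc i u t)) (δ / 2) C

/-- **ADM**: admissible right hand sides from smooth functions -/
def ADM : Prop :=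
  ∀ (P : Type) [NormedAddCommGroup P] [NormedSpace ℝ P] (V : Set (P × Bil E))
    (Φ : P × Bil E → ℝ) (Q : Set P), IsOpen V → ContDiffOn ℝ ∞ Φ V → IsCompact Q →
    (∀ a₀ ∈ Q, (a₀, 0) ∈ V ∧ ∀ ξ : E →L[ℝ] ℝ, ξ ≠ 0 →
      0 < fderiv ℝ Φ (a₀, 0) (0, ξ.smulRight ξ)) →
    ∃ l L : ℝ, 0 < l ∧ ∀ ε : ℝ, 0 < ε → ∃ δ η : ℝ, 0 < δ ∧ 0 < η ∧ ∀ α K : ℝ, ∃ KF : ℝ,
      ∀ T : ℝ, ∀ a₀ ∈ Q, ∀ (a : ℝ → E → P) (c f : ℝ → E → ℝ),
        PB α (Icc 0 T) (ball 0 4) a K K → PB α (Icc 0 T) (ball 0 4) c K K →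
        PB α (Icc 0 T) (ball 0 4) f K K →
        (∀ t ∈ Icc 0 T, ∀ y ∈ ball (0 : E) 4, ‖a t y - a₀‖ ≤ η) →
        ∃ B A, Ell l L B ∧
          Adm α KF δ T ε B (fun t y z => Φ (a t y, z.2.2) + c t y * z.1 + f t y) A

/-- **ULIM**: limits of solutions along an ultrafilter -/
def ULIM : Prop :=
  ∀ (α T C : ℝ) (ι : Type) (𝒰 : Ultrafilter ι) (U : Set E) (W : Set (ℝ × E × Jet E))
    (F : ℝ × E × Jet E → ℝ) (w : ι → ℝ → E → ℝ) (v : ℝ → E → ℝ), 0 < α → α ≤ 1 → 0 ≤ T →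
    IsOpen U → IsClosed W → ContinuousOn F W →
    (∀ t ∈ Icc 0 T, ∀ x ∈ U, Tendsto (fun k => w k t x) 𝒰 (𝓝 (v t x))) →
    (∀ᶠ k in 𝒰, Cl (Icc 0 T) U (w k) (fun t x => F (t, x, jet (w k t) x)) ∧ ∀ t ∈ Icc 0 T,
      Hol α C (D2 (w k t)) U ∧ ∀ x ∈ U, (t, x, jet (w k t) x) ∈ W ∧ |w k t x| ≤ C ∧
        |F (t, x, jet (w k t) x)| ≤ C) →
    Cl (Icc 0 T) U v (fun t x => F (t, x, jet (v t) x)) ∧ ∀ t ∈ Icc 0 T, Hol α C (D2 (v t)) U ∧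
      ∀ x ∈ U, (t, x, jet (v t) x) ∈ W ∧
        Tendsto (fun k => jet (w k t) x) 𝒰 (𝓝 (jet (v t) x))

/-- **GLUE**: restarting and rescaling the time -/
def GLUE : Prop :=
  ∀ (T τ μ : ℝ) (U : Set E) (w wt v vt : ℝ → E → ℝ), 0 ≤ T → 0 ≤ τ → 0 < μ → IsOpen U →
    Cl (Icc 0 T) U w wt → Cl (Icc 0 τ) U v vt → (∀ x ∈ U, v 0 x = 0) →
    ∀ c : ℝ, (∀ x ∈ U, wt T x = c / μ * vt 0 x) →
    Cl (Icc 0 (T + μ * τ)) U (fun t x => if t ≤ T then w t x else w T x + c * v ((t - T) / μ) x)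
      (fun t x => if t ≤ T then wt t x else c / μ * vt ((t - T) / μ) x)

/-- **UBC**: calculus of uniformly bounded families -/
structure UBC : Prop where
  mono : ∀ (ι F : Type) [NormedAddCommGroup F] [NormedSpace ℝ F] (k l : ℕ) (U : Set E)
    (f : ι → E → F), l ≤ k → UB k U f → UB l U f
  congr : ∀ (ι F : Type) [NormedAddCommGroup F] [NormedSpace ℝ F] (k : ℕ) (U : Set E)
    (f g : ι → E → F), IsOpen U → UB k U f → (∀ i, ∀ x ∈ U, f i x = g i x) → UB k U g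
  const : ∀ (ι F : Type) [NormedAddCommGroup F] [NormedSpace ℝ F] (k : ℕ) (U : Set E)
    (c : ι → F) (C : ℝ), (∀ i, ‖c i‖ ≤ C) → UB k U fun i _ => c i
  add : ∀ (ι F : Type) [NormedAddCommGroup F] [NormedSpace ℝ F] (k : ℕ) (U : Set E)
    (f g : ι → E → F), IsOpen U → UB k U f → UB k U g → UB k U fun i x => f i x + g i x
  bilin : ∀ (ι F G H : Type) [NormedAddCommGroup F] [NormedSpace ℝ F] [NormedAddCommGroup G]
    [NormedSpace ℝ G] [NormedAddCommGroup H] [NormedSpace ℝ H] (L : F →L[ℝ] G →L[ℝ] H) (k : ℕ)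
    (U : Set E) (f : ι → E → F) (g : ι → E → G), IsOpen U → UB k U f → UB k U g →
      UB k U fun i x => L (f i x) (g i x)
  comp : ∀ (ι F G : Type) [NormedAddCommGroup F] [NormedSpace ℝ F] [NormedAddCommGroup G]
    [NormedSpace ℝ G] (k : ℕ) (U : Set E) (V Q : Set F) (φ : F → G) (f : ι → E → F), IsOpen U →
    IsOpen V → IsCompact Q → Q ⊆ V → ContDiffOn ℝ ∞ φ V → UB k U f →
    (∀ i, ∀ x ∈ U, f i x ∈ Q) → UB k U fun i x => φ (f i x)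
  der : ∀ (ι F : Type) [NormedAddCommGroup F] [NormedSpace ℝ F] (k : ℕ) (U : Set E)
    (f : ι → E → F), IsOpen U → UB (k + 1) U f → UB k U fun i => fderiv ℝ (f i)
  /-- rescaled smooth functions and their divided differences -/
  scale : ∀ (ι F : Type) [NormedAddCommGroup F] [NormedSpace ℝ F] (k : ℕ) (R : ℝ) (V Q : Set E)
    (φ : E → F) (p : ι → E) (s : ι → ℝ), IsOpen V → IsCompact Q → Q ⊆ V → ContDiffOn ℝ ∞ φ V →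
    (∀ i, 0 < s i ∧ s i ≤ 1 ∧ ball (p i) (R * s i) ⊆ Q) →
    UB k (ball 0 R) (fun i y => φ (p i + s i • y)) ∧
      UB k (ball 0 R) fun i y => (s i)⁻¹ • (φ (p i + s i • y) - φ (p i))
  lip : ∀ (ι F : Type) [NormedAddCommGroup F] [NormedSpace ℝ F] (U : Set E) (f : ι → E → F),
    IsOpen U → Convex ℝ U → UB 1 U f → ∃ C : ℝ, 0 ≤ C ∧ ∀ i, ∀ x ∈ U, ‖f i x‖ ≤ C ∧
      ∀ y ∈ U, ‖f i x - f i y‖ ≤ C * ‖x - y‖

end stmts

/-- **C3**: the local estimate of Calabi for the Chern-Ricci flow -/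
def C3 (n : ℕ) : Prop :=
  ∀ r R lam Lam C₀ : ℝ, 0 < r → r < R → 0 < lam → ∃ C : ℝ, ∀ (p : Cm n) (T : ℝ)
    (K : ℝ → Cm n → Matrix (Fin n) (Fin n) ℂ) (τ : Fin n → Fin n → Fin n → Cm n → ℂ), 0 ≤ T →
    (∀ i j, ContDiffOn ℝ ∞ (fun q : ℝ × Cm n => K q.1 q.2 i j) (Icc 0 T ×ˢ ball p R)) →
    (∀ t ∈ Icc 0 T, ∀ z ∈ ball p R,
      (K t z - (lam : ℂ) • (1 : Matrix (Fin n) (Fin n) ℂ)).PosSemidef ∧
      ((Lam : ℂ) • (1 : Matrix (Fin n) (Fin n) ℂ) - K t z).PosSemidef) →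
    (∀ t ∈ Ioo 0 T, ∀ z ∈ ball p R, ∀ i j, HasDerivAt (fun s => K s z i j)
      (cHess (fun y => Real.log (K t y).det.re) z i j) t) →
    (∀ t ∈ Icc 0 T, ∀ z ∈ ball p R, ∀ a i j,
      dz a (fun y => K t y i j) z - dz i (fun y => K t y a j) z = τ a i j z) →
    (∀ a i j, ∀ k ≤ 2, ∀ z ∈ ball p R, ‖iteratedFDeriv ℝ k (τ a i j) z‖ ≤ C₀) →
    (∀ z ∈ ball p R, ∀ a i j, ‖dz a (fun y => K 0 y i j) z‖ ≤ C₀) →
    ∀ t ∈ Icc 0 T, ∀ z ∈ closedBall p r, ∀ a i j, ‖dz a (fun y => K t y i j) z‖ ≤ C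

end Vale.Agent.P253W.FP
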