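import Vale.Agent.P253W.Flow
import Vale.Agent.P253W.FP.Defs
import Vale.Agent.P272.K.N.Hess

/-!
# P253W, block FP: the Chern-Ricci flow on `{σ > 0}`. Definitions and statements
-/

set_option maxSynthPendingDepth 3

open scoped Manifold ContDiff Bundle ENNReal Topology ComplexConjugate ComplexOrder Matrix
open Bundle IsManifold MeasureTheory Set Metric Filter Vale.Agent.P253.Mfd Vale.Agent.P253Z
open Vale.Agent.P272.K (Cm dz dzb cHess jacM Chart)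
open Vale.Agent.P272.K.R (Hol Bil D2)
open Vale.Agent.P272.K.LIN (Jet jet)
open Vale.Agent.P272.K.N (lev)

noncomputable section

namespace Vale.Agent.P253W.FP

/-- matrices with the norm of the largest entry -/
abbrev Pm (n : ℕ) : Type := Fin n → Fin n → ℂ

/-- `log det (a + i∂∂̄)` -/
def ΦM {n : ℕ} (q : Pm n × Bil (Cm n)) : ℝ := Real.log (Matrix.of q.1 + lev q.2).det.re

/-- `a^{j k̄} ∂_j ∂_k̄` -/
def ΦL {n : ℕ} (q : Pm n × Bil (Cm n)) : ℝ := trg (Matrix.of q.1) (lev q.2)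

/-- matrices between `Λ⁻¹` and `Λ` -/
def QM (n : ℕ) (Λ : ℝ) : Set (Pm n) :=
  {a | (Matrix.of a - ((Λ⁻¹ : ℝ) : ℂ) • (1 : Mx n)).PosSemidef ∧
    ((Λ : ℂ) • (1 : Mx n) - Matrix.of a).PosSemidef}

/-- **MAQ**: the two model operators -/
structure MAQ (n : ℕ) : Prop where
  cpt : ∀ Λ : ℝ, IsCompact (QM n Λ)
  pos : ∀ Λ : ℝ, 0 < Λ → ∀ a ∈ QM n Λ, (Matrix.of a).PosDef
  bd : ∀ Λ : ℝ, 0 < Λ → ∀ a ∈ QM n Λ, ‖a‖ ≤ Λ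
  near : ∀ Λ : ℝ, 0 < Λ → ∃ η : ℝ, 0 < η ∧ ∀ a₀ ∈ QM n Λ, ∀ a : Pm n,
    (Matrix.of a).IsHermitian → ‖a - a₀‖ ≤ η → a ∈ QM n (2 * Λ)
  unif : ∀ S : Set (Pm n), IsCompact S → (∀ a ∈ S, (Matrix.of a).PosDef) →
    ∃ Λ : ℝ, 1 ≤ Λ ∧ S ⊆ QM n Λ
  levn : ∀ b : Bil (Cm n), ∀ i j, ‖lev b i j‖ ≤ ‖b‖
  oM : IsOpen {q : Pm n × Bil (Cm n) | 0 < (Matrix.of q.1 + lev q.2).det.re}
  sM : ContDiffOn ℝ ∞ (ΦM (n := n)) {q | 0 < (Matrix.of q.1 + lev q.2).det.re}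
  eM : ∀ q : Pm n × Bil (Cm n), (Matrix.of q.1 + lev q.2).PosDef → ∀ ξ : Cm n →L[ℝ] ℝ, ξ ≠ 0 →
    0 < fderiv ℝ ΦM q (0, ξ.smulRight ξ)
  oL : IsOpen {q : Pm n × Bil (Cm n) | (Matrix.of q.1).det ≠ 0}
  sL : ContDiffOn ℝ ∞ (ΦL (n := n)) {q | (Matrix.of q.1).det ≠ 0}
  eL : ∀ q : Pm n × Bil (Cm n), (Matrix.of q.1).PosDef → ∀ ξ : Cm n →L[ℝ] ℝ, ξ ≠ 0 →
    0 < fderiv ℝ ΦL q (0, ξ.smulRight ξ)

variable {n : ℕ} {M : Type} [MetricSpace M] [ChartedSpace (Cm n) M]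

variable (n) in
/-- smooth on `I × {σ > 0}` -/
def SmD (σ : M → ℝ) (I : Set ℝ) (f : ℝ → M → ℝ) : Prop :=
  ∀ e : Chart n M, Hc e → ContDiffOn ℝ ∞ (ch e f) (I ×ˢ {z ∈ e.target | 0 < σ (e.symm z)})

variable (n M) in
/-- **AT**: uniform atlases on `{σ > 0}` at the scale `r σ` -/
def AT : Prop :=
  ∀ σ : M → ℝ, Sm n σ → IsCompact (closure {x | 0 < σ x}) →
    ∃ (m : ℕ) (c : Fin m → Chart n M) (Q : Fin m → Set (Cm n)) (K r₀ : ℝ) (N₀ : ℕ), 0 < r₀ ∧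
      (∀ a, Hc (c a) ∧ IsCompact (Q a) ∧ Q a ⊆ (c a).target) ∧ ∀ r ∈ Ioc 0 r₀,
      ∃ (𝒜 : UA (Cm n) M K N₀) (a : 𝒜.ι → Fin m) (p : 𝒜.ι → Cm n) (s : 𝒜.ι → ℝ),
        (∀ i, Hc (𝒜.e i) ∧ 0 < s i ∧ s i ≤ 1 ∧
          (∀ y, (𝒜.e i).symm y = (c (a i)).symm (p i + s i • y)) ∧
          ball (p i) (4 * s i) ⊆ Q (a i) ∧ ∀ z ∈ ball (p i) (4 * s i),
            r * σ ((c (a i)).symm z) ≤ 4 * s i ∧ s i ≤ 4 * (r * σ ((c (a i)).symm z))) ∧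
        ∀ x, 0 < σ x → ∃ i, ∃ y ∈ ball (0 : Cm n) 4, x = (𝒜.e i).symm y

variable [RiemannianBundle (fun x : M => TangentSpace 𝓘(ℝ, Cm n) x)]

/-- the metric `h = σ⁻² ω₀` -/
def hh (σ : M → ℝ) (e : Chart n M) (z : Cm n) : Mx n :=
  (((σ (e.symm z))⁻¹ ^ 2 : ℝ) : ℂ) • hm e z

/-- the Chern-Ricci form of `h` -/
def rh (σ : M → ℝ) (e : Chart n M) (z : Cm n) : Mx n :=
  ric e z + (n : ℂ) • hs (fun x => 2 * Real.log (σ x)) e z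

/-- the metric `h - t Ric(h) + i∂∂̄φ_t` -/
def gh (σ : M → ℝ) (φ : ℝ → M → ℝ) (t : ℝ) (e : Chart n M) (z : Cm n) : Mx n :=
  hh σ e z - (t : ℂ) • rh σ e z + hs (φ t) e z

variable (n) in
/-- `log (ω_t^n / h^n)` -/
def lvh (σ : M → ℝ) (φ : ℝ → M → ℝ) (t : ℝ) (x : M) : ℝ :=
  Real.log ((gh σ φ t (pc n x) (pc n x x)).det.re / (hh σ (pc n x) (pc n x x)).det.re)

variable (n) in
/-- a smooth solution on `[0, T] × {σ > 0}` -/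
structure Sol (σ : M → ℝ) (T : ℝ) (φ : ℝ → M → ℝ) : Prop where
  sm : SmD n σ (Icc 0 T) φ
  zero : ∀ x, 0 < σ x → φ 0 x = 0
  pos : ∀ t ∈ Icc 0 T, ∀ e : Chart n M, Hc e → ∀ z ∈ e.target, 0 < σ (e.symm z) →
    (gh σ φ t e z).PosDef
  eq : ∀ t ∈ Icc 0 T, ∀ x, 0 < σ x →
    HasDerivWithinAt (fun s => φ s x) (lvh n σ φ t x) (Icc 0 T) t

variable (n) in
/-- `c h ≤ ω_t ≤ C h` -/
def Bd (σ : M → ℝ) (T : ℝ) (φ : ℝ → M → ℝ) (c C : ℝ) : Prop :=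
  ∀ t ∈ Icc 0 T, ∀ e : Chart n M, Hc e → ∀ z ∈ e.target, 0 < σ (e.symm z) →
    (gh σ φ t e z - (c : ℂ) • hh σ e z).PosSemidef ∧ ((C : ℂ) • hh σ e z - gh σ φ t e z).PosSemidef

variable (n) in
/-- a solution of class `C^{2+1/2}` in space and `C¹` in time -/
structure WSol (σ : M → ℝ) (T : ℝ) (φ : ℝ → M → ℝ) : Prop where
  zero : ∀ x, 0 < σ x → φ 0 x = 0
  loc : ∀ x, 0 < σ x → ∃ (e : Chart n M) (U : Set (Cm n)) (C : ℝ), Hc e ∧ x ∈ e.source ∧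
    IsOpen U ∧ e x ∈ U ∧ U ⊆ e.target ∧ (∀ z ∈ U, 0 < σ (e.symm z)) ∧
    Cl (Icc 0 T) U (fun t z => φ t (e.symm z))
      (fun t z => Real.log (gh σ φ t e z).det.re - Real.log (hh σ e z).det.re) ∧
    ∀ t ∈ Icc 0 T, Hol (1 / 2) C (D2 fun z => φ t (e.symm z)) U ∧ ∀ z ∈ U, (gh σ φ t e z).PosDef

variable (n M) in
/-- **MU**: elementary properties -/
structure MU : Prop where
  /-- smoothness is a local property -/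
  loc : ∀ (σ : M → ℝ) (I : Set ℝ) (f : ℝ → M → ℝ), (∀ x, 0 < σ x → ∃ (e : Chart n M)
    (U : Set (Cm n)), Hc e ∧ x ∈ e.source ∧ IsOpen U ∧ e x ∈ U ∧
      ContDiffOn ℝ ∞ (ch e f) (I ×ˢ U)) → SmD n σ I f
  hs_ch : ∀ (f : M → ℝ) (e e' : Chart n M), Hc e → Hc e' → ∀ x ∈ e.source, x ∈ e'.source →
    ContDiffAt ℝ 2 (fun y => f (e'.symm y)) (e' x) →
    ContDiffAt ℝ 2 (fun y => f (e.symm y)) (e x) ∧
      hs f e (e x) = pb (jacM e e' x) (hs f e' (e' x))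
  hh_ch : ∀ (σ : M → ℝ) (e e' : Chart n M), Hc e → Hc e' → ∀ x ∈ e.source, x ∈ e'.source →
    hh σ e (e x) = pb (jacM e e' x) (hh σ e' (e' x))
  rh_ch : ∀ σ : M → ℝ, Sm n σ → ∀ e e' : Chart n M, Hc e → Hc e' → ∀ x ∈ e.source,
    x ∈ e'.source → 0 < σ x → rh σ e (e x) = pb (jacM e e' x) (rh σ e' (e' x))
  hh_pos : ∀ (σ : M → ℝ) (e : Chart n M), Hc e → ∀ z ∈ e.target, 0 < σ (e.symm z) →
    (hh σ e z).PosDef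
  hh_sm : ∀ σ : M → ℝ, Sm n σ → ∀ e : Chart n M, Hc e → ∀ z ∈ e.target, 0 < σ (e.symm z) →
    ∀ j k, ContDiffAt ℝ ∞ (fun y => hh σ e y j k) z ∧ ContDiffAt ℝ ∞ (fun y => rh σ e y j k) z
  rh_eq : ∀ σ : M → ℝ, Sm n σ → ∀ e : Chart n M, Hc e → ∀ z ∈ e.target, 0 < σ (e.symm z) →
    rh σ e z = -cHess (fun y => Real.log (hh σ e y).det.re) z
  /-- quotients of determinants and traces do not depend on the chart -/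
  ld_ch : ∀ (A B J : Mx n), J.det ≠ 0 → A.det.re ≠ 0 → B.det.re ≠ 0 →
    Real.log (pb J A).det.re - Real.log (pb J B).det.re =
      Real.log A.det.re - Real.log B.det.re
  trg_ch : ∀ (A B J : Mx n), J.det ≠ 0 → A.det ≠ 0 → trg (pb J A) (pb J B) = trg A B
  psd_ch : ∀ A J : Mx n, A.PosSemidef → (pb J A).PosSemidef
  pd_ch : ∀ A J : Mx n, J.det ≠ 0 → A.PosDef → (pb J A).PosDef
  lvh_eq : ∀ σ : M → ℝ, Sm n σ → ∀ (φ : ℝ → M → ℝ) (t : ℝ) (e : Chart n M), Hc e →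
    ∀ z ∈ e.target, 0 < σ (e.symm z) → ContDiffAt ℝ 2 (fun y => φ t (e.symm y)) z →
    (gh σ φ t e z).PosDef →
    lvh n σ φ t (e.symm z) = Real.log (gh σ φ t e z).det.re - Real.log (hh σ e z).det.re
  gh_sm : ∀ σ : M → ℝ, Sm n σ → ∀ (T : ℝ) (φ : ℝ → M → ℝ), SmD n σ (Icc 0 T) φ →
    ∀ e : Chart n M, Hc e → ∀ j k, ContDiffOn ℝ ∞ (fun q : ℝ × Cm n => gh σ φ q.1 e q.2 j k)
      (Icc 0 T ×ˢ {z ∈ e.target | 0 < σ (e.symm z)})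
  gh_t : ∀ σ : M → ℝ, Sm n σ → ∀ (T : ℝ) (φ : ℝ → M → ℝ), Sol n σ T φ → ∀ t ∈ Ioo 0 T,
    ∀ e : Chart n M, Hc e → ∀ z ∈ e.target, 0 < σ (e.symm z) → ∀ j k,
    HasDerivAt (fun s => gh σ φ s e z j k)
      (cHess (fun y => Real.log (gh σ φ t e y).det.re) z j k) t
  gh_tor : ∀ σ : M → ℝ, Sm n σ → ∀ (T : ℝ) (φ : ℝ → M → ℝ), SmD n σ (Icc 0 T) φ →
    ∀ t ∈ Icc 0 T, ∀ e : Chart n M, Hc e → ∀ z ∈ e.target, 0 < σ (e.symm z) → ∀ a i j,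
    dz a (fun y => gh σ φ t e y i j) z - dz i (fun y => gh σ φ t e y a j) z =
      dz a (fun y => hh σ e y i j) z - dz i (fun y => hh σ e y a j) z
  gh_zero : ∀ σ : M → ℝ, Sm n σ → ∀ φ : ℝ → M → ℝ, (∀ x, 0 < σ x → φ 0 x = 0) →
    ∀ e : Chart n M, Hc e → ∀ z ∈ e.target, 0 < σ (e.symm z) → gh σ φ 0 e z = hh σ e z
  start : ∀ σ : M → ℝ, Sol n σ 0 (fun _ _ => 0) ∧ Bd n σ 0 (fun _ _ => 0) 1 1
  mono : ∀ (σ : M → ℝ) (T T' : ℝ) (φ : ℝ → M → ℝ), T' ≤ T → Sol n σ T φ → Sol n σ T' φ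
  /-- a smooth solution in a chart -/
  cl : ∀ σ : M → ℝ, Sm n σ → ∀ (T : ℝ) (φ : ℝ → M → ℝ), Sol n σ T φ → ∀ e : Chart n M, Hc e →
    Cl (Icc 0 T) {z ∈ e.target | 0 < σ (e.symm z)} (fun t z => φ t (e.symm z))
      (fun t z => Real.log (gh σ φ t e z).det.re - Real.log (hh σ e z).det.re) ∧
    ∀ z ∈ e.target, 0 < σ (e.symm z) → ∃ r > 0, ∃ C, ∀ t ∈ Icc 0 T,
      Hol (1 / 2) C (D2 fun y => φ t (e.symm y)) (ball z r)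
  one : ∀ (σ : M → ℝ) (φ : ℝ → M → ℝ) (t : ℝ) (e : Chart n M) (z : Cm n),
    (∀ᶠ y in 𝓝 z, σ (e.symm y) = 1) → hh σ e z = hm e z ∧ gh σ φ t e z = g0 φ t e z

variable (n M) in
/-- **WREG**: solutions are smooth -/
def WREG : Prop :=
  ∀ (σ : M → ℝ) (T : ℝ) (φ : ℝ → M → ℝ), Sm n σ → 0 < T → WSol n σ T φ → Sol n σ T φ

variable (n M) in
/-- **W1**: the weighted estimate of Calabi -/
def W1 : Prop :=
  ∀ (σ : M → ℝ) (e : Chart n M) (Q : Set (Cm n)) (c₀ C₀ : ℝ), Sm n σ → Hc e → IsCompact Q →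
    Q ⊆ e.target → 0 < c₀ → ∃ C : ℝ, ∀ (T : ℝ) (φ : ℝ → M → ℝ), 0 ≤ T → Sol n σ T φ →
      Bd n σ T φ c₀ C₀ → ∀ t ∈ Icc 0 T, ∀ z ∈ Q, 0 < σ (e.symm z) → ∀ i j,
        σ (e.symm z) ^ 3 * ‖fderiv ℝ (fun y => gh σ φ t e y i j) z‖ ≤ C

variable (n M) in
/-- **W0**: weighted bounds for the background -/
def W0 : Prop :=
  ∀ (σ : M → ℝ) (e : Chart n M) (Q : Set (Cm n)), Sm n σ → Hc e → IsCompact Q → Q ⊆ e.target →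
    ∃ C : ℝ, 1 ≤ C ∧ ∀ z ∈ Q, 0 < σ (e.symm z) → (fun i j => hm e z i j) ∈ QM n C ∧ ∀ i j,
      σ (e.symm z) ^ 2 * ‖rh σ e z i j‖ ≤ C ∧
      σ (e.symm z) ^ 3 * ‖fderiv ℝ (fun y => rh σ e y i j) z‖ ≤ C ∧
      σ (e.symm z) * ‖fderiv ℝ (fun y => Real.log (hh σ e y).det.re) z‖ ≤ C

variable (n M) in
/-- **STEP**: a solution with bounds extends by a definite time -/
def STEP : Prop :=
  ∀ (σ : M → ℝ) (c₀ C₀ : ℝ), Sm n σ → IsCompact (closure {x | 0 < σ x}) → 0 < c₀ →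
    ∃ τ : ℝ, 0 < τ ∧ ∀ (T : ℝ) (φ : ℝ → M → ℝ), 0 ≤ T → Sol n σ T φ → Bd n σ T φ c₀ C₀ →
      ∃ (φ' : ℝ → M → ℝ) (c C : ℝ), 0 < c ∧ WSol n σ (T + τ) φ' ∧ Bd n σ (T + τ) φ' c C

variable (n M) in
/-- **LT**: existence from a priori bounds -/
def LT : Prop :=
  ∀ (σ : M → ℝ) (T c₀ C₀ : ℝ), Sm n σ → IsCompact (closure {x | 0 < σ x}) → 0 ≤ T → 0 < c₀ →
    (∀ T₁ ∈ Icc 0 T, ∀ (φ : ℝ → M → ℝ) (c C : ℝ), 0 < c → Sol n σ T₁ φ → Bd n σ T₁ φ c C →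
      Bd n σ T₁ φ c₀ C₀) →
    ∃ φ : ℝ → M → ℝ, Sol n σ T φ ∧ Bd n σ T φ c₀ C₀

variable (n M) in
/-- **LIM**: the limit of the approximating flows -/
def LIM : Prop :=
  ∀ (σ : ℕ → M → ℝ) (T : ℕ → ℝ) (φ : ℕ → ℝ → M → ℝ), (∀ k, Sm n (σ k)) →
    (∀ k, Sol n (σ k) (T k) (φ k)) → Tendsto T atTop atTop →
    (∀ (x : M) (S : ℝ), ∃ U ∈ 𝓝 x, ∃ c C : ℝ, 0 < c ∧ ∀ᶠ k in atTop, (∀ y ∈ U, σ k y = 1) ∧
      ∀ t ∈ Icc 0 S, ∀ e : Chart n M, Hc e → ∀ z ∈ e.target, e.symm z ∈ U →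
        (g0 (φ k) t e z - (c : ℂ) • hm e z).PosSemidef ∧
        ((C : ℂ) • hm e z - g0 (φ k) t e z).PosSemidef) →
    ∃ (𝒰 : Ultrafilter ℕ) (ψ : ℝ → M → ℝ), ↑𝒰 ≤ (atTop : Filter ℕ) ∧ SmT n (Ici 0) ψ ∧
      (∀ x, ψ 0 x = 0) ∧
      (∀ t, 0 ≤ t → ∀ e : Chart n M, Hc e → ∀ z ∈ e.target, (g0 ψ t e z).PosDef) ∧
      (∀ t, 0 < t → ∀ x, HasDerivAt (fun s => ψ s x) (lv n ψ t x) t) ∧
      (∀ t, 0 ≤ t → ∀ x, Tendsto (fun k => φ k t x) 𝒰 (𝓝 (ψ t x))) ∧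
      ∀ t, 0 ≤ t → ∀ e : Chart n M, Hc e → ∀ z ∈ e.target, ∀ i j,
        Tendsto (fun k => hs (φ k t) e z i j) 𝒰 (𝓝 (hs (ψ t) e z i j))

variable (n) in
/-- a smooth family of Hermitian metrics -/
structure Fm (T : ℝ) (g : ℝ → Chart n M → Cm n → Mx n) : Prop where
  sm : ∀ e : Chart n M, Hc e → ∀ j k,
    ContDiffOn ℝ ∞ (fun q : ℝ × Cm n => g q.1 e q.2 j k) (Icc 0 T ×ˢ e.target)
  pos : ∀ t ∈ Icc 0 T, ∀ e : Chart n M, Hc e → ∀ z ∈ e.target, (g t e z).PosDef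
  ch : ∀ t ∈ Icc 0 T, ∀ e e' : Chart n M, Hc e → Hc e' → ∀ x ∈ e.source, x ∈ e'.source →
    g t e (e x) = pb (jacM e e' x) (g t e' (e' x))

variable (n M) in
/-- **LINX**: linear equations on `{σ > 0}` -/
def LINX : Prop :=
  ∀ (σ w₀ : M → ℝ) (T : ℝ) (g : ℝ → Chart n M → Cm n → Mx n) (c f : ℝ → M → ℝ), Sm n σ →
    IsCompact (closure {x | 0 < σ x}) → 0 < T → Fm n T g → SmT n (Icc 0 T) c →
    SmT n (Icc 0 T) f → Sm n w₀ → ∃ (w : ℝ → M → ℝ) (C : ℝ), SmD n σ (Icc 0 T) w ∧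
      ∀ x, 0 < σ x → w 0 x = w₀ x ∧ ∀ t ∈ Icc 0 T, |w t x| ≤ C ∧
        HasDerivWithinAt (fun s => w s x)
          (σ x ^ 2 * trg (g t (pc n x) (pc n x x)) (hs (w t) (pc n x) (pc n x x)) -
            c t x * w t x + f t x) (Icc 0 T) t

end Vale.Agent.P253W.FP
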