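import Vale.Agent.P253W.FP.At2

/-!
# P253W, block FP, row AT: uniform atlases
-/

set_option linter.all false
set_option maxSynthPendingDepth 3

open scoped Manifold ContDiff Bundle Topology
open Bundle Set Metric Filter Vale.Agent.P253Z
open Vale.Agent.P272.K (Cm Chart)
open Vale.Agent.P272.K.R (Hol)

noncomputable section

namespace Vale.Agent.P253W.FP

namespace At

variable {n : ℕ} {M : Type} [MetricSpace M] [ChartedSpace (Cm n) M]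

/-- the indices -/
abbrev Ix (n m : ℕ) : Type := Fin m × ℤ × Lat n

/-- the scales -/
def sc (r : ℝ) (μ : ℤ) : ℝ := r / 2 ^ μ

/-- the centres -/
def pp {m : ℕ} (r : ℝ) (i : Ix n m) : Cm n := sc r i.2.1 • emb i.2.2

/-- the partition of unity -/
def FF {m : ℕ} (σ : M → ℝ) (c : Fin m → Chart n M) (ρ : Fin m → M → ℝ) (r : ℝ) (i : Ix n m)
    (x : M) : ℝ :=
  ρ i.1 x * dy (2 ^ i.2.1 * σ x) * T ((sc r i.2.1)⁻¹ • (c i.1 x - pp r i))

theorem sc_pos {r : ℝ} (hr : 0 < r) (μ : ℤ) : 0 < sc r μ := div_pos hr (zpow_pos two_pos μ)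

theorem sc_mul (r : ℝ) (μ : ℤ) : sc r μ * 2 ^ μ = r := div_mul_cancel₀ _ (zpow_pos two_pos μ).ne'

theorem sc_le {r : ℝ} (hr : 0 < r) {μ ν : ℤ} (h : sc r μ ≤ 16 * sc r ν) : ν ≤ μ + 4 := by
  have h1 : (2 : ℝ) ^ ν ≤ 2 ^ (μ + 4) := by
    rw [sc, sc, ← mul_div_assoc, div_le_div_iff₀ (zpow_pos two_pos _) (zpow_pos two_pos _)] at h
    rw [zpow_add₀ two_ne_zero]
    norm_num
    nlinarith
  exact (zpow_le_zpow_iff_right₀ one_lt_two).1 h1

theorem inv_smul_pp {m : ℕ} {r : ℝ} (hr : 0 < r) (i : Ix n m) (w : Cm n) :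
    (sc r i.2.1)⁻¹ • (w - pp r i) = (sc r i.2.1)⁻¹ • w - emb i.2.2 := by
  rw [smul_sub, pp, inv_smul_smul₀ (sc_pos hr _).ne']

theorem mem_bl {p y : Cm n} {s : ℝ} (hs : 0 < s) (hy : ‖y‖ < 4) : p + s • y ∈ ball p (4 * s) := by
  rw [mem_ball, dist_eq_norm, add_sub_cancel_left, norm_smul, Real.norm_of_nonneg hs.le, mul_comm]
  exact mul_lt_mul_of_pos_right hy hs

variable {σ : M → ℝ} {m : ℕ} {c : Fin m → Chart n M} {Q : Fin m → Set (Cm n)}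
  {ρ : Fin m → M → ℝ} {δ L r : ℝ}

theorem good (D : FD σ c Q ρ δ L) (hr : 0 < r) (hrL : 24 * (r * L) ≤ δ) {i : Ix n m}
    (hi : ∃ x, FF σ c ρ r i x ≠ 0) : sc r i.2.1 ≤ 1 ∧
      ball (pp r i) (4 * sc r i.2.1) ⊆ Q i.1 ∧ ∀ z ∈ ball (pp r i) (4 * sc r i.2.1),
        r * σ ((c i.1).symm z) ≤ 4 * sc r i.2.1 ∧ sc r i.2.1 ≤ 4 * (r * σ ((c i.1).symm z)) := by
  obtain ⟨x, hx⟩ := hi
  have hs := sc_pos hr i.2.1
  obtain ⟨h1, h2⟩ := D.ρs _ _ (left_ne_zero_of_mul (left_ne_zero_of_mul hx))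
  obtain ⟨h3, h4⟩ := dy_ne (right_ne_zero_of_mul (left_ne_zero_of_mul hx))
  have h5 := T_ne (right_ne_zero_of_mul hx)
  rw [norm_smul, norm_inv, Real.norm_of_nonneg hs.le, inv_mul_lt_iff₀ hs] at h5
  have h6 : r * σ x = sc r i.2.1 * (2 ^ i.2.1 * σ x) := by rw [← mul_assoc, sc_mul]
  obtain ⟨h7, h8⟩ := D.σl i.1 _ (h2 (mem_ball_self D.δ0))
  simp only [(c i.1).left_inv h1, Real.norm_eq_abs] at h7 h8
  have h9 : sc r i.2.1 ≤ δ / 12 := by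
    nlinarith [mul_le_mul_of_nonneg_left (le_abs_self _ |>.trans h7) hr.le]
  have h10 : ∀ z ∈ ball (pp r i) (4 * sc r i.2.1), ‖c i.1 x - z‖ < 6 * sc r i.2.1 := fun z hz => by
    have := norm_sub_le_norm_sub_add_norm_sub (c i.1 x) (pp r i) z
    rw [mem_ball', dist_eq_norm] at hz
    linarith
  have h11 : ball (pp r i) (4 * sc r i.2.1) ⊆ Q i.1 := fun z hz => h2 (by
    rw [mem_ball', dist_eq_norm]
    linarith [h10 z hz, D.δ0])
  refine ⟨by linarith [D.δ1], h11, fun z hz => ?_⟩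
  have h12 : r * |σ x - σ ((c i.1).symm z)| ≤ sc r i.2.1 / 4 := by
    have h13 := mul_le_mul_of_nonneg_left ((h8 z (h11 hz)).trans
      (mul_le_mul_of_nonneg_left (h10 z hz).le (by linarith [D.L1]))) hr.le
    nlinarith [D.δ1]
  rw [← abs_of_pos hr, ← abs_mul, mul_sub, abs_of_pos hr, abs_le] at h12
  constructor <;> nlinarith [h12.1, h12.2]

theorem ovl (D : FD σ c Q ρ δ L) (hr : 0 < r) (hrL : 24 * (r * L) ≤ δ) {i j : Ix n m}
    (hi : ∃ x, FF σ c ρ r i x ≠ 0) (hj : ∃ x, FF σ c ρ r j x ≠ 0) {y y' : Cm n} (hy : ‖y‖ < 4)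
    (hy' : ‖y'‖ ≤ 3) (h : (c i.1).symm (pp r i + sc r i.2.1 • y') =
      (c j.1).symm (pp r j + sc r j.2.1 • y)) :
    pp r j + sc r j.2.1 • y ∈ Ov (c i.1) (c j.1) (Q i.1) (Q j.1) ∧
      sc r j.2.1 ≤ 16 * sc r i.2.1 ∧ sc r i.2.1 ≤ 16 * sc r j.2.1 ∧
      ‖Tr (c i.1) (c j.1) (pp r j + sc r j.2.1 • y) - pp r i‖ ≤ 3 * sc r i.2.1 := by
  obtain ⟨-, a1, a2⟩ := good D hr hrL hi
  obtain ⟨-, b1, b2⟩ := good D hr hrL hj
  have m1 := mem_bl (p := pp r i) (sc_pos hr i.2.1) (hy'.trans_lt (by norm_num))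
  have m2 := mem_bl (p := pp r j) (sc_pos hr j.2.1) hy
  have a3 := a2 _ m1
  have b3 := b2 _ m2
  rw [h] at a3
  refine ⟨⟨b1 m2, _, a1 m1, h⟩, by linarith [a3.1, b3.2], by linarith [a3.2, b3.1], ?_⟩
  rw [Tr, ← h, (c i.1).right_inv ((D.hc _).2.2 (a1 m1)), add_sub_cancel_left, norm_smul,
    Real.norm_of_nonneg (sc_pos hr _).le, mul_comm]
  exact mul_le_mul_of_nonneg_right hy' (sc_pos hr _).le

theorem ex_N (D : FD σ c Q ρ δ L) (hr : 0 < r) (hrL : 24 * (r * L) ≤ δ) (j : Ix n m)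
    (hj : ∃ x, FF σ c ρ r j x ≠ 0) : ∃ B : Finset (Ix n m),
      B.card ≤ m * (9 * (2 * ⌈128 * L + 3⌉₊ + 2) ^ (n * 2)) ∧ ∀ i, (∃ x, FF σ c ρ r i x ≠ 0) →
      ∀ y y' : Cm n, ‖y‖ < 4 → ‖y'‖ ≤ 3 → (c i.1).symm (pp r i + sc r i.2.1 • y') =
        (c j.1).symm (pp r j + sc r j.2.1 • y) → i ∈ B := by
  classical
  have hw : ∀ a, ∃ w, ∀ z ∈ Ov (c a) (c j.1) (Q a) (Q j.1) ∩ ball (pp r j) (4 * sc r j.2.1),
      ‖w - Tr (c a) (c j.1) z‖ ≤ L * (8 * sc r j.2.1) := fun a => by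
    rcases (Ov (c a) (c j.1) (Q a) (Q j.1) ∩ ball (pp r j) (4 * sc r j.2.1)).eq_empty_or_nonempty
      with h | ⟨z₀, h⟩
    · exact ⟨0, by simp [h]⟩
    · refine ⟨Tr (c a) (c j.1) z₀, fun z hz => ((D.l0 _ _ _ h.1).2 _ hz.1).trans
        (mul_le_mul_of_nonneg_left ?_ (by linarith [D.L1]))⟩
      rw [← dist_eq_norm]
      linarith [dist_triangle_right z₀ z (pp r j), mem_ball.1 h.2, mem_ball.1 hz.2]
  choose w hw using hw
  refine ⟨Finset.univ.biUnion fun a => (Finset.Icc (j.2.1 - 4) (j.2.1 + 4)).biUnion fun μ =>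
    (box ⌈128 * L + 3⌉₊ ((sc r μ)⁻¹ • w a)).image fun k => (a, μ, k), ?_,
    fun i hi y y' hy hy' h => ?_⟩
  · refine (Finset.card_biUnion_le_card_mul _ _ _ fun a _ => ?_).trans (by simp; rfl)
    refine (Finset.card_biUnion_le_card_mul _ _ _ fun μ _ =>
      Finset.card_image_le.trans (card_box _ _).le).trans (le_of_eq ?_)
    rw [Int.card_Icc, show j.2.1 + 4 + 1 - (j.2.1 - 4) = 9 by ring]
    rfl
  · obtain ⟨a1, a2, a3, a4⟩ := ovl D hr hrL hi hj hy hy' h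
    have hs := sc_pos hr i.2.1
    refine Finset.mem_biUnion.2 ⟨i.1, Finset.mem_univ _, Finset.mem_biUnion.2 ⟨i.2.1,
      Finset.mem_Icc.2 ⟨by linarith [sc_le hr a3], sc_le hr a2⟩,
      Finset.mem_image.2 ⟨i.2.2, mem_box (le_trans ?_ (Nat.le_ceil _)), rfl⟩⟩⟩
    rw [← inv_smul_pp hr, norm_smul, norm_inv, Real.norm_of_nonneg hs.le, inv_mul_le_iff₀ hs]
    have h1 := norm_sub_le_norm_sub_add_norm_sub (w i.1)
      (Tr (c i.1) (c j.1) (pp r j + sc r j.2.1 • y)) (pp r i)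
    have h2 := hw i.1 _ ⟨a1, mem_bl (sc_pos hr _) hy⟩
    nlinarith [mul_le_mul_of_nonneg_left a2 (by linarith [D.L1] : 0 ≤ L)]

theorem finsum_FF (D : FD σ c Q ρ δ L) (hr : 0 < r) {x : M} (hx : 0 < σ x)
    (hf : (Function.support fun i => FF σ c ρ r i x).Finite) : ∑ᶠ i, FF σ c ρ r i x = 1 := by
  rw [finsum_curry₃ _ hf, ← D.sum x hx, ← finsum_eq_sum_of_fintype]
  refine finsum_congr fun a => ?_
  have h : ∀ b k, (sc r b)⁻¹ • (c a x - pp r (a, b, k)) = (sc r b)⁻¹ • c a x - emb k :=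
    fun b k => inv_smul_pp hr (a, b, k) _
  simp only [FF, h, ← mul_finsum, finsum_T, mul_one, finsum_dy hx]

theorem ex_FF (D : FD σ c Q ρ δ L) (hr : 0 < r) {x : M} (hx : 0 < σ x) :
    ∃ i, FF σ c ρ r i x ≠ 0 := by
  by_contra hc
  push Not at hc
  have := finsum_FF D hr hx (by simp [hc])
  simp [hc] at this

theorem chi_lip (D : FD σ c Q ρ δ L) (hr : 0 < r) (hrL : 24 * (r * L) ≤ δ) {i : Ix n m}
    (hi : ∃ x, FF σ c ρ r i x ≠ 0) : Hol 1 (16 * L + 1 + 4 * n) (fun y : Cm n =>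
      ρ i.1 ((c i.1).symm (pp r i + sc r i.2.1 • y)) *
        dy (2 ^ i.2.1 * σ ((c i.1).symm (pp r i + sc r i.2.1 • y))) * T y) (ball 0 4) := by
  intro y hy y' hy'
  obtain ⟨a0, a1, -⟩ := good D hr hrL hi
  have hs := sc_pos hr i.2.1
  have m1 := a1 (mem_bl hs (mem_ball_zero_iff.1 hy))
  have m2 := a1 (mem_bl hs (mem_ball_zero_iff.1 hy'))
  have h1 := (D.ρl _ _ m1).2 _ m2
  have h2 := (D.σl _ _ m1).2 _ m2
  rw [add_sub_add_left_eq_sub, ← smul_sub, norm_smul, Real.norm_of_nonneg hs.le,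
    Real.norm_eq_abs] at h1 h2
  rw [Real.rpow_one, Real.norm_eq_abs]
  refine (abs_mul3_sub (abs_cl_sub _ _) (abs_T_le _) (D.ρb _ _) (abs_cl_sub _ _)).trans ?_
  have h3 := dy_lip (2 ^ i.2.1 * σ ((c i.1).symm (pp r i + sc r i.2.1 • y)))
    (2 ^ i.2.1 * σ ((c i.1).symm (pp r i + sc r i.2.1 • y')))
  rw [← mul_sub, abs_mul, abs_of_pos (zpow_pos (two_pos (α := ℝ)) i.2.1)] at h3
  have h4 := mul_le_mul_of_nonneg_left h2 (zpow_pos (two_pos (α := ℝ)) i.2.1).le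
  have h5 : 2 ^ i.2.1 * (L * (sc r i.2.1 * ‖y - y'‖)) = r * L * ‖y - y'‖ := by
    linear_combination L * ‖y - y'‖ * sc_mul r i.2.1
  have h6 := norm_nonneg (y - y')
  have h7 : 0 ≤ L * ‖y - y'‖ := mul_nonneg (by linarith [D.L1]) h6
  have h8 : r * L * ‖y - y'‖ ≤ 1 / 24 * ‖y - y'‖ :=
    mul_le_mul_of_nonneg_right (by linarith [D.δ1]) h6
  have h9 := T_lip y y'
  unfold dy at h3
  nlinarith [mul_le_mul_of_nonneg_left a0 h7]

variable [RiemannianBundle (fun x : M => TangentSpace 𝓘(ℝ, Cm n) x)]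

theorem ex_aff (h : B1a n M) {e : Chart n M} (he : Hc e) {s : ℝ} (hs : 0 < s) (p : Cm n) :
    ∃ e' : Chart n M, Hc e' ∧ e'.source = e.source ∧ (∀ z, p + s • z ∈ e.target → z ∈ e'.target) ∧
      (∀ x, e' x = s⁻¹ • (e x - p)) ∧ ∀ z, e'.symm z = e.symm (p + s • z) := by
  obtain ⟨e', h1, h2, h3, h4, h5, -⟩ := h.aff e he (ContinuousLinearEquiv.equivOfInverse
    (s⁻¹ • ContinuousLinearMap.id ℂ (Cm n)) (s • ContinuousLinearMap.id ℂ (Cm n))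
    (fun z => smul_inv_smul₀ hs.ne' z) fun z => inv_smul_smul₀ hs.ne' z) p
  refine ⟨e', h1, h2, fun z hz => ?_, h4, fun z => ?_⟩
  · rw [h3]
    rwa [add_comm] at hz
  · rw [h5, add_comm p]
    rfl

end At

open At in
theorem at_of {n : ℕ} {M : Type} [MetricSpace M] [ChartedSpace (Cm n) M]
    [RiemannianBundle (fun x : M => TangentSpace 𝓘(ℝ, Cm n) x)] (h : B1a n M) : AT n M := by
  classical
  intro σ hσ hK
  obtain ⟨m, c, Q, ρ, δ, L, D⟩ := ex_fd h hσ hK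
  have hL : 0 < L := one_pos.trans_le D.L1
  refine ⟨m, c, Q, 16 * L + 1 + 4 * n, δ / (24 * L), m * (9 * (2 * ⌈128 * L + 3⌉₊ + 2) ^ (n * 2)),
    div_pos D.δ0 (by positivity), D.hc, fun r ⟨hr, hr'⟩ => ?_⟩
  have hrL : 24 * (r * L) ≤ δ := by linarith [(le_div_iff₀ (by positivity)).1 hr']
  choose e e1 e2 e3 e4 e5 using fun i : Ix n m => ex_aff h (D.hc i.1).1 (sc_pos hr i.2.1) (pp r i)
  let ι : Type := {i : Ix n m // ∃ x, FF σ c ρ r i x ≠ 0}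
  choose B B1 B2 using fun j : ι => ex_N D hr hrL j.1 j.2
  let χ : Ix n m → Cm n → ℝ := fun i y => ρ i.1 ((c i.1).symm (pp r i + sc r i.2.1 • y)) *
    dy (2 ^ i.2.1 * σ ((c i.1).symm (pp r i + sc r i.2.1 • y))) * T y
  have hχ : ∀ i x, ext (e i) (χ i) x = FF σ c ρ r i x := fun i x => by
    by_cases hx : x ∈ (e i).source
    · rw [ext, indicator_of_mem hx]
      simp only [χ, ← e5, (e i).left_inv hx]
      rw [e4, FF]
    · rw [ext, indicator_of_notMem hx, FF, show ρ i.1 x = 0 from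
        by_contra fun h0 => hx (e2 i ▸ (D.ρs _ _ h0).1), zero_mul, zero_mul]
  have hF : ∀ i x, FF σ c ρ r i x ≠ 0 → ∃ y, ‖y‖ < 2 ∧ (e i).symm y = x := fun i x hx =>
    ⟨e i x, e4 i x ▸ T_ne (right_ne_zero_of_mul hx), (e i).left_inv
      (e2 i ▸ (D.ρs _ _ (left_ne_zero_of_mul (left_ne_zero_of_mul hx))).1)⟩
  have hT : ∀ i j : Ix n m, (fun z => e i ((e j).symm z)) = fun z =>
      (sc r i.2.1)⁻¹ • (Tr (c i.1) (c j.1) (pp r j + sc r j.2.1 • z) - pp r i) := fun i j =>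
    funext fun z => by rw [e4, e5, Tr]
  have hT1 : ∀ i j : Ix n m, fderiv ℝ (fun z => e i ((e j).symm z)) = fun z =>
      ((sc r i.2.1)⁻¹ * sc r j.2.1) •
        fderiv ℝ (Tr (c i.1) (c j.1)) (pp r j + sc r j.2.1 • z) := fun i j => by
    rw [hT, fderiv_scale]
  have hT2 : ∀ i j : Ix n m, fderiv ℝ (fderiv ℝ fun z => e i ((e j).symm z)) = fun z =>
      ((sc r i.2.1)⁻¹ * sc r j.2.1 * sc r j.2.1) •
        fderiv ℝ (fderiv ℝ (Tr (c i.1) (c j.1))) (pp r j + sc r j.2.1 • z) := fun i j => by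
    rw [hT1, fderiv_scale']
  have hO : ∀ i j : ι, ∀ y ∈ ball (0 : Cm n) 4, (e j).symm y ∈ (e i).symm '' closedBall 0 3 →
      pp r j.1 + sc r j.1.2.1 • y ∈ Ov (c i.1.1) (c j.1.1) (Q i.1.1) (Q j.1.1) ∧
        (sc r i.1.2.1)⁻¹ * sc r j.1.2.1 * L ≤ 16 * L + 1 + 4 * n := by
    rintro i j y hy ⟨y', hy', h0⟩
    rw [e5, e5] at h0
    obtain ⟨a1, a2, -⟩ := ovl D hr hrL i.2 j.2 (mem_ball_zero_iff.1 hy)
      (mem_closedBall_zero_iff.1 hy') h0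
    have a3 : (sc r i.1.2.1)⁻¹ * sc r j.1.2.1 ≤ 16 :=
      (inv_mul_le_iff₀ (sc_pos hr _)).2 (by linarith)
    have a4 : (0 : ℝ) ≤ n := Nat.cast_nonneg n
    exact ⟨a1, by nlinarith⟩
  have hs := sc_pos hr
  have hs1 : ∀ (j : ι) (u K : ℝ), 0 ≤ u → u * L ≤ K → u * sc r j.1.2.1 * L ≤ K :=
    fun j u K hu hK => by
      nlinarith [mul_le_mul_of_nonneg_left (good D hr hrL j.2).1 (mul_nonneg hu hL.le)]
  have hu : ∀ i j : ι, 0 ≤ (sc r i.1.2.1)⁻¹ * sc r j.1.2.1 := fun i j =>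
    mul_nonneg (inv_pos.2 (hs _)).le (hs _).le
  have hmem : ∀ i j : ι, ∀ y ∈ ball (0 : Cm n) 4, (e j).symm y ∈ (e i).symm '' closedBall 0 3 →
      i.1 ∈ B j := by
    rintro i j y hy ⟨y', hy', h0⟩
    rw [e5, e5] at h0
    exact B2 j i.1 i.2 y y' (mem_ball_zero_iff.1 hy) (mem_closedBall_zero_iff.1 hy') h0
  refine ⟨⟨ι, fun i => e i.1, fun i => χ i.1, fun j => (B j).subtype _, fun i y hy => ?_,
    fun i y hy => ?_, fun i y => ?_, fun i => chi_lip D hr hrL i.2, fun j => ?_,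
    fun i j y hy h0 => Finset.mem_subtype.2 (hmem i j y hy h0), fun j y hy => ?_,
    fun i j y hy h0 => ?_, fun i j y hy y' hy' => ?_, fun i j y hy y' hy' => ?_,
    fun i j y hy y' hy' => ?_⟩, fun i => i.1.1, fun i => pp r i.1, fun i => sc r i.1.2.1,
    fun i => ⟨e1 _, hs _, (good D hr hrL i.2).1, e5 _, (good D hr hrL i.2).2⟩, fun x hx => ?_⟩
  · exact e3 _ _ ((D.hc _).2.2 ((good D hr hrL i.2).2.1 (mem_bl (hs _) (mem_ball_zero_iff.1 hy))))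
  · exact mul_eq_zero_of_right _ (by_contra fun h0 => hy.not_gt (T_ne h0))
  · simp only [χ, abs_mul]
    exact mul_le_one₀ (mul_le_one₀ (D.ρb _ _) (abs_nonneg _) (abs_cl_sub _ _)) (abs_nonneg _)
      (abs_T_le _)
  · rw [Finset.card_subtype]
    exact (Finset.card_filter_le _ _).trans (B1 j)
  · have h1 : (Function.support fun i => FF σ c ρ r i ((e j).symm y)) ⊆
        ((B j).filter fun i => ∃ x, FF σ c ρ r i x ≠ 0 : Finset _) := fun i hi => by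
      obtain ⟨y', a1, a2⟩ := hF i _ hi
      exact Finset.mem_coe.2 (Finset.mem_filter.2 ⟨hmem ⟨i, _, hi⟩ j y hy
        ⟨y', mem_closedBall_zero_iff.2 (by linarith), a2⟩, _, hi⟩)
    have h2 : 0 < σ ((e j).symm y) := by
      have := ((good D hr hrL j.2).2.2 _ (mem_bl (hs _) (mem_ball_zero_iff.1 hy))).2
      rw [e5]
      exact (mul_pos_iff_of_pos_left hr).1 (by linarith [hs j.1.2.1])
    simp only [hχ]
    rw [Finset.sum_subtype_eq_sum_filter fun i => FF σ c ρ r i ((e j).symm y),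
      ← finsum_eq_sum_of_support_subset _ h1]
    exact finsum_FF D hr h2 ((Finset.finite_toSet _).subset h1)
  · obtain ⟨a1, a2⟩ := hO i j y hy h0
    refine ⟨?_, ?_, ?_⟩
    · rw [hT]
      exact ((ContDiffAt.comp (f := fun z : Cm n => pp r j.1 + sc r j.1.2.1 • z) y (D.sm _ _ _ a1)
        (by fun_prop)).sub contDiffAt_const).const_smul _
    · rw [hT1]
      exact scale_bd (D.l1 _ _) (hu i j) a2 a1
    · rw [hT2]
      exact scale_bd (D.l2 _ _) (mul_nonneg (hu i j) (hs _).le) (hs1 j _ _ (hu i j) a2) a1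
  · rw [Real.rpow_one, hT]
    exact scale_lip (D.l0 _ _) (inv_pos.2 (hs _)).le (hs _).le (hO i j y hy.1 hy.2).2 _
      (hO i j y hy.1 hy.2).1 (hO i j y' hy'.1 hy'.2).1
  · rw [Real.rpow_one, hT1]
    exact scale_lip' (D.l1 _ _) (hu i j) (hs _).le (hs1 j _ _ (hu i j) (hO i j y hy.1 hy.2).2)
      (hO i j y hy.1 hy.2).1 (hO i j y' hy'.1 hy'.2).1
  · rw [Real.rpow_one, hT2]
    exact scale_lip' (D.l2 _ _) (mul_nonneg (hu i j) (hs _).le) (hs _).le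
      (hs1 j _ _ (mul_nonneg (hu i j) (hs _).le) (hs1 j _ _ (hu i j) (hO i j y hy.1 hy.2).2))
      (hO i j y hy.1 hy.2).1 (hO i j y' hy'.1 hy'.2).1
  · obtain ⟨i, hi⟩ := ex_FF D hr hx
    obtain ⟨y, a1, a2⟩ := hF i x hi
    exact ⟨⟨i, x, hi⟩, y, mem_ball_zero_iff.2 (by linarith), a2.symm⟩

end Vale.Agent.P253W.FP
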