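import Mathlib

/-!
# P253W, block FP, row AT, first part: tents, the lattice, Lipschitz bounds
-/

set_option linter.all false

open Set Metric Filter Topology

noncomputable section

namespace Vale.Agent.P253W.FP.At

/-- the clamp -/
def cl (x : ℝ) : ℝ := max 0 (min 1 x)

theorem cl_zero {x : ℝ} (h : x ≤ 0) : cl x = 0 := max_eq_left ((min_le_right _ _).trans h)

theorem cl_one {x : ℝ} (h : 1 ≤ x) : cl x = 1 := by rw [cl, min_eq_left h, max_eq_right zero_le_one]

theorem cl_mem (x : ℝ) : 0 ≤ cl x ∧ cl x ≤ 1 :=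
  ⟨le_max_left _ _, max_le zero_le_one (min_le_left _ _)⟩

theorem cl_lip (x y : ℝ) : |cl x - cl y| ≤ |x - y| := by
  have h1 := abs_max_sub_max_le_abs (min 1 x) (min 1 y) 0
  have h2 := abs_min_sub_min_le_max 1 x 1 y
  rw [sub_self, abs_zero, max_eq_right (abs_nonneg _)] at h2
  rw [cl, cl, max_comm, max_comm 0]
  exact h1.trans h2

/-- the tent -/
def tent (x : ℝ) : ℝ := cl (x + 1) - cl x

/-- the dyadic tent -/
def dy (t : ℝ) : ℝ := cl (2 * t - 1) - cl (t - 1)

theorem abs_cl_sub (x y : ℝ) : |cl x - cl y| ≤ 1 :=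
  abs_le.2 ⟨by linarith [cl_mem x, cl_mem y], by linarith [cl_mem x, cl_mem y]⟩

theorem tent_ne {x : ℝ} (h : tent x ≠ 0) : |x| < 1 := by
  rw [abs_lt]
  constructor <;> by_contra hc <;> apply h
  · rw [tent, cl_zero (by linarith), cl_zero (by linarith), sub_self]
  · rw [tent, cl_one (by linarith), cl_one (by linarith), sub_self]

theorem dy_ne {t : ℝ} (h : dy t ≠ 0) : 1 / 2 < t ∧ t < 2 := by
  constructor <;> by_contra hc <;> apply h
  · rw [dy, cl_zero (by linarith), cl_zero (by linarith), sub_self]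
  · rw [dy, cl_one (by linarith), cl_one (by linarith), sub_self]

theorem sub_lip (a b c d : ℝ) : |cl a - cl b - (cl c - cl d)| ≤ |a - c| + |b - d| := by
  have h := abs_sub (cl a - cl c) (cl b - cl d)
  rw [show cl a - cl c - (cl b - cl d) = cl a - cl b - (cl c - cl d) by ring] at h
  linarith [cl_lip a c, cl_lip b d]

theorem tent_lip (x y : ℝ) : |tent x - tent y| ≤ 2 * |x - y| := by
  have h := sub_lip (x + 1) x (y + 1) y
  rw [add_sub_add_right_eq_sub] at h
  unfold tent; linarith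

theorem dy_lip (x y : ℝ) : |dy x - dy y| ≤ 3 * |x - y| := by
  have h := sub_lip (2 * x - 1) (x - 1) (2 * y - 1) (y - 1)
  rw [sub_sub_sub_cancel_right, sub_sub_sub_cancel_right, ← mul_sub, abs_mul, abs_two] at h
  unfold dy; linarith

theorem finsum_dy {t : ℝ} (ht : 0 < t) : ∑ᶠ μ : ℤ, dy (2 ^ μ * t) = 1 := by
  obtain ⟨ν, h1, h2⟩ := exists_mem_Ico_zpow ht (one_lt_two (α := ℝ))
  have h0 : (2 : ℝ) ≠ 0 := two_ne_zero
  have e : ∀ μ : ℤ, (2 : ℝ) ^ μ * 2 ^ ν = 2 ^ (μ + ν) := fun μ => (zpow_add₀ h0 _ _).symm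
  have a1 : 1 ≤ 2 ^ (-ν) * t := by
    have := mul_le_mul_of_nonneg_left h1 (zpow_pos two_pos (-ν)).le
    rwa [e, neg_add_cancel, zpow_zero] at this
  have a2 : 2 ^ (-ν) * t < 2 := by
    have := mul_lt_mul_of_pos_left h2 (zpow_pos two_pos (-ν))
    rwa [← zpow_add₀ h0, neg_add_cancel_left, zpow_one] at this
  have a3 : (2 : ℝ) ^ (-ν - 1) * t = 2 ^ (-ν) * t / 2 := by rw [zpow_sub_one₀ h0]; ring
  rw [finsum_eq_sum_of_support_subset (s := {-ν - 1, -ν}), Finset.sum_pair (by omega), dy, dy, a3,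
    cl_zero (x := _ / 2 - 1) (by linarith), cl_one (x := 2 * (2 ^ (-ν) * t) - 1) (by linarith)]
  · rw [show 2 * (2 ^ (-ν) * t / 2) - 1 = 2 ^ (-ν) * t - 1 by ring]; ring
  · intro μ hμ
    obtain ⟨b1, b2⟩ := dy_ne hμ
    have c1 : (2 : ℝ) ^ (μ + ν) < 2 ^ (1 : ℤ) := by
      rw [← e, zpow_one]
      exact (mul_le_mul_of_nonneg_left h1 (zpow_pos two_pos μ).le).trans_lt b2
    have c2 : (2 : ℝ) ^ (-1 : ℤ) < 2 ^ (μ + (ν + 1)) := by
      rw [zpow_add₀ h0, zpow_neg_one, ← one_div]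
      exact b1.trans (mul_lt_mul_of_pos_left h2 (zpow_pos two_pos μ))
    rw [zpow_lt_zpow_iff_right₀ one_lt_two] at c1 c2
    simp only [Finset.coe_insert, Finset.coe_singleton, mem_insert_iff, mem_singleton_iff]
    omega

theorem sum_tent (x : ℝ) : ∑ k ∈ ({⌊x⌋, ⌊x⌋ + 1} : Finset ℤ), tent (x - k) = 1 := by
  have h1 := Int.floor_le x
  have h2 := Int.lt_floor_add_one x
  rw [Finset.sum_pair (by omega), tent, tent, cl_one (x := x - _ + 1) (by linarith),
    cl_zero (x := x - ((⌊x⌋ + 1 : ℤ) : ℝ)) (by push_cast; linarith)]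
  push_cast
  rw [show x - (⌊x⌋ + 1) + 1 = x - ⌊x⌋ by ring]
  ring

theorem abs_prod_sub {ι : Type*} (s : Finset ι) {a b : ι → ℝ} (ha : ∀ i, |a i| ≤ 1)
    (hb : ∀ i, |b i| ≤ 1) : |∏ i ∈ s, a i - ∏ i ∈ s, b i| ≤ ∑ i ∈ s, |a i - b i| := by
  classical
  induction s using Finset.induction_on with
  | empty => simp
  | insert j s hj ih =>
    rw [Finset.prod_insert hj, Finset.prod_insert hj, Finset.sum_insert hj]
    have h1 : |∏ i ∈ s, a i| ≤ 1 := by
      rw [Finset.abs_prod]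
      exact Finset.prod_le_one (fun _ _ => abs_nonneg _) fun i _ => ha i
    calc _ = |(a j - b j) * ∏ i ∈ s, a i + b j * (∏ i ∈ s, a i - ∏ i ∈ s, b i)| := by ring_nf
      _ ≤ |a j - b j| * |∏ i ∈ s, a i| + |b j| * |∏ i ∈ s, a i - ∏ i ∈ s, b i| := by
        rw [← abs_mul, ← abs_mul]; exact abs_add_le _ _
      _ ≤ _ := add_le_add (mul_le_of_le_one_right (abs_nonneg _) h1)
        ((mul_le_of_le_one_left (abs_nonneg _) (hb j)).trans ih)

theorem abs_mul3_sub {a b c a' b' c' : ℝ} (hb : |b| ≤ 1) (hc : |c| ≤ 1) (ha' : |a'| ≤ 1)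
    (hb' : |b'| ≤ 1) : |a * b * c - a' * b' * c'| ≤ |a - a'| + |b - b'| + |c - c'| := by
  calc _ = |(a - a') * (b * c) + a' * c * (b - b') + a' * b' * (c - c')| := by ring_nf
    _ ≤ |a - a'| * (|b| * |c|) + |a'| * |c| * |b - b'| + |a'| * |b'| * |c - c'| := by
      simp only [← abs_mul]
      exact abs_add_three _ _ _
    _ ≤ _ := add_le_add (add_le_add
      (mul_le_of_le_one_right (abs_nonneg _) (mul_le_one₀ hb (abs_nonneg _) hc))
      (mul_le_of_le_one_left (abs_nonneg _) (mul_le_one₀ ha' (abs_nonneg _) hc)))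
      (mul_le_of_le_one_left (abs_nonneg _) (mul_le_one₀ ha' (abs_nonneg _) hb'))

variable {n : ℕ}

/-- the real coordinates -/
def co (y : Fin n → ℂ) (q : Fin n × Bool) : ℝ := if q.2 then (y q.1).re else (y q.1).im

/-- the lattice -/
abbrev Lat (n : ℕ) : Type := Fin n × Bool → ℤ

/-- the lattice points -/
def emb (k : Lat n) : Fin n → ℂ := fun l => ⟨k (l, true), k (l, false)⟩

theorem co_sub (y y' : Fin n → ℂ) (q : Fin n × Bool) : co (y - y') q = co y q - co y' q := by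
  unfold co; split_ifs <;> simp

theorem co_emb (k : Lat n) (q : Fin n × Bool) : co (emb k) q = k q := by
  obtain ⟨l, _ | _⟩ := q <;> simp [co, emb]

theorem abs_co_le (y : Fin n → ℂ) (q : Fin n × Bool) : |co y q| ≤ ‖y‖ := by
  refine le_trans ?_ (norm_le_pi_norm y q.1)
  unfold co; split_ifs
  · exact Complex.abs_re_le_norm _
  · exact Complex.abs_im_le_norm _

/-- the product of the tents -/
def T (y : Fin n → ℂ) : ℝ := ∏ q, tent (co y q)

theorem abs_T_le (y : Fin n → ℂ) : |T y| ≤ 1 := by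
  rw [T, Finset.abs_prod]
  exact Finset.prod_le_one (fun _ _ => abs_nonneg _) fun i _ => abs_cl_sub _ _

theorem T_ne {y : Fin n → ℂ} (h : T y ≠ 0) : ‖y‖ < 2 := by
  refine (pi_norm_lt_iff two_pos).2 fun l => ?_
  have h1 := tent_ne (Finset.prod_ne_zero_iff.1 h (l, true) (Finset.mem_univ _))
  have h2 := tent_ne (Finset.prod_ne_zero_iff.1 h (l, false) (Finset.mem_univ _))
  simp only [co, if_true, Bool.false_eq_true, if_false] at h1 h2
  linarith [Complex.norm_le_abs_re_add_abs_im (y l)]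

theorem T_lip (y y' : Fin n → ℂ) : |T y - T y'| ≤ 4 * n * ‖y - y'‖ := by
  refine (abs_prod_sub _ (fun _ => abs_cl_sub _ _) fun _ => abs_cl_sub _ _).trans ?_
  refine (Finset.sum_le_card_nsmul _ _ (2 * ‖y - y'‖) fun q _ => ?_).trans (le_of_eq ?_)
  · refine (tent_lip _ _).trans ?_
    rw [← co_sub]
    linarith [abs_co_le (y - y') q]
  · simp; ring

theorem finsum_T (y : Fin n → ℂ) : ∑ᶠ k : Lat n, T (y - emb k) = 1 := by
  rw [finsum_eq_sum_of_support_subset
    (s := Fintype.piFinset fun q => ({⌊co y q⌋, ⌊co y q⌋ + 1} : Finset ℤ))]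
  · simp only [T, co_sub, co_emb]
    rw [← Finset.prod_univ_sum (fun q => ({⌊co y q⌋, ⌊co y q⌋ + 1} : Finset ℤ))
      fun q (k : ℤ) => tent (co y q - k)]
    exact Finset.prod_eq_one fun q _ => sum_tent _
  · intro k hk
    refine Fintype.mem_piFinset.2 fun q => ?_
    have h1 := abs_lt.1 (tent_ne (Finset.prod_ne_zero_iff.1 hk q (Finset.mem_univ _)))
    rw [co_sub, co_emb] at h1
    have h2 : k q - 1 ≤ ⌊co y q⌋ := Int.le_floor.2 (by push_cast; linarith)
    have h3 : ⌊co y q⌋ < k q + 1 := Int.floor_lt.2 (by push_cast; linarith)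
    simp only [Finset.mem_insert, Finset.mem_singleton]
    omega

/-- a box of lattice points -/
def box (R : ℕ) (w : Fin n → ℂ) : Finset (Lat n) :=
  Fintype.piFinset fun q => Finset.Icc (⌊co w q⌋ - R) (⌊co w q⌋ + R + 1)

theorem card_box (R : ℕ) (w : Fin n → ℂ) : (box R w).card = (2 * R + 2) ^ (n * 2) := by
  have h : ∀ a : ℤ, (a + R + 1 + 1 - (a - R)).toNat = 2 * R + 2 := fun a => by omega
  simp [box, h]

theorem mem_box {R : ℕ} {w : Fin n → ℂ} {k : Lat n} (h : ‖w - emb k‖ ≤ R) : k ∈ box R w := by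
  refine Fintype.mem_piFinset.2 fun q => Finset.mem_Icc.2 ?_
  have h1 := abs_le.1 ((abs_co_le _ q).trans h)
  rw [co_sub, co_emb] at h1
  have h2 : k q - R - 1 ≤ ⌊co w q⌋ := Int.le_floor.2 (by push_cast; linarith)
  have h3 : ⌊co w q⌋ < k q + R + 1 := Int.floor_lt.2 (by push_cast; linarith)
  omega

section lip

variable {E F : Type*} [NormedAddCommGroup E] [NormedSpace ℝ E] [NormedAddCommGroup F]
  [NormedSpace ℝ F]

/-- bounded and Lipschitz -/
def BL (L : ℝ) (f : E → F) (s : Set E) : Prop :=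
  ∀ x ∈ s, ‖f x‖ ≤ L ∧ ∀ y ∈ s, ‖f x - f y‖ ≤ L * ‖x - y‖

theorem ev_BL {f : E → F} {s : Set E} (hs : IsCompact s) (hf : ∀ x ∈ s, ContDiffAt ℝ 1 f x) :
    ∀ᶠ L in atTop, BL L f s := by
  obtain ⟨K, hK⟩ := LocallyLipschitzOn.exists_lipschitzOnWith_of_compact (f := f) hs
    fun x hx => by
      obtain ⟨K, t, ht, h⟩ := (hf x hx).exists_lipschitzOnWith
      exact ⟨K, t, mem_nhdsWithin_of_mem_nhds ht, h⟩
  obtain ⟨C, hC⟩ := hs.exists_bound_of_continuousOn hK.continuousOn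
  filter_upwards [eventually_ge_atTop (K : ℝ), eventually_ge_atTop C] with L h1 h2 x hx
  exact ⟨(hC x hx).trans h2, fun y hy => (hK.norm_sub_le hx hy).trans
    (mul_le_mul_of_nonneg_right h1 (norm_nonneg _))⟩

theorem fderiv_scale (f : E → F) (u s : ℝ) (p : E) (q : F) :
    fderiv ℝ (fun y => u • (f (p + s • y) - q)) = fun y => (u * s) • fderiv ℝ f (p + s • y) := by
  funext y
  have h1 := congrFun (fderiv_const_smul_field (𝕜 := ℝ) (f := fun y => f (p + s • y) - q) u) y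
  have h2 := fderiv_comp_smul (𝕜 := ℝ) (f := fun x => f (p + x)) (x := y) s
  rw [fderiv_comp_add_left] at h2
  rw [Pi.smul_apply, fderiv_sub_const, h2, ← mul_smul] at h1
  exact h1

theorem scale_lip {L u s K : ℝ} {f : E → F} {D : Set E} (h : BL L f D) (hu : 0 ≤ u) (hs : 0 ≤ s)
    (hK : u * s * L ≤ K) {p y y' : E} (q : F) (hy : p + s • y ∈ D) (hy' : p + s • y' ∈ D) :
    ‖u • (f (p + s • y) - q) - u • (f (p + s • y') - q)‖ ≤ K * ‖y - y'‖ := by
  have h1 := (h _ hy).2 _ hy'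
  rw [add_sub_add_left_eq_sub, ← smul_sub, norm_smul, Real.norm_of_nonneg hs] at h1
  rw [← smul_sub, sub_sub_sub_cancel_right, norm_smul, Real.norm_of_nonneg hu]
  calc _ ≤ u * (L * (s * ‖y - y'‖)) := mul_le_mul_of_nonneg_left h1 hu
    _ = u * s * L * ‖y - y'‖ := by ring
    _ ≤ _ := mul_le_mul_of_nonneg_right hK (norm_nonneg _)

theorem fderiv_scale' (f : E → F) (u s : ℝ) (p : E) :
    fderiv ℝ (fun y => u • f (p + s • y)) = fun y => (u * s) • fderiv ℝ f (p + s • y) := by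
  simpa only [sub_zero] using fderiv_scale f u s p 0

theorem scale_lip' {L u s K : ℝ} {f : E → F} {D : Set E} (h : BL L f D) (hu : 0 ≤ u) (hs : 0 ≤ s)
    (hK : u * s * L ≤ K) {p y y' : E} (hy : p + s • y ∈ D) (hy' : p + s • y' ∈ D) :
    ‖u • f (p + s • y) - u • f (p + s • y')‖ ≤ K * ‖y - y'‖ := by
  simpa only [sub_zero] using scale_lip h hu hs hK 0 hy hy'

theorem scale_bd {L u K : ℝ} {f : E → F} {D : Set E} (h : BL L f D) (hu : 0 ≤ u)
    (hK : u * L ≤ K) {z : E} (hz : z ∈ D) : ‖u • f z‖ ≤ K := by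
  rw [norm_smul, Real.norm_of_nonneg hu]
  exact (mul_le_mul_of_nonneg_left (h z hz).1 hu).trans hK

end lip

end Vale.Agent.P253W.FP.At
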