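import Vale.Agent.P253W.FP.MDefs
import Vale.Agent.P253W.FP.At1

/-!
# P253W, block FP, row AT, second part: the finite data
-/

set_option linter.all false
set_option maxSynthPendingDepth 3

open scoped Manifold ContDiff Bundle Topology
open Bundle Set Metric Filter Vale.Agent.P253Z
open Vale.Agent.P272.K (Cm Chart)

noncomputable section

namespace Vale.Agent.P253W.FP.At

variable {n : ℕ} {M : Type} [MetricSpace M] [ChartedSpace (Cm n) M]

/-- the change of charts -/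
def Tr (e e' : Chart n M) (z : Cm n) : Cm n := e (e'.symm z)

/-- the overlap -/
def Ov (e e' : Chart n M) (Q Q' : Set (Cm n)) : Set (Cm n) := Q' ∩ e'.symm ⁻¹' (e.symm '' Q)

/-- the finite data -/
structure FD (σ : M → ℝ) {m : ℕ} (c : Fin m → Chart n M) (Q : Fin m → Set (Cm n))
    (ρ : Fin m → M → ℝ) (δ L : ℝ) : Prop where
  δ0 : 0 < δ
  δ1 : δ ≤ 1
  L1 : 1 ≤ L
  hc : ∀ a, Hc (c a) ∧ IsCompact (Q a) ∧ Q a ⊆ (c a).target
  ρb : ∀ a x, |ρ a x| ≤ 1
  ρs : ∀ a x, ρ a x ≠ 0 → x ∈ (c a).source ∧ ball (c a x) δ ⊆ Q a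
  sum : ∀ x, 0 < σ x → ∑ a, ρ a x = 1
  ρl : ∀ a, BL L (fun z => ρ a ((c a).symm z)) (Q a)
  σl : ∀ a, BL L (fun z => σ ((c a).symm z)) (Q a)
  sm : ∀ a b, ∀ z ∈ Ov (c a) (c b) (Q a) (Q b), ContDiffAt ℝ 2 (Tr (c a) (c b)) z
  l0 : ∀ a b, BL L (Tr (c a) (c b)) (Ov (c a) (c b) (Q a) (Q b))
  l1 : ∀ a b, BL L (fderiv ℝ (Tr (c a) (c b))) (Ov (c a) (c b) (Q a) (Q b))
  l2 : ∀ a b, BL L (fderiv ℝ (fderiv ℝ (Tr (c a) (c b)))) (Ov (c a) (c b) (Q a) (Q b))

theorem cpt_symm {e : Chart n M} {Q : Set (Cm n)} (hQ : IsCompact Q) (h : Q ⊆ e.target) :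
    IsCompact (e.symm '' Q) := hQ.image_of_continuousOn (e.continuousOn_symm.mono h)

theorem cpt_Ov {e e' : Chart n M} {Q Q' : Set (Cm n)} (hQ : IsCompact Q) (h : Q ⊆ e.target)
    (hQ' : IsCompact Q') (h' : Q' ⊆ e'.target) : IsCompact (Ov e e' Q Q') :=
  hQ'.of_isClosed_subset ((e'.continuousOn_symm.mono h').preimage_isClosed_of_isClosed
    hQ'.isClosed (cpt_symm hQ h).isClosed) inter_subset_left

variable [RiemannianBundle (fun x : M => TangentSpace 𝓘(ℝ, Cm n) x)]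

theorem sm_ext (h : B1a n M) {e : Chart n M} (he : Hc e) {b : Cm n → ℝ} (hb : ContDiff ℝ ∞ b)
    {Q : Set (Cm n)} (hQ : IsCompact Q) (hQe : Q ⊆ e.target) (h0 : ∀ z ∉ Q, b z = 0) :
    Sm n (ext e b) := by
  refine h.sm_loc _ fun x => ?_
  by_cases hx : x ∈ e.source
  · refine ⟨e, he, hx, hb.contDiffAt.congr_of_eventuallyEq ?_⟩
    filter_upwards [e.open_target.mem_nhds (e.map_source hx)] with z hz
    rw [ext, indicator_of_mem (e.map_target hz), e.right_inv hz]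
  · have hx' := mem_chart_source (Cm n) x
    refine ⟨_, h.chart x, hx', contDiffAt_const (c := (0 : ℝ)).congr_of_eventuallyEq ?_⟩
    have h1 : (e.symm '' Q)ᶜ ∈ 𝓝 x := (cpt_symm hQ hQe).isClosed.isOpen_compl.mem_nhds (by
      rintro ⟨z, hz, rfl⟩
      exact hx (e.map_target (hQe hz)))
    have h2 := ((chartAt (Cm n) x).continuousAt_symm (mem_chart_target (Cm n) x)).tendsto
    rw [(chartAt (Cm n) x).left_inv hx'] at h2
    filter_upwards [h2.eventually h1] with z hz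
    refine indicator_apply_eq_zero.2 fun hs => h0 _ fun hq => hz ⟨_, hq, e.left_inv hs⟩

theorem ex_fd (h : B1a n M) {σ : M → ℝ} (hσ : Sm n σ) (hK : IsCompact (closure {x | 0 < σ x})) :
    ∃ (m : ℕ) (c : Fin m → Chart n M) (Q : Fin m → Set (Cm n)) (ρ : Fin m → M → ℝ) (δ L : ℝ),
      FD σ c Q ρ δ L := by
  have h1 : ∀ x : M, ∃ ε : ℝ, 0 < ε ∧
      closedBall (chartAt (Cm n) x x) (3 * ε) ⊆ (chartAt (Cm n) x).target := fun x => by
    obtain ⟨r, hr, h⟩ := nhds_basis_closedBall.mem_iff.1 (chart_target_mem_nhds (Cm n) x)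
    exact ⟨r / 3, by positivity, by rwa [mul_div_cancel₀ _ three_ne_zero]⟩
  choose ε hε hT using h1
  obtain ⟨t, -, ht⟩ := hK.elim_nhds_subcover
    (fun x => (chartAt (Cm n) x).source ∩ chartAt (Cm n) x ⁻¹' ball (chartAt (Cm n) x x) (ε x))
    fun x _ => inter_mem (chart_source_mem_nhds (Cm n) x)
      (((chartAt (Cm n) x).continuousAt (mem_chart_source (Cm n) x)).preimage_mem_nhds
        (ball_mem_nhds _ (hε x)))
  let pt : Fin t.card → M := fun a => (t.equivFin.symm a : M)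
  let c : Fin t.card → Chart n M := fun a => chartAt (Cm n) (pt a)
  let Q : Fin t.card → Set (Cm n) := fun a => closedBall (c a (pt a)) (3 * ε (pt a))
  let b : ∀ a, ContDiffBump (c a (pt a)) := fun a =>
    ⟨ε (pt a), 2 * ε (pt a), hε _, by linarith [hε (pt a)]⟩
  let β : Fin t.card → M → ℝ := fun a => ext (c a) (b a)
  have hc : ∀ a, Hc (c a) ∧ IsCompact (Q a) ∧ Q a ⊆ (c a).target := fun a =>
    ⟨h.chart _, isCompact_closedBall _ _, hT _⟩
  have hβ : ∀ a, Sm n (β a) := fun a =>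
    sm_ext h (hc a).1 (b a).contDiff (hc a).2.1 (hc a).2.2 fun z hz => (b a).zero_of_le_dist (by
      have := not_le.1 (mt mem_closedBall.2 hz)
      change 2 * ε (pt a) ≤ _
      linarith [hε (pt a)])
  have hβ0 : ∀ a x, 0 ≤ β a x := fun a x => indicator_nonneg (fun _ _ => (b a).nonneg) x
  have hβ1 : ∀ a x, β a x ≤ 1 := fun a x =>
    indicator_le' (fun _ _ => (b a).le_one) (fun _ _ => zero_le_one) x
  let ρ : Fin t.card → M → ℝ := fun a x => β a x * ∏ j with j < a, (1 - β j x)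
  have hTr : ∀ a a', ∀ z ∈ Ov (c a) (c a') (Q a) (Q a'), ContDiffAt ℝ ∞ (Tr (c a) (c a')) z := by
    rintro a a' z ⟨hz, w, hw, hw'⟩
    exact ((h.hol _ _ (hc a').1 (hc a).1 z ((hc a').2.2 hz)
      (hw' ▸ (c a).map_target ((hc a).2.2 hw))).contDiffAt (n := ∞)).restrict_scalars ℝ
  have hO := fun a a' => cpt_Ov (hc a).2.1 (hc a).2.2 (hc a').2.1 (hc a').2.2
  have one : (1 : WithTop ℕ∞) ≤ ∞ := by exact_mod_cast le_top
  have e1 : ∀ᶠ L in atTop, ∀ a, BL L (fun z => ρ a ((c a).symm z)) (Q a) :=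
    eventually_all.2 fun a => ev_BL (hc a).2.1 fun z hz =>
      ((hβ a _ (hc a).1 z ((hc a).2.2 hz)).mul (contDiffAt_prod fun j _ =>
        contDiffAt_const.sub (hβ j _ (hc a).1 z ((hc a).2.2 hz)))).of_le one
  have e2 : ∀ᶠ L in atTop, ∀ a, BL L (fun z => σ ((c a).symm z)) (Q a) :=
    eventually_all.2 fun a => ev_BL (hc a).2.1 fun z hz =>
      (hσ _ (hc a).1 z ((hc a).2.2 hz)).of_le one
  have e3 := eventually_all.2 fun a => eventually_all.2 fun a' =>
    ev_BL (hO a a') fun z hz => (hTr a a' z hz).of_le one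
  have e4 := eventually_all.2 fun a => eventually_all.2 fun a' =>
    ev_BL (hO a a') fun z hz => ((hTr a a' z hz).fderiv_right (m := ∞) le_rfl).of_le one
  have e5 := eventually_all.2 fun a => eventually_all.2 fun a' =>
    ev_BL (hO a a') fun z hz =>
      (((hTr a a' z hz).fderiv_right (m := ∞) le_rfl).fderiv_right (m := ∞) le_rfl).of_le one
  obtain ⟨L, ⟨⟨⟨⟨a1, a2⟩, a3⟩, a4⟩, a5⟩, a6⟩ :=
    (((((e1.and e2).and e3).and e4).and e5).and (eventually_ge_atTop 1)).exists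
  have e6 : ∀ᶠ δ in 𝓝[>] (0 : ℝ), ∀ a, δ < ε (pt a) := eventually_all.2 fun a =>
    (eventually_lt_nhds (hε _)).filter_mono nhdsWithin_le_nhds
  have e7 : ∀ᶠ δ in 𝓝[>] (0 : ℝ), δ < 1 :=
    (eventually_lt_nhds one_pos).filter_mono nhdsWithin_le_nhds
  obtain ⟨δ, ⟨b1, b2⟩, b3⟩ := ((e6.and e7).and self_mem_nhdsWithin).exists
  refine ⟨_, c, Q, ρ, δ, L, b3, b2.le, a6, hc, fun a x => ?_, fun a x hx => ?_, fun x hx => ?_,
    a1, a2, fun a a' z hz => (hTr a a' z hz).of_le (WithTop.coe_le_coe.2 le_top), a3, a4, a5⟩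
  · have p0 : 0 ≤ ∏ j with j < a, (1 - β j x) :=
      Finset.prod_nonneg fun j _ => sub_nonneg.2 (hβ1 j x)
    rw [abs_of_nonneg (mul_nonneg (hβ0 a x) p0)]
    exact mul_le_one₀ (hβ1 a x) p0 (Finset.prod_le_one (fun j _ => sub_nonneg.2 (hβ1 j x))
      fun j _ => sub_le_self _ (hβ0 j x))
  · obtain ⟨h2, h3⟩ := indicator_apply_ne_zero.1 (left_ne_zero_of_mul hx)
    refine ⟨h2, ball_subset_closedBall.trans (closedBall_subset_closedBall' ?_)⟩
    have h4 : dist (c a x) (c a (pt a)) < 2 * ε (pt a) :=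
      not_le.1 fun h5 => h3 ((b a).zero_of_le_dist h5)
    linarith [b1 a]
  · obtain ⟨y, hy, h2, h3⟩ := mem_iUnion₂.1 (ht (subset_closure hx))
    obtain ⟨a, rfl⟩ : ∃ a, pt a = y := ⟨t.equivFin ⟨y, hy⟩, by simp [pt]⟩
    have h4 : β a x = 1 :=
      (indicator_of_mem h2 _).trans ((b a).one_of_mem_closedBall (ball_subset_closedBall h3))
    have h5 := Finset.prod_one_sub_ordered Finset.univ fun a => β a x
    rw [Finset.prod_eq_zero (Finset.mem_univ a) (by rw [h4, sub_self])] at h5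
    linarith

end Vale.Agent.P253W.FP.At
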