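import Vale.Agent.P253W.FP.Maq
import Vale.Agent.P253W.FP.Pb

/-!
# P253W, block FP: formulas in rescaled charts
-/

set_option maxSynthPendingDepth 3
set_option linter.unusedSectionVars false

open scoped Manifold ContDiff Bundle Topology ComplexOrder Matrix
open Bundle Set Metric Filter Vale.Agent.P253.Mfd Vale.Agent.P253Z
open Vale.Agent.P272.K (Cm dz cHess jacM Chart)
open Vale.Agent.P272.K.R (Hol Bil D2)
open Vale.Agent.P272.K.LIN (Jet jet)
open Vale.Agent.P272.K.N (lev cHess_eq_lev)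

noncomputable section

namespace Vale.Agent.P253W.FP

variable {n : ℕ} {M : Type} [MetricSpace M] [ChartedSpace (Cm n) M]

theorem det_re_pos {A : Mx n} (h : A.PosDef) : 0 < A.det.re := (Complex.pos_iff.1 h.det_pos).1

theorem lev_zero : lev (0 : Bil (Cm n)) = 0 := by
  ext i j
  simp [lev]

theorem pb_smul_one (s : ℝ) (A : Mx n) : pb ((s : ℂ) • (1 : Mx n)) A = ((s ^ 2 : ℝ) : ℂ) • A := by
  have h : ((s : ℂ) • (1 : Mx n)).map (starRingEnd ℂ) = (s : ℂ) • (1 : Mx n) := by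
    ext i j
    by_cases hij : i = j <;> simp [hij]
  rw [pb, h, Matrix.transpose_smul, Matrix.transpose_one, Matrix.mul_smul, Matrix.mul_one,
    Matrix.smul_mul, Matrix.one_mul, smul_smul, sq, Complex.ofReal_mul]

theorem pb_add (J A B : Mx n) : pb J (A + B) = pb J A + pb J B := by
  simp only [pb, Matrix.mul_add, Matrix.add_mul]

theorem pb_sub (J A B : Mx n) : pb J (A - B) = pb J A - pb J B := by
  simp only [pb, Matrix.mul_sub, Matrix.sub_mul]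

theorem pb_smul (J A : Mx n) (c : ℂ) : pb J (c • A) = c • pb J A := by
  simp only [pb, Matrix.mul_smul, Matrix.smul_mul]

theorem log_det_smul {A : Mx n} (hA : 0 < A.det.re) {c : ℝ} (hc : 0 < c) :
    Real.log ((c : ℂ) • A).det.re = n * Real.log c + Real.log A.det.re := by
  rw [Matrix.det_smul, Fintype.card_fin, ← Complex.ofReal_pow, Complex.re_ofReal_mul,
    Real.log_mul (by positivity) hA.ne', Real.log_pow]

theorem cHess_eq {f : Cm n → ℝ} {z : Cm n} (h : ContDiffAt ℝ 2 f z) : cHess f z = lev (D2 f z) :=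
  cHess_eq_lev ((h.fderiv_right (m := 1) le_rfl).differentiableAt one_ne_zero)

theorem lev_herm {f : Cm n → ℝ} {z : Cm n} (h : ContDiffAt ℝ 2 f z) : (lev (D2 f z)).IsHermitian :=
  Vale.Agent.P272.K.N.lev_isHermitian fun v w => h.isSymmSndFDerivAt (by simp) v w

theorem herm_real {A : Mx n} (h : A.IsHermitian) (c : ℝ) : ((c : ℂ) • A).IsHermitian := by
  unfold Matrix.IsHermitian at *
  rw [Matrix.conjTranspose_smul, h]
  simp

theorem bf_real (c : ℝ) (A : Mx n) (x : Cm n) : MaqA.bf ((c : ℂ) • A) x x = c * MaqA.bf A x x := by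
  simp [MaqA.bf, Matrix.smul_mulVec, dotProduct_smul]

theorem psd_real {A : Mx n} (h : A.PosSemidef) {c : ℝ} (hc : 0 ≤ c) :
    ((c : ℂ) • A).PosSemidef := by
  rw [MaqA.psd_iff] at *
  exact ⟨herm_real h.1 c, fun x => by rw [bf_real]; exact mul_nonneg hc (h.2 x)⟩

theorem pd_real {A : Mx n} (h : A.PosDef) {c : ℝ} (hc : 0 < c) : ((c : ℂ) • A).PosDef :=
  h.smul (by exact_mod_cast hc)

/-- a multiple of a matrix between `c H` and `C H` -/
theorem mem_QM_of {G H : Mx n} {Λ Λ' c C κ : ℝ} (hΛ : 0 < Λ) (hc : 0 < c) (hκ : 0 < κ)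
    (hH : (fun i j => H i j) ∈ QM n Λ) (hG : G.IsHermitian) (h1 : (G - (c : ℂ) • H).PosSemidef)
    (h2 : ((C : ℂ) • H - G).PosSemidef) (l1 : Λ'⁻¹ ≤ κ * c * Λ⁻¹) (l2 : κ * |C| * Λ ≤ Λ') :
    (fun i j => ((κ : ℂ) • G) i j) ∈ QM n Λ' := by
  obtain ⟨-, hb⟩ := MaqA.mem_QM.1 hH
  refine MaqA.mem_QM.2 ⟨herm_real hG κ, fun x => ?_⟩
  have e : MaqA.bf (Matrix.of fun i j => ((κ : ℂ) • G) i j) x x = κ * MaqA.bf G x x := bf_real κ G x
  have a1 := (MaqA.psd_iff.1 h1).2 x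
  have a2 := (MaqA.psd_iff.1 h2).2 x
  rw [MaqA.bf_sub, bf_real] at a1 a2
  have b1 : Λ⁻¹ * MaqA.nsq x ≤ MaqA.bf H x x := (hb x).1
  have b2 : MaqA.bf H x x ≤ Λ * MaqA.nsq x := (hb x).2
  have n0 := MaqA.nsq_nonneg x
  have h0 : 0 ≤ MaqA.bf H x x := le_trans (by positivity) b1
  rw [e]
  constructor
  · calc Λ'⁻¹ * MaqA.nsq x ≤ κ * c * Λ⁻¹ * MaqA.nsq x := mul_le_mul_of_nonneg_right l1 n0
      _ = κ * (c * (Λ⁻¹ * MaqA.nsq x)) := by ring
      _ ≤ κ * (c * MaqA.bf H x x) := by gcongr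
      _ ≤ _ := mul_le_mul_of_nonneg_left (by linarith) hκ.le
  · calc κ * MaqA.bf G x x ≤ κ * (|C| * MaqA.bf H x x) :=
          mul_le_mul_of_nonneg_left (le_trans (by linarith)
            (mul_le_mul_of_nonneg_right (le_abs_self C) h0)) hκ.le
      _ ≤ κ * (|C| * (Λ * MaqA.nsq x)) := by gcongr
      _ = κ * |C| * Λ * MaqA.nsq x := by ring
      _ ≤ _ := mul_le_mul_of_nonneg_right l2 n0

/-- two matrices of the class are comparable -/
theorem cmp_QM {G H : Mx n} {Λ : ℝ} (hΛ : 0 < Λ) (hG : (fun i j => G i j) ∈ QM n Λ)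
    (hH : (fun i j => H i j) ∈ QM n Λ) : (G - (((Λ ^ 2)⁻¹ : ℝ) : ℂ) • H).PosSemidef ∧
      (((Λ ^ 2 : ℝ) : ℂ) • H - G).PosSemidef := by
  obtain ⟨g0, g1⟩ := MaqA.mem_QM.1 hG
  obtain ⟨h0, h1⟩ := MaqA.mem_QM.1 hH
  replace g0 : G.IsHermitian := g0
  replace h0 : H.IsHermitian := h0
  refine ⟨MaqA.psd_iff.2 ⟨g0.sub (herm_real h0 _), fun x => ?_⟩,
    MaqA.psd_iff.2 ⟨(herm_real h0 _).sub g0, fun x => ?_⟩⟩
  · rw [MaqA.bf_sub, bf_real, sub_nonneg]
    calc (Λ ^ 2)⁻¹ * MaqA.bf H x x ≤ (Λ ^ 2)⁻¹ * (Λ * MaqA.nsq x) :=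
          mul_le_mul_of_nonneg_left (h1 x).2 (by positivity)
      _ = Λ⁻¹ * MaqA.nsq x := by field_simp
      _ ≤ _ := (g1 x).1
  · rw [MaqA.bf_sub, bf_real, sub_nonneg]
    calc MaqA.bf G x x ≤ Λ * MaqA.nsq x := (g1 x).2
      _ = Λ ^ 2 * (Λ⁻¹ * MaqA.nsq x) := by field_simp
      _ ≤ _ := mul_le_mul_of_nonneg_left (h1 x).1 (by positivity)

/-- the chart `e'` is the chart `e` rescaled at the point `p`, at the scale `s ≈ r σ` -/
structure SC (σ : M → ℝ) (r : ℝ) (e' e : Chart n M) (Q : Set (Cm n)) (p : Cm n) (s : ℝ) :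
    Prop where
  he' : Hc e'
  he : Hc e
  Qt : Q ⊆ e.target
  tgt : ball 0 4 ⊆ e'.target
  r0 : 0 < r
  s0 : 0 < s
  s1 : s ≤ 1
  symm : ∀ y, e'.symm y = e.symm (p + s • y)
  sub : ball p (4 * s) ⊆ Q
  sc : ∀ z ∈ ball p (4 * s), r * σ (e.symm z) ≤ 4 * s ∧ s ≤ 4 * (r * σ (e.symm z))

namespace SC

variable {σ : M → ℝ} {r s : ℝ} {e' e : Chart n M} {Q : Set (Cm n)} {p y : Cm n}
  (h : SC σ r e' e Q p s)
include h

theorem mem (hy : y ∈ ball (0 : Cm n) 4) : p + s • y ∈ ball p (4 * s) := by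
  rw [mem_ball_iff_norm, add_sub_cancel_left, norm_smul, Real.norm_of_nonneg h.s0.le, mul_comm]
  exact mul_lt_mul_of_pos_right (mem_ball_zero_iff.1 hy) h.s0

theorem pos' {z : Cm n} (hz : z ∈ ball p (4 * s)) : 0 < σ (e.symm z) := by
  have h1 := (h.sc z hz).2
  have h2 := h.s0
  exact (mul_pos_iff_of_pos_left h.r0).1 (by linarith)

theorem tg' {z : Cm n} (hz : z ∈ ball p (4 * s)) : z ∈ e.target := h.Qt (h.sub hz)

theorem pos (hy : y ∈ ball (0 : Cm n) 4) : 0 < σ (e'.symm y) := by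
  rw [h.symm]; exact h.pos' (h.mem hy)

theorem src' (hy : y ∈ ball (0 : Cm n) 4) : e'.symm y ∈ e'.source := e'.map_target (h.tgt hy)

theorem src (hy : y ∈ ball (0 : Cm n) 4) : e'.symm y ∈ e.source := by
  rw [h.symm]; exact e.map_target (h.tg' (h.mem hy))

theorem app' (hy : y ∈ ball (0 : Cm n) 4) : e' (e'.symm y) = y := e'.right_inv (h.tgt hy)

theorem app (hy : y ∈ ball (0 : Cm n) 4) : e (e'.symm y) = p + s • y := by
  rw [h.symm]; exact e.right_inv (h.tg' (h.mem hy))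

theorem jac (hy : y ∈ ball (0 : Cm n) 4) : jacM e' e (e'.symm y) = (s : ℂ) • (1 : Mx n) := by
  ext k i
  have h1 : HasFDerivAt (fun z : Cm n => (p + s • z) k)
      (s • (ContinuousLinearMap.proj k : Cm n →L[ℝ] ℂ)) y :=
    (((ContinuousLinearMap.proj k : Cm n →L[ℝ] ℂ).hasFDerivAt (x := y)).const_smul s).const_add (p k)
  have h2 : HasFDerivAt (fun z : Cm n => e (e'.symm z) k)
      (s • (ContinuousLinearMap.proj k : Cm n →L[ℝ] ℂ)) y := by
    refine h1.congr_of_eventuallyEq ?_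
    filter_upwards [isOpen_ball.mem_nhds hy] with z hz
    rw [h.app hz]
  rw [jacM, Matrix.of_apply, h.app' hy, dz, h2.fderiv]
  by_cases hk : k = i
  · subst hk
    simp
    ring_nf
    simp
    ring
  · simp [hk]

/-- the scale of the chart -/
theorem ratio (hy : y ∈ ball (0 : Cm n) 4) :
    1 / 16 ≤ (r ^ 2)⁻¹ * s ^ 2 * (σ (e'.symm y))⁻¹ ^ 2 ∧
      (r ^ 2)⁻¹ * s ^ 2 * (σ (e'.symm y))⁻¹ ^ 2 ≤ 16 := by
  have h1 := h.sc _ (h.mem hy)
  rw [← h.symm] at h1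
  have h2 := h.pos hy
  have h3 := h.r0
  have h4 := h.s0
  have e1 : (r ^ 2)⁻¹ * s ^ 2 * (σ (e'.symm y))⁻¹ ^ 2 = (s / (r * σ (e'.symm y))) ^ 2 := by
    field_simp
  have a1 : 1 / 4 ≤ s / (r * σ (e'.symm y)) := by
    rw [le_div_iff₀ (by positivity)]; linarith [h1.1]
  have a2 : s / (r * σ (e'.symm y)) ≤ 4 := by
    rw [div_le_iff₀ (by positivity)]; exact h1.2
  rw [e1]
  constructor <;> nlinarith

/-- weighted bounds at the scale of the chart -/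
theorem wb {z : Cm n} (hz : z ∈ ball p (4 * s)) {k : ℕ} {a C : ℝ} (ha : 0 ≤ a)
    (hb : σ (e.symm z) ^ k * a ≤ C) : s ^ k * a ≤ (4 * r) ^ k * C := by
  have h1 := (h.sc z hz).2
  have h2 := h.pos' hz
  have h3 := h.r0
  have h4 := h.s0
  calc s ^ k * a ≤ (4 * r * σ (e.symm z)) ^ k * a := by gcongr; linarith
    _ = (4 * r) ^ k * (σ (e.symm z) ^ k * a) := by ring
    _ ≤ _ := mul_le_mul_of_nonneg_left hb (by positivity)

/-- Lipschitz bounds from weighted bounds on the derivative -/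
theorem lip {V : Type} [NormedAddCommGroup V] [NormedSpace ℝ V] {F : Cm n → V} {k : ℕ} {C : ℝ}
    (hF : ∀ z ∈ ball p (4 * s), DifferentiableAt ℝ F z)
    (hb : ∀ z ∈ ball p (4 * s), σ (e.symm z) ^ (k + 1) * ‖fderiv ℝ F z‖ ≤ C)
    (hy : y ∈ ball (0 : Cm n) 4) {y' : Cm n} (hy' : y' ∈ ball (0 : Cm n) 4) :
    s ^ k * ‖F (p + s • y) - F (p + s • y')‖ ≤ (4 * r) ^ (k + 1) * C * ‖y - y'‖ := by
  have h4 := h.s0
  have h1 := (convex_ball p (4 * s)).norm_image_sub_le_of_norm_fderiv_le (𝕜 := ℝ) hF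
    (C := (4 * r) ^ (k + 1) * C / s ^ (k + 1)) (fun z hz => by
      rw [le_div_iff₀ (by positivity), mul_comm]
      exact h.wb hz (norm_nonneg _) (hb z hz)) (h.mem hy') (h.mem hy)
  rw [add_sub_add_left_eq_sub, ← smul_sub, norm_smul, Real.norm_of_nonneg h4.le] at h1
  calc _ ≤ s ^ k * ((4 * r) ^ (k + 1) * C / s ^ (k + 1) * (s * ‖y - y'‖)) :=
        mul_le_mul_of_nonneg_left h1 (by positivity)
    _ = _ := by field_simp; ring

variable [RiemannianBundle (fun x : M => TangentSpace 𝓘(ℝ, Cm n) x)]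

/-- a tensor which transforms as a Hermitian form -/
theorem tens (hy : y ∈ ball (0 : Cm n) 4) {g : Chart n M → Cm n → Mx n}
    (hg : g e' (e' (e'.symm y)) = pb (jacM e' e (e'.symm y)) (g e (e (e'.symm y)))) :
    g e' y = ((s ^ 2 : ℝ) : ℂ) • g e (p + s • y) := by
  rwa [h.jac hy, h.app hy, h.app' hy, pb_smul_one] at hg

theorem hh_eq (hu : MU n M) (hy : y ∈ ball (0 : Cm n) 4) :
    hh σ e' y = ((s ^ 2 : ℝ) : ℂ) • hh σ e (p + s • y) :=
  h.tens hy (g := hh σ) (hu.hh_ch σ e' e h.he' h.he _ (h.src' hy) (h.src hy))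

theorem rh_eq (hu : MU n M) (hσ : Sm n σ) (hy : y ∈ ball (0 : Cm n) 4) :
    rh σ e' y = ((s ^ 2 : ℝ) : ℂ) • rh σ e (p + s • y) :=
  h.tens hy (g := rh σ) (hu.rh_ch σ hσ e' e h.he' h.he _ (h.src' hy) (h.src hy) (h.pos hy))

theorem hs_eq (hu : MU n M) (hy : y ∈ ball (0 : Cm n) 4) {f : M → ℝ}
    (hf : ContDiffAt ℝ 2 (fun z => f (e.symm z)) (p + s • y)) :
    hs f e' y = ((s ^ 2 : ℝ) : ℂ) • hs f e (p + s • y) :=
  h.tens hy (g := hs f) (hu.hs_ch f e' e h.he' h.he _ (h.src' hy) (h.src hy)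
    (by rwa [h.app hy])).2

theorem gh_eq (hu : MU n M) (hσ : Sm n σ) (hy : y ∈ ball (0 : Cm n) 4) {φ : ℝ → M → ℝ} {t : ℝ}
    (hf : ContDiffAt ℝ 2 (fun z => φ t (e.symm z)) (p + s • y)) :
    gh σ φ t e' y = ((s ^ 2 : ℝ) : ℂ) • gh σ φ t e (p + s • y) := by
  rw [gh, gh, h.hh_eq hu hy, h.rh_eq hu hσ hy, h.hs_eq hu hy hf, smul_add, smul_sub,
    smul_comm (t : ℂ)]

/-- the rescaled background metric -/
theorem hh_mem (hu : MU n M) (hy : y ∈ ball (0 : Cm n) 4) {C : ℝ} (hC : 0 < C)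
    (hm0 : (fun i j => hm e (p + s • y) i j) ∈ QM n C) :
    (fun i j => ((((r ^ 2)⁻¹ : ℝ) : ℂ) • hh σ e' y) i j) ∈ QM n (16 * C) := by
  have h1 := h.ratio hy
  have e1 : ((((r ^ 2)⁻¹ : ℝ) : ℂ) • hh σ e' y) =
      (((r ^ 2)⁻¹ * s ^ 2 * (σ (e'.symm y))⁻¹ ^ 2 : ℝ) : ℂ) • hm e (p + s • y) := by
    rw [h.hh_eq hu hy, hh, smul_smul, smul_smul, ← h.symm]
    norm_cast
  rw [e1]
  refine mem_QM_of (c := 1) (C := 1) hC one_pos (by linarith [h1.1]) hm0 (MaqA.mem_QM.1 hm0).1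
    (by simpa using Matrix.PosSemidef.zero) (by simpa using Matrix.PosSemidef.zero) ?_ ?_
  · rw [mul_inv, mul_one]
    exact mul_le_mul_of_nonneg_right (by linarith [h1.1]) (by positivity)
  · rw [abs_one, mul_one]
    exact mul_le_mul_of_nonneg_right h1.2 hC.le

end SC

end Vale.Agent.P253W.FP
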