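import Vale.Agent.P253W.FP.Pb

/-!
# P253W, block FP: the parametrix in a uniform atlas
-/

set_option maxSynthPendingDepth 3
set_option linter.unusedSectionVars false

open Set Metric Filter Topology
open Vale.Agent.P272.K.R (Hol Bil D2)
open Vale.Agent.P272.K.LIN (Jet jet JM jet_mul jet_congr)

noncomputable section

namespace Vale.Agent.P253W.FP

variable {E : Type} [NormedAddCommGroup E] [NormedSpace ℝ E] [FiniteDimensional ℝ E]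
variable {X : Type} [TopologicalSpace X] [T2Space X] {K : ℝ} {N₀ : ℕ}

/-- the part of order at most one of a jet -/
def low (z : Jet E) : Jet E := (z.1, z.2.1, 0)

theorem JM_split (j z : Jet E) : JM j z = JM j (low z) + j.1 • j2 z.2.2 := by
  have h1 : z = low z + j2 z.2.2 := by
    simp [low, j2_apply]
  have h2 : JM j (j2 z.2.2) = j.1 • j2 z.2.2 := by
    refine Prod.ext ?_ (Prod.ext ?_ ?_)
    · simp [Vale.Agent.P272.K.LIN.JM_fst, j2_apply]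
    · simp [Vale.Agent.P272.K.LIN.JM_snd_fst, j2_apply]
    · ext u v
      simp [Vale.Agent.P272.K.LIN.JM_snd_snd, j2_apply]
  conv_lhs => rw [h1, map_add, h2]

theorem JM_zero (z : Jet E) : JM (0 : Jet E) z = 0 := by
  refine Prod.ext ?_ (Prod.ext ?_ ?_)
  · simp [Vale.Agent.P272.K.LIN.JM_fst]
  · simp [Vale.Agent.P272.K.LIN.JM_snd_fst]
  · ext u v
    simp [Vale.Agent.P272.K.LIN.JM_snd_snd]

namespace UA

variable (𝒜 : UA E X K N₀)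

/-- the support of the functions coming from the chart `i` -/
def supp (i : 𝒜.ι) : Set X := (𝒜.e i).symm '' closedBall 0 3

theorem ext_loc (i : 𝒜.ι) (f : E → ℝ) {y : E} (hy : y ∈ ball (0 : E) 4) :
    ext (𝒜.e i) f ((𝒜.e i).symm y) = f y := by
  have h := 𝒜.tgt i hy
  rw [ext, indicator_of_mem ((𝒜.e i).map_target h), (𝒜.e i).right_inv h]

theorem ext_zero (i : 𝒜.ι) {f : E → ℝ} (hf : ∀ y, 3 < ‖y‖ → f y = 0) {x : X}
    (hx : x ∉ 𝒜.supp i) : ext (𝒜.e i) f x = 0 := by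
  by_cases h : x ∈ (𝒜.e i).source
  · rw [ext, indicator_of_mem h]
    refine hf _ (not_le.1 fun h' => hx ⟨𝒜.e i x, mem_closedBall_zero_iff.2 h', ?_⟩)
    exact (𝒜.e i).left_inv h
  · rw [ext, indicator_of_notMem h]

theorem sub34 : closedBall (0 : E) 3 ⊆ ball 0 4 := closedBall_subset_ball (by norm_num)

theorem isClosed_supp (i : 𝒜.ι) : IsClosed (𝒜.supp i) :=
  ((isCompact_closedBall (0 : E) 3).image_of_continuousOn
    ((𝒜.e i).continuousOn_symm.mono (sub34.trans (𝒜.tgt i)))).isClosed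

theorem ev_not_supp (i j : 𝒜.ι) {y : E} (hy : y ∈ ball (0 : E) 4)
    (h : (𝒜.e j).symm y ∉ 𝒜.supp i) : ∀ᶠ z in 𝓝 y, (𝒜.e j).symm z ∉ 𝒜.supp i :=
  ((𝒜.e j).continuousAt_symm (𝒜.tgt j hy)).preimage_mem_nhds
    ((𝒜.isClosed_supp i).isOpen_compl.mem_nhds h)

theorem finsum_loc (j : 𝒜.ι) {f : 𝒜.ι → X → ℝ} (hf : ∀ i, ∀ x ∉ 𝒜.supp i, f i x = 0) {y : E}
    (hy : y ∈ ball (0 : E) 4) :
    ∑ᶠ i, f i ((𝒜.e j).symm y) = ∑ i ∈ 𝒜.N j, f i ((𝒜.e j).symm y) := by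
  refine finsum_eq_sum_of_support_subset _ fun i hi => ?_
  by_contra h
  exact hi (hf i _ fun h' => h (𝒜.mem i j y hy h'))

theorem ext_bound (i : 𝒜.ι) {f : E → ℝ} (hf : ∀ y, 3 < ‖y‖ → f y = 0) {a : ℝ} (ha : 0 ≤ a)
    (hb : ∀ y ∈ ball (0 : E) 4, |f y| ≤ a) (x : X) : |ext (𝒜.e i) f x| ≤ a := by
  by_cases h : x ∈ 𝒜.supp i
  · obtain ⟨y, hy, rfl⟩ := h
    rw [𝒜.ext_loc i f (sub34 hy)]
    exact hb y (sub34 hy)
  · rw [𝒜.ext_zero i hf h, abs_zero]; exact ha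

/-- bounds in all charts -/
def GH (α τ : ℝ) (g : ℝ → X → ℝ) (N : ℝ) : Prop :=
  ∀ i, PB α (Icc 0 τ) (ball 0 4) (fun t y => g t ((𝒜.e i).symm y)) N N

/-- the localised right hand side -/
def fi (g : ℝ → X → ℝ) (i : 𝒜.ι) (t : ℝ) (y : E) : ℝ := 𝒜.χ i y * g t ((𝒜.e i).symm y)

/-- cut off and extend by zero -/
def P (θ : E → ℝ) (i : 𝒜.ι) (v : E → ℝ) : X → ℝ := ext (𝒜.e i) fun y => θ y * v y

variable (θ : E → ℝ) (B : 𝒜.ι → Bil E →L[ℝ] ℝ) (H : 𝒜.ι → (ℝ → E → ℝ) → ℝ → E → ℝ)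

/-- the local solutions -/
def vi (g : ℝ → X → ℝ) (i : 𝒜.ι) : ℝ → E → ℝ := H i (𝒜.fi g i)

/-- the parametrix -/
def Q (g : ℝ → X → ℝ) (t : ℝ) (x : X) : ℝ := ∑ᶠ i, 𝒜.P θ i (𝒜.vi H g i t) x

/-- the frozen operators applied to the local solutions -/
def S (g : ℝ → X → ℝ) (t : ℝ) (x : X) : ℝ :=
  ∑ᶠ i, 𝒜.P θ i (fun y => B i (D2 (𝒜.vi H g i t) y)) x

/-- the properties of the cutoff function, of the local solutions and of the changes of charts -/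
structure Su (α τ m M CT cθ : ℝ) : Prop where
  α0 : 0 < α
  m0 : 0 ≤ m
  mM : m ≤ M
  CT1 : 1 ≤ CT
  cθ1 : 1 ≤ cθ
  θs : ContDiff ℝ 2 θ
  θ1 : ∀ y, ‖y‖ ≤ 2 → θ y = 1
  θ0 : ∀ y, 3 < ‖y‖ → θ y = 0
  θb : ∀ y, ‖θ y‖ ≤ 1
  θh : Hol α cθ θ (ball 0 4)
  Mb : ∀ y ∈ ball (0 : E) 4, ‖JM (jet θ y)‖ ≤ cθ
  Mh : Hol α cθ (fun y => JM (jet θ y)) (ball 0 4)
  lin : ∀ (i : 𝒜.ι) (c : ℝ) (g h : ℝ → X → ℝ) (N d : ℝ), 0 ≤ N → 0 ≤ d → 𝒜.GH α τ g N →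
    𝒜.GH α τ h d → ∀ t ∈ Icc 0 τ,
      𝒜.vi H (fun s x => g s x + c * h s x) i t = fun y => 𝒜.vi H g i t y + c * 𝒜.vi H h i t y
  v : ∀ (i : 𝒜.ι) (g : ℝ → X → ℝ) (N : ℝ), 0 ≤ N → 𝒜.GH α τ g N → (∀ y, 𝒜.vi H g i 0 y = 0) ∧
    Cl (Icc 0 τ) univ (𝒜.vi H g i) (fun t y => B i (D2 (𝒜.vi H g i t) y) + 𝒜.fi g i t y) ∧
    PB α (Icc 0 τ) univ (fun t y => low (jet (𝒜.vi H g i t) y)) (m * N) (m * N) ∧
    PB α (Icc 0 τ) univ (fun t => D2 (𝒜.vi H g i t)) (m * N) (M * N)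
  tr0 : ∀ (i j : 𝒜.ι) (f : X → ℝ) (A : ℝ), 0 ≤ A → (∀ x ∉ 𝒜.supp i, f x = 0) →
    Hol α A (fun y => f ((𝒜.e i).symm y)) (ball 0 4) →
    Hol α (CT * A) (fun y => f ((𝒜.e j).symm y)) (ball 0 4)
  trc : ∀ (i j : 𝒜.ι) (I : Set ℝ) (f : ℝ → X → ℝ), (∀ t ∈ I, ∀ x ∉ 𝒜.supp i, f t x = 0) →
    ContinuousOn (fun q : ℝ × E => 𝒜.loc i f q.1 q.2) (I ×ˢ ball 0 4) →
    ContinuousOn (fun q : ℝ × E => 𝒜.loc j f q.1 q.2) (I ×ˢ ball 0 4)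
  tr2 : ∀ (i j : 𝒜.ι) (I : Set ℝ) (u : ℝ → X → ℝ) (A A' : ℝ), 0 ≤ A → 0 ≤ A' →
    (∀ t ∈ I, ∀ x ∉ 𝒜.supp i, u t x = 0) →
    (∀ t ∈ I, ContDiffOn ℝ 2 (𝒜.loc i u t) (ball 0 4)) →
    PB α I (ball 0 4) (fun t => jet (𝒜.loc i u t)) A A' →
    (∀ t ∈ I, ContDiffOn ℝ 2 (𝒜.loc j u t) (ball 0 4)) ∧
      PB α I (ball 0 4) (fun t => jet (𝒜.loc j u t)) (CT * A) (CT * (A + A'))

variable {𝒜 θ B H} {α τ m M CT cθ : ℝ}

namespace Su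

variable (h : 𝒜.Su θ B H α τ m M CT cθ)
include h

theorem P_zero (i : 𝒜.ι) (v : E → ℝ) : ∀ x ∉ 𝒜.supp i, 𝒜.P θ i v x = 0 := fun _ hx =>
  𝒜.ext_zero i (fun y hy => by rw [h.θ0 y hy, zero_mul]) hx

omit h in
theorem P_loc (i : 𝒜.ι) (v : E → ℝ) {y : E} (hy : y ∈ ball (0 : E) 4) :
    𝒜.P θ i v ((𝒜.e i).symm y) = θ y * v y := 𝒜.ext_loc i _ hy

theorem jθ_zero {y : E} (hy : 3 < ‖y‖) : jet θ y = 0 := by
  rw [← jet_zero y]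
  refine jet_congr ?_
  filter_upwards [(isOpen_lt continuous_const continuous_norm).mem_nhds hy] with z hz
  exact h.θ0 z hz

theorem jet_P (i : 𝒜.ι) {v : E → ℝ} (hv : ContDiff ℝ 2 v) {y : E} (hy : y ∈ ball (0 : E) 4) :
    jet (fun z => 𝒜.P θ i v ((𝒜.e i).symm z)) y = JM (jet θ y) (jet v y) := by
  rw [← jet_mul h.θs.contDiffAt hv.contDiffAt]
  refine jet_congr ?_
  filter_upwards [isOpen_ball.mem_nhds hy] with z hz using P_loc i v hz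

variable {g : ℝ → X → ℝ} {N : ℝ}

theorem v_c2 (hN : 0 ≤ N) (hg : 𝒜.GH α τ g N) (i : 𝒜.ι) {t : ℝ} (ht : t ∈ Icc 0 τ) :
    ContDiff ℝ 2 (𝒜.vi H g i t) := contDiffOn_univ.1 ((h.v i g N hN hg).2.1.c2 t ht)

theorem v_jet (hN : 0 ≤ N) (hg : 𝒜.GH α τ g N) (i : 𝒜.ι) :
    PB α (Icc 0 τ) univ (fun t => jet (𝒜.vi H g i t)) (m * N) (M * N) := by
  obtain ⟨-, -, h1, h2⟩ := h.v i g N hN hg
  have h3 := h1.mono le_rfl (mul_le_mul_of_nonneg_right h.mM hN)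
  exact PB.jet h3.fst h3.snd.fst h2

/-- the pieces of the parametrix in the chart `j` -/
theorem P_jet (hN : 0 ≤ N) (hg : 𝒜.GH α τ g N) (i j : 𝒜.ι) :
    (∀ t ∈ Icc 0 τ, ContDiffOn ℝ 2
      (fun y => 𝒜.P θ i (𝒜.vi H g i t) ((𝒜.e j).symm y)) (ball 0 4)) ∧
    PB α (Icc 0 τ) (ball 0 4)
      (fun t => jet fun y => 𝒜.P θ i (𝒜.vi H g i t) ((𝒜.e j).symm y))
      (CT * cθ * m * N) (3 * CT * cθ * M * N) := by
  have hc := h.cθ1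
  have hm := h.m0
  have hM := h.mM
  have hT := h.CT1
  have h1 := (PB.of_hol h.α0 (Icc 0 τ) h.Mb h.Mh).app
    ((h.v_jet hN hg i).mono_set subset_rfl (subset_univ _))
  have h2 := h.tr2 i j (Icc 0 τ) (fun t => 𝒜.P θ i (𝒜.vi H g i t)) _ _ (by positivity)
    (add_nonneg (mul_nonneg (by linarith) (mul_nonneg (by linarith) hN)) (by positivity))
    (fun t _ => h.P_zero i _)
    (fun t ht => (h.θs.mul (h.v_c2 hN hg i ht)).contDiffOn.congr fun y hy => P_loc i _ hy)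
    (h1.congr fun t ht y hy => (h.jet_P i (h.v_c2 hN hg i ht) hy).symm)
  refine ⟨h2.1, h2.2.mono (le_of_eq (by ring)) ?_⟩
  have h3 : m * N ≤ M * N := mul_le_mul_of_nonneg_right hM hN
  have h4 : cθ * (m * N) ≤ cθ * (M * N) := mul_le_mul_of_nonneg_left h3 (by linarith)
  calc CT * (cθ * (m * N) + (cθ * (M * N) + m * N * cθ)) ≤ CT * (3 * (cθ * (M * N))) :=
        mul_le_mul_of_nonneg_left (by linarith) (by linarith)
    _ = _ := by ring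

theorem Q_loc (g : ℝ → X → ℝ) (j : 𝒜.ι) (t : ℝ) {y : E} (hy : y ∈ ball (0 : E) 4) :
    𝒜.Q θ H g t ((𝒜.e j).symm y) = ∑ i ∈ 𝒜.N j, 𝒜.P θ i (𝒜.vi H g i t) ((𝒜.e j).symm y) :=
  𝒜.finsum_loc j (fun i => h.P_zero i _) hy

theorem S_loc (g : ℝ → X → ℝ) (j : 𝒜.ι) (t : ℝ) {y : E} (hy : y ∈ ball (0 : E) 4) :
    𝒜.S θ B H g t ((𝒜.e j).symm y) =
      ∑ i ∈ 𝒜.N j, 𝒜.P θ i (fun y => B i (D2 (𝒜.vi H g i t) y)) ((𝒜.e j).symm y) :=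
  𝒜.finsum_loc j (fun i => h.P_zero i _) hy

theorem Q_c2 (hN : 0 ≤ N) (hg : 𝒜.GH α τ g N) (j : 𝒜.ι) {t : ℝ} (ht : t ∈ Icc 0 τ) :
    ContDiffOn ℝ 2 (𝒜.loc j (𝒜.Q θ H g) t) (ball 0 4) :=
  (ContDiffOn.sum fun i _ => (h.P_jet hN hg i j).1 t ht).congr fun _ hy => h.Q_loc g j t hy

theorem jet_Q (hN : 0 ≤ N) (hg : 𝒜.GH α τ g N) (j : 𝒜.ι) {t : ℝ} (ht : t ∈ Icc 0 τ) {y : E}
    (hy : y ∈ ball (0 : E) 4) : jet (𝒜.loc j (𝒜.Q θ H g) t) y =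
      ∑ i ∈ 𝒜.N j, jet (fun y => 𝒜.P θ i (𝒜.vi H g i t) ((𝒜.e j).symm y)) y := by
  rw [← jet_sum _ fun i _ => ((h.P_jet hN hg i j).1 t ht).contDiffAt (isOpen_ball.mem_nhds hy)]
  refine jet_congr ?_
  filter_upwards [isOpen_ball.mem_nhds hy] with z hz using h.Q_loc g j t hz

theorem Q_jet (hN : 0 ≤ N) (hg : 𝒜.GH α τ g N) (j : 𝒜.ι) :
    PB α (Icc 0 τ) (ball 0 4) (fun t => jet (𝒜.loc j (𝒜.Q θ H g) t))
      (N₀ * (CT * cθ * m * N)) (N₀ * (3 * CT * cθ * M * N)) := by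
  have hc := h.cθ1
  have hm := h.m0
  have hM := h.m0.trans h.mM
  have hT := h.CT1
  have h1 := PB.sum (𝒜.N j) fun i _ => (h.P_jet hN hg i j).2
  have h2 : ((𝒜.N j).card : ℝ) ≤ N₀ := by exact_mod_cast 𝒜.card j
  exact (h1.congr fun t ht y hy => (h.jet_Q hN hg j ht hy).symm).mono
    (mul_le_mul_of_nonneg_right h2 (by positivity)) (mul_le_mul_of_nonneg_right h2 (by positivity))

theorem S_cont (hN : 0 ≤ N) (hg : 𝒜.GH α τ g N) (j : 𝒜.ι) :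
    ContinuousOn (fun q : ℝ × E => 𝒜.S θ B H g q.1 ((𝒜.e j).symm q.2))
      (Icc 0 τ ×ˢ ball 0 4) := by
  refine (continuousOn_finsetSum (𝒜.N j) fun i _ => h.trc i j (Icc 0 τ)
    (fun t => 𝒜.P θ i fun y => B i (D2 (𝒜.vi H g i t) y)) (fun t _ => h.P_zero i _) ?_).congr
    fun q hq => h.S_loc g j q.1 hq.2
  have h1 := (h.v i g N hN hg).2.2.2.cont.mono (prod_mono subset_rfl (subset_univ (ball (0 : E) 4)))
  refine ((h.θs.continuous.comp continuous_snd).continuousOn.mul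
    ((B i).continuous.comp_continuousOn h1)).congr fun q hq => ?_
  exact P_loc i _ hq.2

omit h in
theorem P_lin (i : 𝒜.ι) (v w : E → ℝ) (c : ℝ) (x : X) :
    𝒜.P θ i (fun y => v y + c * w y) x = 𝒜.P θ i v x + c * 𝒜.P θ i w x := by
  unfold P ext
  by_cases hx : x ∈ (𝒜.e i).source
  · simp only [indicator_of_mem hx]; ring
  · simp only [indicator_of_notMem hx]; ring

variable {k : ℝ → X → ℝ} {d : ℝ}

theorem Q_lin (hN : 0 ≤ N) (hd : 0 ≤ d) (hg : 𝒜.GH α τ g N) (hk : 𝒜.GH α τ k d) (c : ℝ)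
    (j : 𝒜.ι) {t : ℝ} (ht : t ∈ Icc 0 τ) {y : E} (hy : y ∈ ball (0 : E) 4) :
    𝒜.loc j (𝒜.Q θ H fun s x => g s x + c * k s x) t y =
      𝒜.loc j (𝒜.Q θ H g) t y + c * 𝒜.loc j (𝒜.Q θ H k) t y := by
  simp only [loc, h.Q_loc _ j t hy, Finset.mul_sum, ← Finset.sum_add_distrib]
  refine Finset.sum_congr rfl fun i _ => ?_
  rw [h.lin i c g k N d hN hd hg hk t ht, P_lin]

theorem S_lin (hN : 0 ≤ N) (hd : 0 ≤ d) (hg : 𝒜.GH α τ g N) (hk : 𝒜.GH α τ k d) (c : ℝ)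
    (j : 𝒜.ι) {t : ℝ} (ht : t ∈ Icc 0 τ) {y : E} (hy : y ∈ ball (0 : E) 4) :
    𝒜.S θ B H (fun s x => g s x + c * k s x) t ((𝒜.e j).symm y) =
      𝒜.S θ B H g t ((𝒜.e j).symm y) + c * 𝒜.S θ B H k t ((𝒜.e j).symm y) := by
  simp only [h.S_loc _ j t hy, Finset.mul_sum, ← Finset.sum_add_distrib]
  refine Finset.sum_congr rfl fun i _ => ?_
  rw [h.lin i c g k N d hN hd hg hk t ht, ← P_lin]
  congr 1
  funext z
  have h1 := (h.v_c2 hN hg i ht).contDiffAt (x := z)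
  have h2 := (h.v_c2 hd hk i ht).contDiffAt (x := z)
  have h3 := jet_add h1 (contDiffAt_const.mul h2 : ContDiffAt ℝ 2 (fun y => c * _) z)
  rw [jet_const_mul c h2] at h3
  have h4 : D2 (fun y => 𝒜.vi H g i t y + c * 𝒜.vi H k i t y) z =
      D2 (𝒜.vi H g i t) z + c • D2 (𝒜.vi H k i t) z := congrArg (fun p : Jet E => p.2.2) h3
  rw [h4, map_add, map_smul, smul_eq_mul]

theorem jet_Q_lin (hN : 0 ≤ N) (hd : 0 ≤ d) (hg : 𝒜.GH α τ g N) (hk : 𝒜.GH α τ k d) (c : ℝ)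
    (j : 𝒜.ι) {t : ℝ} (ht : t ∈ Icc 0 τ) {y : E} (hy : y ∈ ball (0 : E) 4) :
    jet (𝒜.loc j (𝒜.Q θ H fun s x => g s x + c * k s x) t) y =
      jet (𝒜.loc j (𝒜.Q θ H g) t) y + c • jet (𝒜.loc j (𝒜.Q θ H k) t) y := by
  have h1 := (h.Q_c2 hN hg j ht).contDiffAt (isOpen_ball.mem_nhds hy)
  have h2 := (h.Q_c2 hd hk j ht).contDiffAt (isOpen_ball.mem_nhds hy)
  rw [← jet_const_mul c h2,
    ← jet_add h1 (contDiffAt_const.mul h2 : ContDiffAt ℝ 2 (fun y => c * _) y)]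
  refine jet_congr ?_
  filter_upwards [isOpen_ball.mem_nhds hy] with z hz using h.Q_lin hN hd hg hk c j ht hz

/-- the time derivative of the parametrix -/
theorem Q_dt (hN : 0 ≤ N) (hg : 𝒜.GH α τ g N) (j : 𝒜.ι) {t : ℝ} (ht : t ∈ Icc 0 τ) {y : E}
    (hy : y ∈ ball (0 : E) 4) :
    HasDerivWithinAt (fun s => 𝒜.loc j (𝒜.Q θ H g) s y)
      (𝒜.S θ B H g t ((𝒜.e j).symm y) + g t ((𝒜.e j).symm y)) (Icc 0 τ) t := by
  set x := (𝒜.e j).symm y with hx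
  have h1 : ∀ i, HasDerivWithinAt (fun s => 𝒜.P θ i (𝒜.vi H g i s) x)
      (𝒜.P θ i (fun y => B i (D2 (𝒜.vi H g i t) y)) x + ext (𝒜.e i) (𝒜.χ i) x * g t x)
      (Icc 0 τ) t := by
    intro i
    unfold P ext
    by_cases hxi : x ∈ (𝒜.e i).source
    · simp only [indicator_of_mem hxi]
      have h2 := ((h.v i g N hN hg).2.1.dt t ht (𝒜.e i x) (mem_univ _)).const_mul (θ (𝒜.e i x))
      refine h2.congr_deriv ?_
      simp only [fi]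
      rw [(𝒜.e i).left_inv hxi, mul_add]
      congr 1
      by_cases h3 : ‖𝒜.e i x‖ ≤ 2
      · rw [h.θ1 _ h3, one_mul]
      · rw [𝒜.χ0 i _ (not_le.1 h3)]; ring
    · simp only [indicator_of_notMem hxi]
      simpa using hasDerivWithinAt_const t (Icc 0 τ) (0 : ℝ)
  have h2 := HasDerivWithinAt.fun_sum (u := 𝒜.N j) fun i _ => h1 i
  rw [Finset.sum_add_distrib, ← Finset.sum_mul, 𝒜.sum j y hy, one_mul, ← h.S_loc g j t hy] at h2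
  exact h2.congr (fun s _ => h.Q_loc g j s hy) (h.Q_loc g j t hy)

theorem Q_zero (hN : 0 ≤ N) (hg : 𝒜.GH α τ g N) (x : X) : 𝒜.Q θ H g 0 x = 0 := by
  refine finsum_eq_zero_of_forall_eq_zero fun i => ?_
  unfold P ext
  by_cases hx : x ∈ (𝒜.e i).source
  · simp only [indicator_of_mem hx]
    rw [(h.v i g N hN hg).1, mul_zero]
  · rw [indicator_of_notMem hx]

end Su

end UA

end Vale.Agent.P253W.FP
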