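import Vale.Agent.P253W.FP.Ex1

/-!
# P253W, block FP: the contraction estimate
-/

set_option maxSynthPendingDepth 3
set_option linter.unusedSectionVars false

open Set Metric Filter Topology
open Vale.Agent.P272.K.R (Hol Bil D2)
open Vale.Agent.P272.K.LIN (Jet jet JM jet_mul jet_congr)

noncomputable section

namespace Vale.Agent.P253W.FP

variable {E : Type} [NormedAddCommGroup E] [NormedSpace ℝ E] [FiniteDimensional ℝ E]
variable {X : Type} [TopologicalSpace X] [T2Space X] {K : ℝ} {N₀ : ℕ}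

namespace UA

variable (𝒜 : UA E X K N₀) (θ : E → ℝ) (B : 𝒜.ι → Bil E →L[ℝ] ℝ)
  (H : 𝒜.ι → (ℝ → E → ℝ) → ℝ → E → ℝ) (F : 𝒜.ι → ℝ → E → Jet E → ℝ)

open Classical in
/-- the operator on `X` -/
def op (u : X → ℝ) (t : ℝ) (x : X) : ℝ :=
  if h : ∃ p : 𝒜.ι × E, p.2 ∈ ball (0 : E) 4 ∧ (𝒜.e p.1).symm p.2 = x then
    F h.choose.1 t h.choose.2 (jet (fun z => u ((𝒜.e h.choose.1).symm z)) h.choose.2) else 0

/-- the map whose fixed points give solutions -/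
def Ψ (g : ℝ → X → ℝ) (t : ℝ) (x : X) : ℝ := 𝒜.op F (𝒜.Q θ H g t) t x - 𝒜.S θ B H g t x

variable {𝒜 θ B H F} {A : 𝒜.ι → ℝ → E → Jet E → Jet E →L[ℝ] ℝ} {α τ m M CT cθ KF δ T ε : ℝ}

theorem op_loc (hI : 𝒜.Inv δ T F) {u : X → ℝ} {t : ℝ} (ht : t ∈ Icc 0 T)
    (h2 : ∀ j, ContDiffOn ℝ 2 (fun z => u ((𝒜.e j).symm z)) (ball 0 4))
    (hδ : ∀ j, ∀ y ∈ ball (0 : E) 4, ‖jet (fun z => u ((𝒜.e j).symm z)) y‖ < δ) (j : 𝒜.ι) {y : E}
    (hy : y ∈ ball (0 : E) 4) :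
    𝒜.op F u t ((𝒜.e j).symm y) = F j t y (jet (fun z => u ((𝒜.e j).symm z)) y) := by
  have h : ∃ p : 𝒜.ι × E, p.2 ∈ ball (0 : E) 4 ∧ (𝒜.e p.1).symm p.2 = (𝒜.e j).symm y :=
    ⟨(j, y), hy, rfl⟩
  rw [op, dif_pos h]
  obtain ⟨h3, h4⟩ := h.choose_spec
  exact hI _ j t ht _ h3 y hy h4 u ((h2 _).contDiffAt (isOpen_ball.mem_nhds h3))
    ((h2 j).contDiffAt (isOpen_ball.mem_nhds hy)) (hδ _ _ h3) (hδ j y hy)

theorem hasDerivAt_line {B : Bil E →L[ℝ] ℝ} {F : ℝ → E → Jet E → ℝ}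
    {A : ℝ → E → Jet E → Jet E →L[ℝ] ℝ} (hF : Adm α KF δ T ε B F A) {t : ℝ} (ht : t ∈ Icc 0 T)
    {y : E} (hy : y ∈ ball (0 : E) 4) (z Z : Jet E) (s : ℝ) (hz : ‖z + s • Z‖ < δ) :
    HasDerivAt (fun s : ℝ => F t y (z + s • Z)) (A t y (z + s • Z) Z) s := by
  have h1 : HasDerivAt (fun s : ℝ => z + s • Z) Z s := by
    simpa using ((hasDerivAt_id s).smul_const Z).const_add z
  exact (hF.der t ht y hy _ (mem_ball_zero_iff.2 hz)).comp_hasDerivAt s h1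

/-- the linearised operator does not depend on the chart -/
theorem inv_lin (hF : ∀ i, Adm α KF δ T ε (B i) (F i) (A i)) (hI : 𝒜.Inv δ T F) {t : ℝ}
    (ht : t ∈ Icc 0 T) {i j : 𝒜.ι} {y y' : E} (hy : y ∈ ball (0 : E) 4)
    (hy' : y' ∈ ball (0 : E) 4) (hx : (𝒜.e i).symm y = (𝒜.e j).symm y') {u p : X → ℝ}
    (hu : ContDiffAt ℝ 2 (fun z => u ((𝒜.e i).symm z)) y)
    (hu' : ContDiffAt ℝ 2 (fun z => u ((𝒜.e j).symm z)) y')
    (hp : ContDiffAt ℝ 2 (fun z => p ((𝒜.e i).symm z)) y)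
    (hp' : ContDiffAt ℝ 2 (fun z => p ((𝒜.e j).symm z)) y')
    (hδ : ‖jet (fun z => u ((𝒜.e i).symm z)) y‖ < δ)
    (hδ' : ‖jet (fun z => u ((𝒜.e j).symm z)) y'‖ < δ) :
    A i t y (jet (fun z => u ((𝒜.e i).symm z)) y) (jet (fun z => p ((𝒜.e i).symm z)) y) =
      A j t y' (jet (fun z => u ((𝒜.e j).symm z)) y') (jet (fun z => p ((𝒜.e j).symm z)) y') := by
  have h1 := hasDerivAt_line (hF i) ht hy (jet (fun z => u ((𝒜.e i).symm z)) y)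
    (jet (fun z => p ((𝒜.e i).symm z)) y) 0 (by simpa using hδ)
  have h2 := hasDerivAt_line (hF j) ht hy' (jet (fun z => u ((𝒜.e j).symm z)) y')
    (jet (fun z => p ((𝒜.e j).symm z)) y') 0 (by simpa using hδ')
  have ev : ∀ z Z : Jet E, ‖z‖ < δ → ∀ᶠ s : ℝ in 𝓝 0, ‖z + s • Z‖ < δ := fun z Z hz => by
    have hc : Continuous fun s : ℝ => ‖z + s • Z‖ := by fun_prop
    exact (hc.tendsto 0).eventually_lt_const (by simpa using hz)
  simp only [zero_smul, add_zero] at h1 h2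
  refine h1.unique (h2.congr_of_eventuallyEq ?_)
  filter_upwards [ev _ (jet (fun z => p ((𝒜.e i).symm z)) y) hδ,
    ev _ (jet (fun z => p ((𝒜.e j).symm z)) y') hδ'] with s hs hs'
  have c1 : ContDiffAt ℝ 2 (fun z => s * p ((𝒜.e i).symm z)) y := contDiffAt_const.mul hp
  have c2 : ContDiffAt ℝ 2 (fun z => s * p ((𝒜.e j).symm z)) y' := contDiffAt_const.mul hp'
  have e1 := jet_add hu c1
  have e2 := jet_add hu' c2
  rw [jet_const_mul s hp] at e1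
  rw [jet_const_mul s hp'] at e2
  have := hI i j t ht y hy y' hy' hx (fun x => u x + s * p x) (hu.add c1) (hu'.add c2)
    (by rw [e1]; exact hs) (by rw [e2]; exact hs')
  rwa [e1, e2] at this

/-- bounds for the error term in one chart -/
theorem err_bd {a : E → Jet E →L[ℝ] ℝ} {b : Bil E →L[ℝ] ℝ} {z : E → Jet E} {KA m M : ℝ}
    (hcθ : 1 ≤ cθ) (hKF : 0 ≤ KF) (hε : 0 ≤ ε) (_hm : 0 ≤ m)
    (θb : ∀ y, ‖θ y‖ ≤ 1) (θh : Hol α cθ θ (ball 0 4))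
    (Mb : ∀ y ∈ ball (0 : E) 4, ‖JM (jet θ y)‖ ≤ cθ)
    (Mh : Hol α cθ (fun y => JM (jet θ y)) (ball 0 4))
    (a0 : ∀ y ∈ ball (0 : E) 4, ‖a y‖ ≤ KF) (a1 : Hol α KA a (ball 0 4))
    (a2 : ∀ y ∈ ball (0 : E) 4, ‖(a y).comp j2 - b‖ ≤ ε)
    (l0 : ∀ y ∈ ball (0 : E) 4, ‖low (z y)‖ ≤ m) (l1 : Hol α m (fun y => low (z y)) (ball 0 4))
    (d0 : ∀ y ∈ ball (0 : E) 4, ‖(z y).2.2‖ ≤ m) (d1 : Hol α M (fun y => (z y).2.2) (ball 0 4)) :
    (∀ y ∈ ball (0 : E) 4, |a y (JM (jet θ y) (z y)) - θ y * b (z y).2.2| ≤ m * (KF * cθ + ε)) ∧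
    Hol α (ε * M + m * (2 * KF * cθ + cθ * KA + KA + ε * cθ))
      (fun y => a y (JM (jet θ y) (z y)) - θ y * b (z y).2.2) (ball 0 4) := by
  have e : ∀ y, a y (JM (jet θ y) (z y)) - θ y * b (z y).2.2 =
      a y (JM (jet θ y) (low (z y))) + θ y • ((a y).comp j2 - b) (z y).2.2 := by
    intro y
    rw [JM_split, map_add, map_smul]
    simp only [smul_eq_mul, _root_.sub_apply, ContinuousLinearMap.comp_apply]
    have : (jet θ y).1 = θ y := rfl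
    rw [this]; ring
  have p0 : ∀ y ∈ ball (0 : E) 4, ‖JM (jet θ y) (low (z y))‖ ≤ cθ * m := fun y hy =>
    (ContinuousLinearMap.le_opNorm _ _).trans
      (mul_le_mul (Mb y hy) (l0 y hy) (norm_nonneg _) (by linarith))
  have p1 := hol_app Mh l1 Mb l0
  have q1 := hol_app a1 p1 a0 p0
  have b1 : Hol α KA (fun y => (a y).comp j2 - b) (ball 0 4) := fun y hy y' hy' => by
    have : (a y).comp j2 - b - ((a y').comp j2 - b) = (a y - a y').comp j2 := by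
      ext u; simp
    rw [this]
    exact (norm_comp_j2_le _).trans (a1 y hy y' hy')
  have r0 : ∀ y ∈ ball (0 : E) 4, ‖((a y).comp j2 - b) (z y).2.2‖ ≤ ε * m := fun y hy =>
    (ContinuousLinearMap.le_opNorm _ _).trans (mul_le_mul (a2 y hy) (d0 y hy) (norm_nonneg _) hε)
  have r1 := hol_app b1 d1 a2 d0
  have s1 := hol_smul θh r1 (fun y _ => θb y) r0
  refine ⟨fun y hy => ?_, ((q1.add s1).mono_const (le_of_eq (by ring))).congr fun y _ => (e y).symm⟩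
  rw [e, ← Real.norm_eq_abs]
  have h1 : ‖a y (JM (jet θ y) (low (z y)))‖ ≤ KF * (cθ * m) :=
    (ContinuousLinearMap.le_opNorm _ _).trans (mul_le_mul (a0 y hy) (p0 y hy) (norm_nonneg _) hKF)
  have h2 : ‖θ y • ((a y).comp j2 - b) (z y).2.2‖ ≤ 1 * (ε * m) := by
    rw [norm_smul]; exact mul_le_mul (θb y) (r0 y hy) (norm_nonneg _) zero_le_one
  calc _ ≤ _ := norm_add_le _ _
    _ ≤ KF * (cθ * m) + 1 * (ε * m) := add_le_add h1 h2
    _ = _ := by ring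

namespace Su

variable (h : 𝒜.Su θ B H α τ m M CT cθ) (hF : ∀ i, Adm α KF δ T ε (B i) (F i) (A i))
  (hI : 𝒜.Inv δ T F) (hτ : τ ≤ T) {N : ℝ} (hN : 0 ≤ N) (hδ : N₀ * (CT * cθ * m * N) < δ)
include h hF hI hτ hN hδ

theorem Ψ_loc {g : ℝ → X → ℝ} (hg : 𝒜.GH α τ g N) (j : 𝒜.ι) {t : ℝ} (ht : t ∈ Icc 0 τ) {y : E}
    (hy : y ∈ ball (0 : E) 4) : 𝒜.Ψ θ B H F g t ((𝒜.e j).symm y) =
      F j t y (jet (𝒜.loc j (𝒜.Q θ H g) t) y) - 𝒜.S θ B H g t ((𝒜.e j).symm y) := by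
  rw [Ψ, op_loc hI ⟨ht.1, ht.2.trans hτ⟩ (fun j => h.Q_c2 hN hg j ht)
    (fun j y hy => ((h.Q_jet hN hg j).sup t ht y hy).trans_lt hδ) j hy]
  rfl

theorem Ψ_cont {g : ℝ → X → ℝ} (hg : 𝒜.GH α τ g N) (j : 𝒜.ι) :
    ContinuousOn (fun q : ℝ × E => 𝒜.Ψ θ B H F g q.1 ((𝒜.e j).symm q.2))
      (Icc 0 τ ×ˢ ball 0 4) := by
  refine (ContinuousOn.sub ?_ (h.S_cont hN hg j)).congr fun q hq =>
    h.Ψ_loc hF hI hτ hN hδ hg j hq.1 hq.2
  refine (hF j).cont.comp (f := fun q : ℝ × E => (q.1, q.2, jet (𝒜.loc j (𝒜.Q θ H g) q.1) q.2))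
    (continuousOn_fst.prodMk (continuousOn_snd.prodMk (h.Q_jet hN hg j).cont)) fun q hq => ?_
  exact ⟨⟨hq.1.1, hq.1.2.trans hτ⟩, hq.2,
    mem_ball_zero_iff.2 (((h.Q_jet hN hg j).sup _ hq.1 _ hq.2).trans_lt hδ)⟩

/-- the derivative of `Ψ` at `g` in the direction `k` -/
theorem DΨ (hKF : 0 ≤ KF) (hε : 0 ≤ ε) {g k : ℝ → X → ℝ} {d : ℝ} (hd : 0 ≤ d)
    (hg : 𝒜.GH α τ g N) (hk : 𝒜.GH α τ k d) (j : 𝒜.ι) {t : ℝ} (ht : t ∈ Icc 0 τ) {KA : ℝ}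
    (hKA : KA = KF * (1 + N₀ * (3 * CT * cθ * M * N))) :
    (∀ y ∈ ball (0 : E) 4, |A j t y (jet (𝒜.loc j (𝒜.Q θ H g) t) y)
      (jet (𝒜.loc j (𝒜.Q θ H k) t) y) - 𝒜.S θ B H k t ((𝒜.e j).symm y)| ≤
        N₀ * (m * d * (KF * cθ + ε))) ∧
    Hol α (N₀ * (CT * (ε * (M * d) + m * d * (2 * KF * cθ + cθ * KA + KA + ε * cθ))))
      (fun y => A j t y (jet (𝒜.loc j (𝒜.Q θ H g) t) y) (jet (𝒜.loc j (𝒜.Q θ H k) t) y) -
        𝒜.S θ B H k t ((𝒜.e j).symm y)) (ball 0 4) := by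
  have htT : t ∈ Icc 0 T := ⟨ht.1, ht.2.trans hτ⟩
  have hc := h.cθ1
  have hm := h.m0
  have hM := h.m0.trans h.mM
  have hT := h.CT1
  have hKA0 : 0 ≤ KA := by rw [hKA]; positivity
  have hz : ∀ i, ∀ y ∈ ball (0 : E) 4, ‖jet (𝒜.loc i (𝒜.Q θ H g) t) y‖ < δ := fun i y hy =>
    ((h.Q_jet hN hg i).sup t ht y hy).trans_lt hδ
  set ρ : 𝒜.ι → E → ℝ := fun i y => A i t y (jet (𝒜.loc i (𝒜.Q θ H g) t) y)
    (JM (jet θ y) (jet (𝒜.vi H k i t) y)) - θ y * B i (jet (𝒜.vi H k i t) y).2.2 with hρ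
  have ρ0 : ∀ i y, 3 < ‖y‖ → ρ i y = 0 := fun i y hy => by
    simp only [hρ, h.jθ_zero hy, JM_zero, h.θ0 y hy, map_zero, zero_mul, sub_zero]
  have ρb := fun i => err_bd (α := α) (θ := θ)
    (a := fun y => A i t y (jet (𝒜.loc i (𝒜.Q θ H g) t) y)) (b := B i)
    (z := jet (𝒜.vi H k i t)) (KA := KA) (m := m * d) (M := M * d) hc hKF hε (by positivity)
    h.θb h.θh h.Mb h.Mh
    (fun y hy => (hF i).bdA t htT y hy _ (mem_ball_zero_iff.2 (hz i y hy)))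
    (fun y hy y' hy' => by
      refine ((hF i).holA t htT y hy _ (mem_ball_zero_iff.2 (hz i y hy)) y' hy' _
        (mem_ball_zero_iff.2 (hz i y' hy'))).trans ?_
      rw [hKA, mul_assoc, add_mul, one_mul]
      exact mul_le_mul_of_nonneg_left (add_le_add le_rfl ((h.Q_jet hN hg i).hol t ht y hy y' hy'))
        hKF)
    (fun y hy => (hF i).near t htT y hy _ (mem_ball_zero_iff.2 (hz i y hy)))
    (fun y _ => (h.v i k d hd hk).2.2.1.sup t ht y (mem_univ _))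
    (((h.v i k d hd hk).2.2.1.hol t ht).mono (subset_univ _))
    (fun y _ => (h.v i k d hd hk).2.2.2.sup t ht y (mem_univ _))
    (((h.v i k d hd hk).2.2.2.hol t ht).mono (subset_univ _))
  have key : ∀ y ∈ ball (0 : E) 4, A j t y (jet (𝒜.loc j (𝒜.Q θ H g) t) y)
      (jet (𝒜.loc j (𝒜.Q θ H k) t) y) - 𝒜.S θ B H k t ((𝒜.e j).symm y) =
      ∑ i ∈ 𝒜.N j, ext (𝒜.e i) (ρ i) ((𝒜.e j).symm y) := by
    intro y hy
    rw [h.jet_Q hd hk j ht hy, h.S_loc k j t hy, map_sum, ← Finset.sum_sub_distrib]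
    refine Finset.sum_congr rfl fun i _ => ?_
    by_cases hx : (𝒜.e j).symm y ∈ 𝒜.supp i
    · obtain ⟨y', hy', hx⟩ := hx
      have hy4 := sub34 hy'
      have h1 := inv_lin hF hI htT hy4 hy hx (u := 𝒜.Q θ H g t) (p := 𝒜.P θ i (𝒜.vi H k i t))
        ((h.Q_c2 hN hg i ht).contDiffAt (isOpen_ball.mem_nhds hy4))
        ((h.Q_c2 hN hg j ht).contDiffAt (isOpen_ball.mem_nhds hy))
        (((h.P_jet hd hk i i).1 t ht).contDiffAt (isOpen_ball.mem_nhds hy4))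
        (((h.P_jet hd hk i j).1 t ht).contDiffAt (isOpen_ball.mem_nhds hy))
        (hz i y' hy4) (hz j y hy)
      rw [h.jet_P i (h.v_c2 hd hk i ht) hy4] at h1
      rw [← hx, 𝒜.ext_loc i _ hy4, P_loc i _ hy4]
      exact congrArg (· - _) h1.symm
    · have h1 : jet (fun y => 𝒜.P θ i (𝒜.vi H k i t) ((𝒜.e j).symm y)) y = 0 := by
        rw [← jet_zero y]
        refine jet_congr ?_
        filter_upwards [𝒜.ev_not_supp i j hy hx] with z hz using h.P_zero i _ _ hz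
      rw [h1, map_zero, h.P_zero i _ _ hx, 𝒜.ext_zero i (ρ0 i) hx, sub_zero]
  have hcard : ((𝒜.N j).card : ℝ) ≤ N₀ := by exact_mod_cast 𝒜.card j
  constructor
  · intro y hy
    rw [key y hy]
    refine (Finset.abs_sum_le_sum_abs _ _).trans ?_
    refine (Finset.sum_le_card_nsmul _ _ (m * d * (KF * cθ + ε)) fun i _ =>
      𝒜.ext_bound i (ρ0 i) (by positivity) (ρb i).1 _).trans ?_
    rw [nsmul_eq_mul]
    exact mul_le_mul_of_nonneg_right hcard (by positivity)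
  · intro y hy y' hy'
    simp only
    rw [key y hy, key y' hy', ← Finset.sum_sub_distrib]
    refine (norm_sum_le _ _).trans ?_
    refine (Finset.sum_le_card_nsmul _ _ (CT * (ε * (M * d) + m * d *
      (2 * KF * cθ + cθ * KA + KA + ε * cθ)) * ‖y - y'‖ ^ α) fun i _ => ?_).trans ?_
    · exact h.tr0 i j (ext (𝒜.e i) (ρ i)) _ (by positivity) (fun x hx => 𝒜.ext_zero i (ρ0 i) hx)
        ((ρb i).2.congr fun z hz => (𝒜.ext_loc i (ρ i) hz).symm) y hy y' hy'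
    · rw [nsmul_eq_mul, ← mul_assoc]
      exact mul_le_mul_of_nonneg_right (mul_le_mul_of_nonneg_right hcard (by positivity))
        (by positivity)

/-- **the contraction estimate** -/
theorem contr (hKF : 0 ≤ KF) (hε : 0 ≤ ε) {KA : ℝ}
    (hKA : KA = KF * (1 + N₀ * (3 * CT * cθ * M * N)))
    (s1 : N₀ * (m * (KF * cθ + ε)) ≤ 1 / 2)
    (s2 : N₀ * (CT * (ε * M + m * (2 * KF * cθ + cθ * KA + KA + ε * cθ))) ≤ 1 / 2)
    {g g' : ℝ → X → ℝ} {d : ℝ} (hd : 0 ≤ d) (hg : 𝒜.GH α τ g N) (hg' : 𝒜.GH α τ g' N)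
    (hk : 𝒜.GH α τ (fun t x => g t x - g' t x) d) :
    𝒜.GH α τ (fun t x => 𝒜.Ψ θ B H F g t x - 𝒜.Ψ θ B H F g' t x) (d / 2) := by
  intro j
  set k : ℝ → X → ℝ := fun t x => g t x - g' t x with hkd
  have hG : ∀ s ∈ Icc (0 : ℝ) 1, 𝒜.GH α τ (fun t x => g' t x + s * k t x) N := by
    intro s hs i
    have h1 := ((hg' i).const_smul (1 - s)).add ((hg i).const_smul s)
    rw [abs_of_nonneg (sub_nonneg.2 hs.2), abs_of_nonneg hs.1] at h1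
    refine (h1.congr fun t _ y _ => ?_).mono (le_of_eq (by ring)) (le_of_eq (by ring))
    simp only [hkd, smul_eq_mul]; ring
  have b1 : N₀ * (m * d * (KF * cθ + ε)) ≤ d / 2 := by
    calc _ = N₀ * (m * (KF * cθ + ε)) * d := by ring
      _ ≤ 1 / 2 * d := mul_le_mul_of_nonneg_right s1 hd
      _ = _ := by ring
  have b2 : N₀ * (CT * (ε * (M * d) + m * d * (2 * KF * cθ + cθ * KA + KA + ε * cθ))) ≤ d / 2 := by
    calc _ = N₀ * (CT * (ε * M + m * (2 * KF * cθ + cθ * KA + KA + ε * cθ))) * d := by ring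
      _ ≤ 1 / 2 * d := mul_le_mul_of_nonneg_right s2 hd
      _ = _ := by ring
  set φ : ℝ → E → ℝ → ℝ := fun t y s => F j t y (jet (𝒜.loc j (𝒜.Q θ H g') t) y +
    s • jet (𝒜.loc j (𝒜.Q θ H k) t) y) - (𝒜.S θ B H g' t ((𝒜.e j).symm y) +
      s * 𝒜.S θ B H k t ((𝒜.e j).symm y)) with hφ
  set D : ℝ → ℝ → E → ℝ := fun t s y => A j t y
    (jet (𝒜.loc j (𝒜.Q θ H fun t x => g' t x + s * k t x) t) y)
    (jet (𝒜.loc j (𝒜.Q θ H k) t) y) - 𝒜.S θ B H k t ((𝒜.e j).symm y) with hD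
  have hder : ∀ t ∈ Icc 0 τ, ∀ y ∈ ball (0 : E) 4, ∀ s ∈ Icc (0 : ℝ) 1,
      HasDerivWithinAt (φ t y) (D t s y) (Icc 0 1) s := by
    intro t ht y hy s hs
    have e1 := h.jet_Q_lin hN hd hg' hk s j ht hy
    have h1 := hasDerivAt_line (hF j) ⟨ht.1, ht.2.trans hτ⟩ hy _
      (jet (𝒜.loc j (𝒜.Q θ H k) t) y) s
      (by rw [← e1]; exact ((h.Q_jet hN (hG s hs) j).sup t ht y hy).trans_lt hδ)
    have h2 : HasDerivAt (fun s : ℝ => 𝒜.S θ B H g' t ((𝒜.e j).symm y) +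
        s * 𝒜.S θ B H k t ((𝒜.e j).symm y)) (𝒜.S θ B H k t ((𝒜.e j).symm y)) s := by
      simpa using ((hasDerivAt_id s).mul_const (𝒜.S θ B H k t ((𝒜.e j).symm y))).const_add
        (𝒜.S θ B H g' t ((𝒜.e j).symm y))
    simp only [hD, e1]
    exact (h1.sub h2).hasDerivWithinAt
  have hval : ∀ t ∈ Icc 0 τ, ∀ y ∈ ball (0 : E) 4,
      𝒜.Ψ θ B H F g t ((𝒜.e j).symm y) - 𝒜.Ψ θ B H F g' t ((𝒜.e j).symm y) =
        φ t y 1 - φ t y 0 := by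
    intro t ht y hy
    have e0 : (fun t x => g' t x + 1 * k t x) = g := by
      funext t x; simp only [hkd]; ring
    have e1 := h.jet_Q_lin hN hd hg' hk 1 j ht hy
    have e2 := h.S_lin hN hd hg' hk 1 j ht hy
    rw [e0] at e1 e2
    rw [h.Ψ_loc hF hI hτ hN hδ hg j ht hy, h.Ψ_loc hF hI hτ hN hδ hg' j ht hy, e1, e2]
    simp only [hφ, zero_smul, add_zero, zero_mul]
  have hDb := fun t (ht : t ∈ Icc 0 τ) s (hs : s ∈ Icc (0 : ℝ) 1) =>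
    h.DΨ hF hI hτ hN hδ hKF hε hd (hG s hs) hk j ht hKA
  refine ⟨(h.Ψ_cont hF hI hτ hN hδ hg j).sub (h.Ψ_cont hF hI hτ hN hδ hg' j),
    fun t ht y hy => ?_, fun t ht y hy y' hy' => ?_⟩
  · simp only
    rw [hval t ht y hy]
    exact norm_image_sub_le_of_norm_deriv_le_segment_01' (hder t ht y hy) fun s hs =>
      ((hDb t ht s (Ico_subset_Icc_self hs)).1 y hy).trans b1
  · simp only
    rw [hval t ht y hy, hval t ht y' hy']
    have h1 := norm_image_sub_le_of_norm_deriv_le_segment_01'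
      (f := fun s => φ t y s - φ t y' s) (C := d / 2 * ‖y - y'‖ ^ α)
      (fun s hs => (hder t ht y hy s hs).sub (hder t ht y' hy' s hs)) fun s hs =>
        ((hDb t ht s (Ico_subset_Icc_self hs)).2.mono_const b2) y hy y' hy'
    convert h1 using 2
    ring

/-- the value at zero -/
theorem Ψ_zero {K' : ℝ} (hK : KF ≤ K') : 𝒜.GH α τ (𝒜.Ψ θ B H F fun _ _ => 0) K' := by
  intro j
  have h0 : 𝒜.GH α τ (fun _ _ => (0 : ℝ)) 0 := fun i => PB.zero _ _ _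
  have hN' : 𝒜.GH α τ (fun _ _ => (0 : ℝ)) N := fun i => (h0 i).mono hN hN
  have e : ∀ t ∈ Icc 0 τ, ∀ y ∈ ball (0 : E) 4,
      𝒜.Ψ θ B H F (fun _ _ => 0) t ((𝒜.e j).symm y) = F j t y 0 := by
    intro t ht y hy
    have h1 := (h.Q_jet le_rfl h0 j).sup t ht y hy
    rw [mul_zero, mul_zero, norm_le_zero_iff] at h1
    have h2 := h.S_lin le_rfl le_rfl h0 h0 (-1) j ht hy
    simp only [mul_zero, add_zero] at h2
    rw [h.Ψ_loc hF hI hτ hN hδ hN' j ht hy, h1]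
    linarith
  refine ⟨h.Ψ_cont hF hI hτ hN hδ hN' j, fun t ht y hy => ?_, fun t ht => ?_⟩
  · rw [e t ht y hy]
    exact ((hF j).bdF t ⟨ht.1, ht.2.trans hτ⟩ y hy).trans hK
  · exact (((hF j).holF t ⟨ht.1, ht.2.trans hτ⟩).mono_const hK).congr fun y hy => (e t ht y hy).symm

end Su

end UA

end Vale.Agent.P253W.FP
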