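import Vale.Agent.P253W.FP.Defs
import Vale.Agent.P272.K.H.Heat

/-!
# P253W, block FP: the integrals of Duhamel
-/

set_option maxSynthPendingDepth 3

open Set Metric Filter Topology MeasureTheory
open Vale.Agent.P272.K.H (avg Gk q0 q1 q2 trL)

noncomputable section

namespace Vale.Agent.P253W.FP

variable {E : Type} [NormedAddCommGroup E] [InnerProductSpace ℝ E] [FiniteDimensional ℝ E]
  [MeasurableSpace E] [BorelSpace E]

/-- `∫₀^t P_{s²} f(t - s²) d(s²)` with the kernel `k` and the weight `2 s^β` -/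
def duh {F : Type} [NormedAddCommGroup F] [NormedSpace ℝ F] (k : E → F) (β : ℝ) (f : ℝ → E → ℝ)
    (t : ℝ) (x : E) : F :=
  ∫ s in Ioc 0 √t, (2 * s ^ β) • avg k s (f (t - s ^ 2)) x

variable (E)

/-- **DUHa**: space derivatives and bounds -/
def DUHa : Prop :=
  ∀ α : ℝ, 0 < α → α < 1 → ∃ C : ℝ, 0 ≤ C ∧ ∀ (T A A' : ℝ) (f : ℝ → E → ℝ), 0 ≤ T → 0 ≤ A' →
    PB α (Icc 0 T) univ f A A' →
    (∀ t ∈ Icc 0 T, ∀ x, HasFDerivAt (duh (Gk q0) 1 f t) (duh (Gk q1) 0 f t x) x ∧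
      HasFDerivAt (duh (Gk q1) 0 f t) (duh (Gk q2) (-1) f t x) x) ∧
    PB α (Icc 0 T) univ (duh (Gk q0) 1 f) (T * A) (T * A') ∧
    PB α (Icc 0 T) univ (duh (Gk q1) 0 f) (C * √T * A) (C * √T * A') ∧
    PB α (Icc 0 T) univ (duh (Gk q2) (-1) f) (C * T ^ (α / 2) * A') (C * A')

/-- **DUHb**: the time derivative -/
def DUHb : Prop :=
  ∀ (α T A A' : ℝ) (f : ℝ → E → ℝ) (ι : Type) [Fintype ι] (b : OrthonormalBasis ι ℝ E) (x : E),
    0 < α → α < 1 → 0 ≤ A' → PB α (Icc 0 T) univ f A A' →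
    ContinuousOn (fun t => duh (Gk q2) (-1) f t x) (Icc 0 T) → ∀ t ∈ Icc 0 T,
      HasDerivWithinAt (fun s => duh (Gk q0) 1 f s x)
        (trL b (duh (Gk q2) (-1) f t x) + f t x) (Icc 0 T) t

end Vale.Agent.P253W.FP
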