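import Vale.Agent.P253W.FP.MDefs
import Vale.Agent.P272.K.N.Phi

/-!
# P253W, block FP, row MAQ: the two model operators
-/

set_option maxSynthPendingDepth 3

open scoped ContDiff Topology ComplexConjugate ComplexOrder Matrix
open Set Metric Filter
open Vale.Agent.P272.K (Cm)
open Vale.Agent.P272.K.R (Bil)
open Vale.Agent.P272.K.N (lev)

noncomputable section

namespace Vale.Agent.P253W.FP

namespace MaqA

variable {n : ℕ}

/-- the real part of the sesquilinear form -/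
def bf (A : Mx n) (x y : Cm n) : ℝ := (star x ⬝ᵥ A *ᵥ y).re

/-- the square of the Euclidean norm -/
def nsq (x : Cm n) : ℝ := bf 1 x x

theorem bf_sub (A B : Mx n) (x y : Cm n) : bf (A - B) x y = bf A x y - bf B x y := by
  simp [bf, Matrix.sub_mulVec, dotProduct_sub]

theorem bf_smul (c : ℝ) (x : Cm n) : bf ((c : ℂ) • (1 : Mx n)) x x = c * nsq x := by
  simp [bf, nsq, Matrix.smul_mulVec, dotProduct_smul]

theorem nsq_eq (x : Cm n) : nsq x = ∑ i, ‖x i‖ ^ 2 := by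
  simp only [nsq, bf, Matrix.one_mulVec, dotProduct, Pi.star_apply, Complex.re_sum]
  refine Finset.sum_congr rfl fun i _ => ?_
  rw [Complex.star_def, Complex.conj_mul', ← Complex.ofReal_pow, Complex.ofReal_re]

theorem nsq_nonneg (x : Cm n) : 0 ≤ nsq x := by
  rw [nsq_eq]; positivity

theorem le_nsq (x : Cm n) : ‖x‖ ^ 2 ≤ nsq x := by
  have h : ‖x‖ ≤ √(nsq x) := by
    refine (pi_norm_le_iff_of_nonneg (Real.sqrt_nonneg _)).2 fun i => ?_
    refine Real.le_sqrt_of_sq_le ?_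
    rw [nsq_eq]
    exact Finset.single_le_sum (f := fun i => ‖x i‖ ^ 2) (fun _ _ => by positivity)
      (Finset.mem_univ i)
  calc ‖x‖ ^ 2 ≤ √(nsq x) ^ 2 := by gcongr
    _ = nsq x := Real.sq_sqrt (nsq_nonneg x)

theorem nsq_le (x : Cm n) : nsq x ≤ n * ‖x‖ ^ 2 := by
  rw [nsq_eq]
  calc ∑ i, ‖x i‖ ^ 2 ≤ ∑ _i : Fin n, ‖x‖ ^ 2 :=
        Finset.sum_le_sum fun i _ => by have := norm_le_pi_norm x i; gcongr
    _ = n * ‖x‖ ^ 2 := by simp

theorem bf_symm {A : Mx n} (hA : A.IsHermitian) (x y : Cm n) : bf A x y = bf A y x := by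
  have h : star (star y ⬝ᵥ A *ᵥ x) = star x ⬝ᵥ A *ᵥ y := by
    rw [← Matrix.star_dotProduct_star, star_star, Matrix.star_mulVec, hA.eq, ← Matrix.dotProduct_mulVec]
  unfold bf
  rw [← h]
  simp

theorem bf_add_add (A : Mx n) (x y : Cm n) :
    bf A (x + y) (x + y) = bf A x x + bf A x y + bf A y x + bf A y y := by
  simp only [bf, star_add, Matrix.mulVec_add, add_dotProduct, dotProduct_add, Complex.add_re]
  ring

theorem bf_sub_sub (A : Mx n) (x y : Cm n) :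
    bf A (x - y) (x - y) = bf A x x - bf A x y - bf A y x + bf A y y := by
  simp only [bf, star_sub, Matrix.mulVec_sub, sub_dotProduct, dotProduct_sub, Complex.sub_re]
  ring

theorem psd_iff {A : Mx n} : A.PosSemidef ↔ A.IsHermitian ∧ ∀ x, 0 ≤ bf A x x := by
  rw [Matrix.posSemidef_iff_dotProduct_mulVec]
  refine and_congr_right fun hA => forall_congr' fun x => ?_
  have him : (star x ⬝ᵥ A *ᵥ x).im = 0 := by
    simpa using hA.im_star_dotProduct_mulVec_self x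
  rw [Complex.nonneg_iff]
  simp [bf, him]

theorem herm_smul (c : ℝ) : ((c : ℂ) • (1 : Mx n)).IsHermitian := by
  simp [Matrix.IsHermitian, Matrix.conjTranspose_smul]

theorem mem_QM {Λ : ℝ} {a : Pm n} : a ∈ QM n Λ ↔ (Matrix.of a).IsHermitian ∧
    ∀ x, Λ⁻¹ * nsq x ≤ bf (Matrix.of a) x x ∧ bf (Matrix.of a) x x ≤ Λ * nsq x := by
  simp only [QM, mem_ofPred_eq, psd_iff, bf_sub, bf_smul, sub_nonneg]
  constructor
  · rintro ⟨⟨h1, h2⟩, -, h3⟩
    refine ⟨?_, fun x => ⟨h2 x, h3 x⟩⟩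
    simpa using h1.add (herm_smul (n := n) Λ⁻¹)
  · rintro ⟨h1, h2⟩
    exact ⟨⟨h1.sub (herm_smul _), fun x => (h2 x).1⟩, (herm_smul _).sub h1, fun x => (h2 x).2⟩

theorem nsq_single (i : Fin n) {u : ℂ} (hu : ‖u‖ = 1) : nsq (Pi.single i u : Cm n) = 1 := by
  rw [nsq_eq, Finset.sum_eq_single i]
  · simp [hu]
  · intro j _ hj
    simp [Pi.single_eq_of_ne hj]
  · simp

theorem entry_le {A : Mx n} (hA : A.IsHermitian) {K : ℝ}
    (h : ∀ x, |bf A x x| ≤ K * nsq x) (i j : Fin n) : ‖A i j‖ ≤ K := by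
  obtain ⟨u, hu, hu2⟩ := Complex.exists_norm_eq_mul_self (A i j)
  set x : Cm n := Pi.single i 1 with hx
  set y : Cm n := Pi.single j u with hy
  have h1 : bf A x y = ‖A i j‖ := by
    have : star x ⬝ᵥ A *ᵥ y = (‖A i j‖ : ℂ) := by
      rw [hu2, hx, hy, ← Pi.single_star, single_dotProduct, Matrix.mulVec_single]
      simp [mul_comm]
    rw [bf, this, Complex.ofReal_re]
  have h2 := bf_add_add A x y
  have h3 := bf_sub_sub A x y
  have h4 := bf_add_add 1 x y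
  have h5 := bf_sub_sub 1 x y
  have h6 : bf 1 x x = 1 := nsq_single i (by simp)
  have h7 : bf 1 y y = 1 := nsq_single j hu
  have h8 := (abs_le.1 (h (x + y))).2
  have h9 := (abs_le.1 (h (x - y))).1
  have h10 := bf_symm hA x y
  have h11 : nsq (x + y) + nsq (x - y) = 4 := by
    unfold nsq; linarith
  have h12 : K * nsq (x + y) + K * nsq (x - y) = 4 * K := by
    rw [← mul_add, h11]; ring
  linarith

theorem abs_bf_le {D : Mx n} {ε : ℝ} (hε : 0 ≤ ε) (hD : ∀ i j, ‖D i j‖ ≤ ε) (x : Cm n) :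
    |bf D x x| ≤ (n : ℝ) ^ 2 * ε * nsq x := by
  have h1 := Vale.Agent.P272.K.N.re_quadratic_le hD x
  have h2 := le_nsq x
  calc |bf D x x| ≤ ‖star x ⬝ᵥ D *ᵥ x‖ := Complex.abs_re_le_norm _
    _ ≤ (n : ℝ) ^ 2 * ε * ‖x‖ ^ 2 := h1
    _ ≤ (n : ℝ) ^ 2 * ε * nsq x := by gcongr

theorem norm_le_of_mem {Λ K : ℝ} (hK : 0 ≤ K) (h1 : -K ≤ Λ⁻¹) (h2 : Λ ≤ K) {a : Pm n}
    (ha : a ∈ QM n Λ) : ‖a‖ ≤ K := by
  obtain ⟨hH, hb⟩ := mem_QM.1 ha
  refine (pi_norm_le_iff_of_nonneg hK).2 fun i => (pi_norm_le_iff_of_nonneg hK).2 fun j => ?_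
  refine entry_le hH (fun x => ?_) i j
  have h3 := nsq_nonneg x
  have h4 := hb x
  rw [abs_le]
  constructor <;> nlinarith

theorem continuous_bf (x : Cm n) : Continuous fun a : Pm n => bf (Matrix.of a) x x := by
  refine Complex.continuous_re.comp ?_
  simp only [dotProduct, Matrix.mulVec, Matrix.of_apply]
  fun_prop

theorem cpt (Λ : ℝ) : IsCompact (QM n Λ) := by
  refine Metric.isCompact_of_isClosed_isBounded ?_ ?_
  · have e : QM n Λ = (⋂ i, ⋂ j, {a : Pm n | star (a j i) = a i j}) ∩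
        ⋂ x, ({a : Pm n | Λ⁻¹ * nsq x ≤ bf (Matrix.of a) x x} ∩
          {a : Pm n | bf (Matrix.of a) x x ≤ Λ * nsq x}) := by
      ext a
      simp only [mem_QM, mem_inter_iff, mem_iInter, mem_ofPred_eq]
      refine and_congr_left fun _ => ⟨fun h i j => h.apply i j, fun h => ?_⟩
      exact Matrix.IsHermitian.ext h
    rw [e]
    refine IsClosed.inter (isClosed_iInter fun i => isClosed_iInter fun j => ?_)
      (isClosed_iInter fun x => IsClosed.inter ?_ ?_)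
    · exact isClosed_eq (by fun_prop) (by fun_prop)
    · exact isClosed_le continuous_const (continuous_bf x)
    · exact isClosed_le (continuous_bf x) continuous_const
  · refine (isBounded_closedBall (x := (0 : Pm n)) (r := |Λ| + |Λ⁻¹|)).subset fun a ha => ?_
    rw [mem_closedBall_zero_iff]
    refine norm_le_of_mem (by positivity) ?_ ?_ ha
    · have := neg_abs_le Λ⁻¹
      have := abs_nonneg Λ
      linarith
    · have := le_abs_self Λ
      have := abs_nonneg Λ⁻¹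
      linarith

theorem pos (Λ : ℝ) (hΛ : 0 < Λ) (a : Pm n) (ha : a ∈ QM n Λ) : (Matrix.of a).PosDef := by
  obtain ⟨hH, hb⟩ := mem_QM.1 ha
  refine Matrix.PosDef.of_dotProduct_mulVec_pos hH fun x hx => ?_
  have him : (star x ⬝ᵥ Matrix.of a *ᵥ x).im = 0 := by
    simpa using hH.im_star_dotProduct_mulVec_self x
  rw [Complex.pos_iff]
  refine ⟨lt_of_lt_of_le ?_ (hb x).1, him.symm⟩
  have h1 := le_nsq x
  have h2 : 0 < ‖x‖ ^ 2 := by positivity
  have h3 : 0 < nsq x := lt_of_lt_of_le h2 h1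
  positivity

theorem near (Λ : ℝ) (hΛ : 0 < Λ) : ∃ η : ℝ, 0 < η ∧ ∀ a₀ ∈ QM n Λ, ∀ a : Pm n,
    (Matrix.of a).IsHermitian → ‖a - a₀‖ ≤ η → a ∈ QM n (2 * Λ) := by
  set m : ℝ := min Λ (2 * Λ)⁻¹ with hm
  have hm0 : 0 < m := lt_min hΛ (by positivity)
  refine ⟨m / ((n : ℝ) ^ 2 + 1), by positivity, fun a₀ ha₀ a hH hd => ?_⟩
  obtain ⟨-, hb⟩ := mem_QM.1 ha₀
  refine mem_QM.2 ⟨hH, fun x => ?_⟩
  have h1 := abs_bf_le (D := Matrix.of a - Matrix.of a₀) (ε := m / ((n : ℝ) ^ 2 + 1))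
    (by positivity) (fun i j => ((norm_le_pi_norm ((a - a₀) i) j).trans
      (norm_le_pi_norm (a - a₀) i)).trans hd) x
  have h2 : (n : ℝ) ^ 2 * (m / ((n : ℝ) ^ 2 + 1)) ≤ m := by
    rw [← mul_div_assoc, div_le_iff₀ (by positivity)]
    nlinarith
  have h3 := nsq_nonneg x
  have h4 : |bf (Matrix.of a - Matrix.of a₀) x x| ≤ m * nsq x :=
    h1.trans (mul_le_mul_of_nonneg_right h2 h3)
  rw [bf_sub, abs_le] at h4
  have h5 : m * nsq x ≤ Λ * nsq x := mul_le_mul_of_nonneg_right (min_le_left _ _) h3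
  have h6 : m * nsq x ≤ (2 * Λ)⁻¹ * nsq x := mul_le_mul_of_nonneg_right (min_le_right _ _) h3
  have h7 : Λ⁻¹ * nsq x = 2 * ((2 * Λ)⁻¹ * nsq x) := by
    field_simp
  have h8 := hb x
  constructor <;> linarith

theorem QM_mono {Λ Λ' : ℝ} (hΛ : 0 < Λ) (h : Λ ≤ Λ') : QM n Λ ⊆ QM n Λ' := by
  intro a ha
  obtain ⟨hH, hb⟩ := mem_QM.1 ha
  refine mem_QM.2 ⟨hH, fun x => ?_⟩
  have h3 := nsq_nonneg x
  have h4 : Λ'⁻¹ ≤ Λ⁻¹ := inv_anti₀ hΛ h
  exact ⟨(mul_le_mul_of_nonneg_right h4 h3).trans (hb x).1,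
    (hb x).2.trans (mul_le_mul_of_nonneg_right h h3)⟩

theorem exists_mem {a : Pm n} (ha : (Matrix.of a).PosDef) : ∃ Λ : ℝ, 1 ≤ Λ ∧ a ∈ QM n Λ := by
  obtain ⟨c, hc, hcx⟩ := Vale.Agent.P272.K.N.exists_coercive ha
  refine ⟨1 + (n + 1) / c + (n : ℝ) ^ 2 * ‖a‖, by
    have : 0 ≤ ((n : ℝ) + 1) / c + (n : ℝ) ^ 2 * ‖a‖ := by positivity
    linarith, mem_QM.2 ⟨ha.1, fun x => ?_⟩⟩
  have h1 := abs_bf_le (D := Matrix.of a) (ε := ‖a‖) (norm_nonneg _)
    (fun i j => (norm_le_pi_norm (a i) j).trans (norm_le_pi_norm a i)) x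
  have h3 := nsq_nonneg x
  have h4 := nsq_le x
  have h5 : c * ‖x‖ ^ 2 ≤ bf (Matrix.of a) x x := hcx x
  constructor
  · have h6 : (1 + (n + 1) / c + (n : ℝ) ^ 2 * ‖a‖)⁻¹ ≤ c / (n + 1) := by
      rw [← inv_div ((n : ℝ) + 1) c]
      refine inv_anti₀ (by positivity) ?_
      have : 0 ≤ (n : ℝ) ^ 2 * ‖a‖ := by positivity
      linarith
    calc _ ≤ c / (n + 1) * (n * ‖x‖ ^ 2) := mul_le_mul h6 h4 h3 (by positivity)
      _ ≤ c / (n + 1) * ((n + 1) * ‖x‖ ^ 2) := by gcongr; linarith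
      _ = c * ‖x‖ ^ 2 := by field_simp
      _ ≤ _ := h5
  · refine (le_abs_self _).trans (h1.trans (mul_le_mul_of_nonneg_right ?_ h3))
    have : 0 ≤ ((n : ℝ) + 1) / c := by positivity
    linarith

theorem unif (S : Set (Pm n)) (hS : IsCompact S) (h : ∀ a ∈ S, (Matrix.of a).PosDef) :
    ∃ Λ : ℝ, 1 ≤ Λ ∧ S ⊆ QM n Λ := by
  have key : ∃ Λ : ℝ, 1 ≤ Λ ∧ ∀ a ∈ S, (Matrix.of a).IsHermitian → a ∈ QM n Λ := by
    refine hS.induction_on (p := fun T => ∃ Λ : ℝ, 1 ≤ Λ ∧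
      ∀ a ∈ T, (Matrix.of a).IsHermitian → a ∈ QM n Λ) ⟨1, le_rfl, by simp⟩ ?_ ?_ ?_
    · rintro s t hst ⟨Λ, h1, h2⟩
      exact ⟨Λ, h1, fun a ha => h2 a (hst ha)⟩
    · rintro s t ⟨Λ, h1, h2⟩ ⟨Λ', h1', h2'⟩
      refine ⟨max Λ Λ', le_max_of_le_left h1, ?_⟩
      rintro a (ha | ha) hH
      · exact QM_mono (by linarith) (le_max_left _ _) (h2 a ha hH)
      · exact QM_mono (by linarith) (le_max_right _ _) (h2' a ha hH)
    · intro a₀ ha₀
      obtain ⟨Λ, h1, h2⟩ := exists_mem (h a₀ ha₀)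
      obtain ⟨η, hη, h3⟩ := near (n := n) Λ (by linarith)
      refine ⟨closedBall a₀ η, mem_nhdsWithin_of_mem_nhds (closedBall_mem_nhds _ hη),
        2 * Λ, by linarith, fun a ha hH => h3 a₀ h2 a hH ?_⟩
      rwa [mem_closedBall, dist_eq_norm] at ha
  obtain ⟨Λ, h1, h2⟩ := key
  exact ⟨Λ, h1, fun a ha => h2 a ha (h a ha).1⟩

theorem levn (b : Bil (Cm n)) (i j : Fin n) : ‖lev b i j‖ ≤ ‖b‖ := by
  have h : ∀ u v : ℂ, ‖u‖ = 1 → ‖v‖ = 1 → |b (Pi.single i u) (Pi.single j v)| ≤ ‖b‖ := by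
    intro u v hu hv
    have := b.le_opNorm₂ (Pi.single i u) (Pi.single j v)
    rwa [Pi.norm_single, Pi.norm_single, hu, hv, mul_one, mul_one, Real.norm_eq_abs] at this
  have h1 := h 1 1 (by simp) (by simp)
  have h2 := h Complex.I Complex.I (by simp) (by simp)
  have h3 := h 1 Complex.I (by simp) (by simp)
  have h4 := h Complex.I 1 (by simp) (by simp)
  rw [Vale.Agent.P272.K.N.lev_apply, norm_div, Complex.norm_ofNat, div_le_iff₀ (by norm_num)]
  refine (norm_add_le _ _).trans ?_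
  rw [norm_mul, Complex.norm_I, one_mul, Complex.norm_real, Complex.norm_real, Real.norm_eq_abs,
    Real.norm_eq_abs]
  have h5 := abs_add_le (b (Pi.single i 1) (Pi.single j 1))
    (b (Pi.single i Complex.I) (Pi.single j Complex.I))
  have h6 := abs_sub (b (Pi.single i 1) (Pi.single j Complex.I))
    (b (Pi.single i Complex.I) (Pi.single j 1))
  linarith

theorem cd_fst (i j : Fin n) :
    ContDiff ℝ ∞ fun q : Pm n × Bil (Cm n) => (Matrix.of q.1) i j := by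
  simp only [Matrix.of_apply]
  fun_prop

theorem cd_lev (i j : Fin n) : ContDiff ℝ ∞ fun q : Pm n × Bil (Cm n) => lev q.2 i j :=
  (Vale.Agent.P272.K.N.contDiff_lev i j).comp contDiff_snd

theorem cd_detM :
    ContDiff ℝ ∞ fun q : Pm n × Bil (Cm n) => (Matrix.of q.1 + lev q.2).det.re :=
  Complex.reCLM.contDiff.comp (Vale.Agent.P272.K.N.contDiff_det
    (M := fun q : Pm n × Bil (Cm n) => Matrix.of q.1 + lev q.2)
    fun i j => (cd_fst i j).add (cd_lev i j))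

theorem cd_detL : ContDiff ℝ ∞ fun q : Pm n × Bil (Cm n) => (Matrix.of q.1).det :=
  Vale.Agent.P272.K.N.contDiff_det (M := fun q : Pm n × Bil (Cm n) => Matrix.of q.1) cd_fst

theorem cd_adj (i j : Fin n) :
    ContDiff ℝ ∞ fun q : Pm n × Bil (Cm n) => (Matrix.of q.1).adjugate i j := by
  simp only [Matrix.adjugate_apply]
  refine Vale.Agent.P272.K.N.contDiff_det
    (M := fun q : Pm n × Bil (Cm n) => (Matrix.of q.1).updateRow j (Pi.single i 1)) fun a b => ?_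
  by_cases hab : a = j
  · subst hab
    simp only [Matrix.updateRow_self]
    exact contDiff_const
  · simp only [Matrix.updateRow_ne hab]
    exact cd_fst a b

theorem oM : IsOpen {q : Pm n × Bil (Cm n) | 0 < (Matrix.of q.1 + lev q.2).det.re} :=
  isOpen_lt continuous_const cd_detM.continuous

theorem sM : ContDiffOn ℝ ∞ (ΦM (n := n)) {q | 0 < (Matrix.of q.1 + lev q.2).det.re} :=
  cd_detM.contDiffOn.log fun _ hq => ne_of_gt hq

theorem oL : IsOpen {q : Pm n × Bil (Cm n) | (Matrix.of q.1).det ≠ 0} :=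
  isOpen_ne_fun cd_detL.continuous continuous_const

theorem sL : ContDiffOn ℝ ∞ (ΦL (n := n)) {q | (Matrix.of q.1).det ≠ 0} := by
  have h : ∀ i j, ContDiffOn ℝ ∞ (fun q : Pm n × Bil (Cm n) => (Matrix.of q.1)⁻¹ i j)
      {q | (Matrix.of q.1).det ≠ 0} := by
    intro i j
    refine ((cd_detL.contDiffOn.inv fun _ hq => hq).mul (cd_adj i j).contDiffOn).congr
      fun q _ => ?_
    rw [Matrix.inv_def, Matrix.smul_apply, Ring.inverse_eq_inv', smul_eq_mul]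
    rfl
  have h2 : ContDiffOn ℝ ∞ (fun q : Pm n × Bil (Cm n) => ((Matrix.of q.1)⁻¹ * lev q.2).trace)
      {q | (Matrix.of q.1).det ≠ 0} := by
    simp only [Matrix.trace, Matrix.diag_apply, Matrix.mul_apply]
    exact ContDiffOn.sum fun i _ => ContDiffOn.sum fun k _ =>
      (h i k).mul (cd_lev k i).contDiffOn
  exact Complex.reCLM.contDiff.comp_contDiffOn h2

theorem fderiv_line {Φ : Pm n × Bil (Cm n) → ℝ} {q v : Pm n × Bil (Cm n)} {d : ℝ}
    (hd : DifferentiableAt ℝ Φ q) (h : HasDerivAt (fun t : ℝ => Φ (q + t • v)) d 0) :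
    fderiv ℝ Φ q v = d := by
  have hl : HasDerivAt (fun t : ℝ => q + t • v) v 0 := by
    simpa using ((hasDerivAt_id (0 : ℝ)).smul_const v).const_add q
  have h2 : HasFDerivAt Φ (fderiv ℝ Φ q) (q + (0 : ℝ) • v) := by simpa using hd.hasFDerivAt
  exact (h2.comp_hasDerivAt (0 : ℝ) hl).unique h

theorem eM (q : Pm n × Bil (Cm n)) (hq : (Matrix.of q.1 + lev q.2).PosDef) (ξ : Cm n →L[ℝ] ℝ)
    (hξ : ξ ≠ 0) : 0 < fderiv ℝ ΦM q (0, ξ.smulRight ξ) := by
  have hpos : 0 < (Matrix.of q.1 + lev q.2).det.re := (Complex.pos_iff.1 hq.det_pos).1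
  have hd : DifferentiableAt ℝ (ΦM (n := n)) q :=
    (sM.contDiffAt (oM.mem_nhds hpos)).differentiableAt (by simp)
  rw [fderiv_line hd (d := ((Matrix.of q.1 + lev q.2)⁻¹ * lev (ξ.smulRight ξ)).trace.re)]
  · exact Vale.Agent.P272.K.N.trace_inv_lev_pos hq hξ
  · refine (Vale.Agent.P272.K.N.hasDerivAt_log_det (H := lev (ξ.smulRight ξ))
      hq).congr_of_eventuallyEq (Eventually.of_forall fun t => ?_)
    simp only [ΦM, Prod.fst_add, Prod.snd_add, Prod.smul_fst, Prod.smul_snd, smul_zero, add_zero,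
      Vale.Agent.P272.K.N.lev_add, Vale.Agent.P272.K.N.lev_smul, add_assoc]

theorem eL (q : Pm n × Bil (Cm n)) (hq : (Matrix.of q.1).PosDef) (ξ : Cm n →L[ℝ] ℝ)
    (hξ : ξ ≠ 0) : 0 < fderiv ℝ ΦL q (0, ξ.smulRight ξ) := by
  have hd : DifferentiableAt ℝ (ΦL (n := n)) q :=
    (sL.contDiffAt (oL.mem_nhds hq.det_pos.ne')).differentiableAt (by simp)
  rw [fderiv_line hd (d := ((Matrix.of q.1)⁻¹ * lev (ξ.smulRight ξ)).trace.re)]
  · exact Vale.Agent.P272.K.N.trace_inv_lev_pos hq hξ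
  · have h := ((hasDerivAt_id (0 : ℝ)).mul_const
      (((Matrix.of q.1)⁻¹ * lev (ξ.smulRight ξ)).trace.re)).const_add (ΦL q)
    rw [one_mul] at h
    refine h.congr_of_eventuallyEq (Eventually.of_forall fun t => ?_)
    simp only [ΦL, trg, Prod.fst_add, Prod.snd_add, Prod.smul_fst, Prod.smul_snd, smul_zero,
      add_zero, Vale.Agent.P272.K.N.lev_add, Vale.Agent.P272.K.N.lev_smul, Matrix.mul_add,
      Matrix.mul_smul, Matrix.trace_add, Matrix.trace_smul, smul_eq_mul, Complex.add_re,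
      Complex.re_ofReal_mul, id]

end MaqA

/-- **MAQ** -/
theorem maq (n : ℕ) : MAQ n where
  cpt := MaqA.cpt
  pos := MaqA.pos
  bd := fun Λ hΛ _ ha => MaqA.norm_le_of_mem hΛ.le
    (by have : 0 < Λ⁻¹ := by positivity
        linarith) le_rfl ha
  near := MaqA.near
  unif := MaqA.unif
  levn := MaqA.levn
  oM := MaqA.oM
  sM := MaqA.sM
  eM := MaqA.eM
  oL := MaqA.oL
  sL := MaqA.sL
  eL := MaqA.eL

end Vale.Agent.P253W.FP
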