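import Vale.Agent.P253W.FP.MDefs
import Vale.Agent.P253W.FP.Pb
import Vale.Agent.P253W.FG.Calc
import Vale.Agent.P253Z.B1b.Lin

/-!
# P253W, block FP: elementary properties of the flow on `{σ > 0}`
-/

set_option maxSynthPendingDepth 3
set_option linter.unusedSectionVars false

open scoped Manifold ContDiff Bundle ENNReal Topology ComplexConjugate ComplexOrder Matrix
open Bundle IsManifold MeasureTheory Set Metric Filter Vale.Agent.P253.Mfd Vale.Agent.P253Z
open Vale.Agent.P272.K (Cm dz dzb cHess jacM Chart)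
open Vale.Agent.P272.K.C2
open Vale.Agent.P272.K.R (Hol Bil D2)
open Vale.Agent.P272.K.LIN (Jet jet)
open Vale.Agent.P253W.FG.Calc (two_le det_real)

noncomputable section

namespace Vale.Agent.P253W.FP

namespace Mu

section par

variable {E F : Type*} [NormedAddCommGroup E] [NormedSpace ℝ E] [NormedAddCommGroup F]
  [NormedSpace ℝ F] {I : Set ℝ} {U : Set E} {Φ : ℝ × E → F}

theorem slice (hU : IsOpen U) (h : ContDiffOn ℝ ∞ Φ (I ×ˢ U)) {t : ℝ} (ht : t ∈ I) {z : E}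
    (hz : z ∈ U) : ContDiffAt ℝ ∞ (fun y => Φ (t, y)) z := by
  have : ContDiffOn ℝ ∞ (fun y => Φ (t, y)) U :=
    h.comp (contDiff_const.prodMk contDiff_id).contDiffOn fun y hy => ⟨ht, hy⟩
  exact this.contDiffAt (hU.mem_nhds hz)

/-- the space derivative of a smooth function of time and space, for any set of times -/
theorem pfd (hU : IsOpen U) (h : ContDiffOn ℝ ∞ Φ (I ×ˢ U)) :
    ContDiffOn ℝ ∞ (fun q : ℝ × E => fderiv ℝ (fun y => Φ (q.1, y)) q.2) (I ×ˢ U) := by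
  have h1 : ContDiffOn ℝ ∞ (Function.uncurry fun (q : ℝ × E) (y : E) => Φ (q.1, y))
      ((I ×ˢ U) ×ˢ U) :=
    h.comp (f := fun p : (ℝ × E) × E => (p.1.1, p.2))
      (contDiff_fst.fst.prodMk contDiff_snd).contDiffOn fun p hp => ⟨hp.1.1, hp.2⟩
  have h2 : ContDiffOn ℝ ∞ (fun q : ℝ × E => fderivWithin ℝ (fun y => Φ (q.1, y)) U q.2)
      (I ×ˢ U) := fun q hq =>
    ContDiffWithinAt.fderivWithin (g := Prod.snd) (h1 (q, q.2) ⟨hq, hq.2⟩) contDiffWithinAt_snd
      hU.uniqueDiffOn (by simp) hq fun p hp => hp.2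
  exact h2.congr fun q hq => (fderivWithin_of_isOpen hU hq.2).symm

end par

section cx

variable {n : ℕ} {I : Set ℝ} {U : Set (Cm n)}

theorem dd {Φ : ℝ × Cm n → ℂ} (hU : IsOpen U) (h : ContDiffOn ℝ ∞ Φ (I ×ˢ U)) (a b : ℂ)
    (v w : Cm n) :
    ContDiffOn ℝ ∞ (fun q : ℝ × Cm n => DD a b v w (fun y => Φ (q.1, y)) q.2) (I ×ˢ U) :=
  (contDiffOn_const.mul ((pfd hU h).clm_apply contDiffOn_const)).add
    (contDiffOn_const.mul ((pfd hU h).clm_apply contDiffOn_const))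

theorem hess {Φ : ℝ × Cm n → ℝ} (hU : IsOpen U) (h : ContDiffOn ℝ ∞ Φ (I ×ˢ U)) (j k : Fin n) :
    ContDiffOn ℝ ∞ (fun q : ℝ × Cm n => cHess (fun y => Φ (q.1, y)) q.2 j k) (I ×ˢ U) := by
  simp only [cHess_apply, dz_eq_DD, dzb_eq_DD']
  exact dd (Φ := fun q : ℝ × Cm n => DD _ _ _ _ (fun y => ((Φ (q.1, y) : ℝ) : ℂ)) q.2) hU
    (dd (Φ := fun q => ((Φ q : ℝ) : ℂ)) hU (FG.Calc.ofR h) _ _ _ _) _ _ _ _

/-- `i∂∂̄f` is closed -/
theorem hess_cl {f : Cm n → ℝ} {z : Cm n} (hf : ContDiffAt ℝ ∞ f z) (a i j : Fin n) :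
    dz a (fun y => cHess f y i j) z = dz i (fun y => cHess f y a j) z :=
  dz_dz_comm a i ((contDiffAt_dzb (m := ∞) j (contDiffAt_ofReal hf) (by simp)).of_le two_le)

theorem pb_add (J A B : Mx n) : pb J (A + B) = pb J A + pb J B := by
  simp only [pb, Matrix.mul_add, Matrix.add_mul]

theorem pb_sub (J A B : Mx n) : pb J (A - B) = pb J A - pb J B := by
  simp only [pb, Matrix.mul_sub, Matrix.sub_mul]

theorem pb_smul (J A : Mx n) (c : ℂ) : pb J (c • A) = c • pb J A := by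
  simp only [pb, Matrix.mul_smul, Matrix.smul_mul]

theorem pb_eq (J A : Mx n) :
    pb J A = (J.map (starRingEnd ℂ))ᴴ * A * J.map (starRingEnd ℂ) := by
  have : (J.map (starRingEnd ℂ))ᴴ = J.transpose := by ext i j; simp
  rw [this, pb]

theorem det_map (J : Mx n) : (J.map (starRingEnd ℂ)).det = conj J.det := by
  rw [RingHom.map_det]; rfl

theorem ld_ch (A B J : Mx n) (hJ : J.det ≠ 0) (hA : A.det.re ≠ 0) (hB : B.det.re ≠ 0) :
    Real.log (pb J A).det.re - Real.log (pb J B).det.re =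
      Real.log A.det.re - Real.log B.det.re := by
  have h : ‖J.det‖ ^ 2 ≠ 0 := pow_ne_zero _ (norm_ne_zero_iff.2 hJ)
  rw [pb, pb, MC.det_pb, MC.det_pb, Real.log_mul h hA, Real.log_mul h hB]
  ring

theorem trg_ch (A B J : Mx n) (hJ : J.det ≠ 0) : trg (pb J A) (pb J B) = trg A B := by
  have h1 : IsUnit (J.map (starRingEnd ℂ)).det := by
    rw [det_map]; exact ((map_ne_zero _).2 hJ).isUnit
  have h2 : IsUnit J.transpose.det := by rw [Matrix.det_transpose]; exact hJ.isUnit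
  rw [trg, trg, pb, pb, Matrix.mul_inv_rev, Matrix.mul_inv_rev, Matrix.mul_assoc,
    Matrix.trace_mul_comm]
  simp only [Matrix.mul_assoc]
  rw [Matrix.nonsing_inv_mul_cancel_left _ _ h2, Matrix.mul_nonsing_inv _ h1, Matrix.mul_one]

theorem psd_ch (A J : Mx n) (h : A.PosSemidef) : (pb J A).PosSemidef := by
  rw [pb_eq]; exact h.conjTranspose_mul_mul_same _

theorem pd_ch (A J : Mx n) (hJ : J.det ≠ 0) (h : A.PosDef) : (pb J A).PosDef := by
  rw [pb_eq]
  refine h.conjTranspose_mul_mul_same (Matrix.mulVec_injective_iff_isUnit.2 ?_)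
  rw [Matrix.isUnit_iff_isUnit_det, det_map]
  exact ((map_ne_zero _).2 hJ).isUnit

theorem sm_ldet {E : Type*} [NormedAddCommGroup E] [NormedSpace ℝ E] {s : Set E} {A : E → Mx n}
    (hA : ∀ j k, ContDiffOn ℝ ∞ (fun q => A q j k) s) (h0 : ∀ q ∈ s, (A q).PosDef) :
    ContDiffOn ℝ ∞ (fun q => Real.log (A q).det.re) s := by
  have h : ContDiffOn ℝ ∞ (fun q => (A q).det) s := by
    simp only [Matrix.det_apply']
    exact ContDiffOn.sum fun σ _ => contDiffOn_const.mul (contDiffOn_prod fun i _ => hA _ _)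
  exact (Complex.reCLM.contDiff.comp_contDiffOn h).log fun q hq => (det_real (h0 q hq)).2.ne'

end cx

variable {n : ℕ} {M : Type} [MetricSpace M] [ChartedSpace (Cm n) M]
  {σ f : M → ℝ} {φ : ℝ → M → ℝ} {e e' : Chart n M} {x : M} {z : Cm n} {T t : ℝ}

theorem ev_both (hx : x ∈ e.source) (hx' : x ∈ e'.source) :
    ∀ᶠ y in 𝓝 (e x), y ∈ e.target ∧ e.symm y ∈ e'.source := by
  refine (e.open_target.eventually_mem (e.map_source hx)).and
    ((e.continuousAt_symm (e.map_source hx)).eventually ?_)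
  rw [e.left_inv hx]
  exact e'.open_source.mem_nhds hx'

theorem tr_sm (a : B1a n M) (he : Hc e) (he' : Hc e') (hz : z ∈ e.target)
    (hz' : e.symm z ∈ e'.source) {m : WithTop ℕ∞} : ContDiffAt ℝ m (fun y => e' (e.symm y)) z :=
  ((a.hol e e' he he' z hz hz').contDiffAt (n := m)).restrict_scalars ℝ

theorem hs_ch (a : B1a n M) (he : Hc e) (he' : Hc e') (hx : x ∈ e.source) (hx' : x ∈ e'.source)
    (hf : ContDiffAt ℝ 2 (fun y => f (e'.symm y)) (e' x)) :
    ContDiffAt ℝ 2 (fun y => f (e.symm y)) (e x) ∧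
      hs f e (e x) = pb (jacM e e' x) (hs f e' (e' x)) := by
  have h0 : (fun y => f (e.symm y)) =ᶠ[𝓝 (e x)] fun y => f (e'.symm (e' (e.symm y))) := by
    filter_upwards [ev_both hx hx'] with y hy
    rw [e'.left_inv hy.2]
  have h1 : e.symm (e x) ∈ e'.source := by rwa [e.left_inv hx]
  have h2 : ContDiffAt ℝ 2 (fun y => f (e'.symm y)) (e' (e.symm (e x))) := by rwa [e.left_inv hx]
  refine ⟨(ContDiffAt.comp (g := fun y => f (e'.symm y)) (f := fun y => e' (e.symm y)) (e x) h2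
    (tr_sm a he he' (e.map_source hx) h1)).congr_of_eventuallyEq h0, ?_⟩
  have h3 := P272.K.cHess_comp (f := fun y => f (e'.symm y)) (τ := fun y => e' (e.symm y))
    (z := e x) h2 (a.hol e e' he he' _ (e.map_source hx) h1).contDiffAt
  rw [e.left_inv hx] at h3
  exact (cHess_congr h0).trans h3

theorem loc (a : B1a n M) {I : Set ℝ} {f : ℝ → M → ℝ} (h : ∀ x, 0 < σ x → ∃ (e : Chart n M)
    (U : Set (Cm n)), Hc e ∧ x ∈ e.source ∧ IsOpen U ∧ e x ∈ U ∧
      ContDiffOn ℝ ∞ (ch e f) (I ×ˢ U)) : SmD n σ I f := by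
  rintro e he ⟨t, z⟩ ⟨ht, hz, h0⟩
  obtain ⟨e', U, he', hx, hU, hxU, hf⟩ := h _ h0
  have h1 := tr_sm a he he' hz hx (m := ∞)
  have h2 : ∀ᶠ y in 𝓝 z, e.symm y ∈ e'.source ∧ e' (e.symm y) ∈ U :=
    ((e.continuousAt_symm hz).eventually (e'.open_source.mem_nhds hx)).and
      (h1.continuousAt.eventually (hU.mem_nhds hxU))
  have h3 : ContDiffWithinAt ℝ ∞ (ch e' f ∘ fun q : ℝ × Cm n => (q.1, e' (e.symm q.2)))
      (I ×ˢ {y | e.symm y ∈ e'.source ∧ e' (e.symm y) ∈ U}) (t, z) :=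
    ContDiffWithinAt.comp (t, z) (hf _ ⟨ht, hxU⟩)
      (contDiffAt_fst.prodMk (h1.comp (t, z) contDiffAt_snd)).contDiffWithinAt
      fun q hq => ⟨hq.1, hq.2.2⟩
  have h4 : ContDiffWithinAt ℝ ∞ (ch e f)
      (I ×ˢ {y | e.symm y ∈ e'.source ∧ e' (e.symm y) ∈ U}) (t, z) :=
    h3.congr (fun q hq => by simp only [Function.comp, ch, e'.left_inv hq.2.1])
      (by simp only [Function.comp, ch, e'.left_inv hx])
  refine h4.mono_of_mem_nhdsWithin ?_
  filter_upwards [self_mem_nhdsWithin, mem_nhdsWithin_of_mem_nhds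
    (continuousAt_snd (p := (t, z)).eventually h2)] with q h5 h6
  exact ⟨h5.1, h6⟩

theorem op (h : Sm n σ) (he : Hc e) : IsOpen {z ∈ e.target | 0 < σ (e.symm z)} := by
  refine isOpen_iff_mem_nhds.2 fun z hz => ?_
  filter_upwards [e.open_target.mem_nhds hz.1,
    (h e he z hz.1).continuousAt.eventually (lt_mem_nhds hz.2)] with y h1 h2 using ⟨h1, h2⟩

theorem lg_sm (h : Sm n σ) (he : Hc e) (hz : z ∈ e.target) (h0 : 0 < σ (e.symm z)) :
    ContDiffAt ℝ ∞ (fun y => 2 * Real.log (σ (e.symm y))) z :=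
  contDiffAt_const.mul ((h e he z hz).log h0.ne')

variable [RiemannianBundle (fun x : M => TangentSpace 𝓘(ℝ, Cm n) x)]

theorem hh_ch (b : B1b n M) (he : Hc e) (he' : Hc e') (hx : x ∈ e.source) (hx' : x ∈ e'.source) :
    hh σ e (e x) = pb (jacM e e' x) (hh σ e' (e' x)) := by
  rw [hh, hh, pb_smul, e.left_inv hx, e'.left_inv hx', b.wch e e' he he' x hx hx']

theorem rh_ch (a : B1a n M) (b : B1b n M) (h : Sm n σ) (he : Hc e) (he' : Hc e')
    (hx : x ∈ e.source) (hx' : x ∈ e'.source) (h0 : 0 < σ x) :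
    rh σ e (e x) = pb (jacM e e' x) (rh σ e' (e' x)) := by
  rw [rh, rh, pb_add, pb_smul, b.ric_ch e e' he he' x hx hx',
    (hs_ch (f := fun x => 2 * Real.log (σ x)) a he he' hx hx'
      ((lg_sm h he' (e'.map_source hx') (by rwa [e'.left_inv hx'])).of_le two_le)).2]

theorem hh_pos (b : B1b n M) (he : Hc e) (hz : z ∈ e.target) (h0 : 0 < σ (e.symm z)) :
    (hh σ e z).PosDef :=
  (b.wpos e he z hz).smul (by exact_mod_cast (by positivity : 0 < (σ (e.symm z))⁻¹ ^ 2))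

theorem hh_sm (b : B1b n M) (h : Sm n σ) (he : Hc e) (hz : z ∈ e.target) (h0 : 0 < σ (e.symm z))
    (j k : Fin n) : ContDiffAt ℝ ∞ (fun y => hh σ e y j k) z :=
  (contDiffAt_ofReal (((h e he z hz).inv h0.ne').pow 2)).mul (b.wsm e he z hz j k)

theorem rh_sm (b : B1b n M) (h : Sm n σ) (he : Hc e) (hz : z ∈ e.target) (h0 : 0 < σ (e.symm z))
    (j k : Fin n) : ContDiffAt ℝ ∞ (fun y => rh σ e y j k) z :=
  (contDiffAt_cHess ((b.vd_sm e he z hz).log (b.vd_pos e he z hz).ne').neg (by simp) j k).add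
    (contDiffAt_const.mul (contDiffAt_cHess (lg_sm h he hz h0) (by simp) j k))

theorem lh_sm (b : B1b n M) (h : Sm n σ) (he : Hc e) (hz : z ∈ e.target) (h0 : 0 < σ (e.symm z)) :
    ContDiffAt ℝ ∞ (fun y => Real.log (hh σ e y).det.re) z :=
  (sm_ldet (s := {z ∈ e.target | 0 < σ (e.symm z)})
    (fun j k _ hy => (hh_sm b h he hy.1 hy.2 j k).contDiffWithinAt)
      fun _ hy => hh_pos b he hy.1 hy.2).contDiffAt ((op h he).mem_nhds ⟨hz, h0⟩)

theorem rh_eq (b : B1b n M) (h : Sm n σ) (he : Hc e) (hz : z ∈ e.target) (h0 : 0 < σ (e.symm z)) :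
    rh σ e z = -cHess (fun y => Real.log (hh σ e y).det.re) z := by
  have h1 : (fun y => Real.log (hh σ e y).det.re) =ᶠ[𝓝 z]
      fun y => -(-Real.log (vd e y) + n * (2 * Real.log (σ (e.symm y)))) := by
    filter_upwards [(op h he).mem_nhds ⟨hz, h0⟩] with y hy
    rw [hh, Matrix.det_smul, Fintype.card_fin, ← Complex.ofReal_pow, Complex.re_ofReal_mul, ← vd,
      Real.log_mul (pow_pos (pow_pos (inv_pos.2 hy.2) _) _).ne' (b.vd_pos e he y hy.1).ne',
      Real.log_pow, Real.log_pow, Real.log_inv]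
    push_cast
    ring
  have h2 := (lg_sm h he hz h0).of_le two_le
  have h3 := ((b.vd_sm e he z hz).log (b.vd_pos e he z hz).ne').neg.of_le two_le
  rw [cHess_congr h1, cHess_neg (h3.add (contDiffAt_const.mul h2)), neg_neg,
    cHess_add h3 (contDiffAt_const.mul h2), cHess_const_mul _ h2]
  rfl

theorem lvh_eq (a : B1a n M) (b : B1b n M) (h : Sm n σ) (he : Hc e) (hz : z ∈ e.target)
    (h0 : 0 < σ (e.symm z)) (hφ : ContDiffAt ℝ 2 (fun y => φ t (e.symm y)) z)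
    (hp : (gh σ φ t e z).PosDef) :
    lvh n σ φ t (e.symm z) = Real.log (gh σ φ t e z).det.re - Real.log (hh σ e z).det.re := by
  have hx := e.map_target hz
  have hs := mem_chart_source (Cm n) (e.symm z)
  have hc := a.chart (e.symm z)
  have hJ := a.jac_ne _ _ hc he _ hs hx
  have h1 := hh_ch (σ := σ) b hc he hs hx
  have h2 := rh_ch a b h hc he hs hx h0
  have h3 := (hs_ch (f := φ t) a hc he hs hx (by rwa [e.right_inv hz])).2
  rw [e.right_inv hz] at h1 h2 h3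
  have h4 : gh σ φ t (pc n (e.symm z)) (pc n (e.symm z) (e.symm z)) =
      pb (jacM (pc n (e.symm z)) e (e.symm z)) (gh σ φ t e z) := by
    rw [gh, gh, pb_add, pb_sub, pb_smul, h1, h2, h3]
  have h5 := hh_pos b he hz h0
  rw [lvh, h4, h1, Real.log_div (det_real (pd_ch _ _ hJ hp)).2.ne'
    (det_real (pd_ch _ _ hJ h5)).2.ne', ld_ch _ _ _ hJ (det_real hp).2.ne' (det_real h5).2.ne']

theorem lift {I : Set ℝ} {U : Set (Cm n)} {F : Cm n → ℂ} (h : ∀ z ∈ U, ContDiffAt ℝ ∞ F z) :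
    ContDiffOn ℝ ∞ (fun q : ℝ × Cm n => F q.2) (I ×ˢ U) := fun q hq =>
  ((h q.2 hq.2).comp q contDiffAt_snd).contDiffWithinAt

theorem gh_sm (b : B1b n M) (h : Sm n σ) {I : Set ℝ} (hφ : SmD n σ I φ) (he : Hc e)
    (j k : Fin n) : ContDiffOn ℝ ∞ (fun q : ℝ × Cm n => gh σ φ q.1 e q.2 j k)
      (I ×ˢ {z ∈ e.target | 0 < σ (e.symm z)}) :=
  ((lift fun _ hz => hh_sm b h he hz.1 hz.2 j k).sub
    ((Complex.ofRealCLM.contDiff.comp_contDiffOn contDiffOn_fst).mul
      (lift fun _ hz => rh_sm b h he hz.1 hz.2 j k))).add (hess (op h he) (hφ e he) j k)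

theorem sol_eq (a : B1a n M) (b : B1b n M) (h : Sm n σ) (S : Sol n σ T φ) (he : Hc e)
    (ht : t ∈ Icc 0 T) (hz : z ∈ e.target) (h0 : 0 < σ (e.symm z)) :
    HasDerivWithinAt (fun s => φ s (e.symm z))
      (Real.log (gh σ φ t e z).det.re - Real.log (hh σ e z).det.re) (Icc 0 T) t := by
  rw [← lvh_eq a b h he hz h0 ((slice (op h he) (S.sm e he) ht ⟨hz, h0⟩).of_le two_le)
    (S.pos t ht e he z hz h0)]
  exact S.eq t ht _ h0

theorem gh_t (a : B1a n M) (b : B1b n M) (h : Sm n σ) (S : Sol n σ T φ) (ht : t ∈ Ioo 0 T)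
    (he : Hc e) (hz : z ∈ e.target) (h0 : 0 < σ (e.symm z)) (j k : Fin n) :
    HasDerivAt (fun s => gh σ φ s e z j k)
      (cHess (fun y => Real.log (gh σ φ t e y).det.re) z j k) t := by
  have ht' := Ioo_subset_Icc_self ht
  have hI := Icc_mem_nhds ht.1 ht.2
  have h1 := FG.Calc.comm (Ψ := fun q => Real.log (gh σ φ q.1 e q.2).det.re -
    Real.log (hh σ e q.2).det.re) hI (op h he) (S.sm e he)
    (fun y hy => (sol_eq a b h S he ht' hy.1 hy.2).hasDerivAt hI) ⟨hz, h0⟩ j k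
  have h2 := ((hasDerivAt_const t (hh σ e z j k)).sub
    ((hasDerivAt_id t).ofReal_comp.mul_const (rh σ e z j k))).add h1
  have h3 : ContDiffAt ℝ ∞ (fun y => Real.log (gh σ φ t e y).det.re) z :=
    slice (Φ := fun q : ℝ × Cm n => Real.log (gh σ φ q.1 e q.2).det.re) (op h he)
      (sm_ldet (gh_sm b h S.sm he) fun q hq => S.pos _ hq.1 e he _ hq.2.1 hq.2.2) ht' ⟨hz, h0⟩
  refine HasDerivAt.congr_deriv h2 ?_
  rw [cHess_sub (h3.of_le two_le) ((lh_sm b h he hz h0).of_le two_le), rh_eq b h he hz h0]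
  simp

theorem gh_tor (b : B1b n M) (h : Sm n σ) {I : Set ℝ} (hφ : SmD n σ I φ) (ht : t ∈ I)
    (he : Hc e) (hz : z ∈ e.target) (h0 : 0 < σ (e.symm z)) (c i j : Fin n) :
    dz c (fun y => gh σ φ t e y i j) z - dz i (fun y => gh σ φ t e y c j) z =
      dz c (fun y => hh σ e y i j) z - dz i (fun y => hh σ e y c j) z := by
  have h1 : ∀ y ∈ {z ∈ e.target | 0 < σ (e.symm z)}, ContDiffAt ℝ ∞ (fun y => φ t (e.symm y)) y :=
    fun y hy => slice (op h he) (hφ e he) ht hy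
  have h2 : ContDiffAt ℝ ∞ (fun y => t * Real.log (hh σ e y).det.re + φ t (e.symm y)) z :=
    (contDiffAt_const.mul (lh_sm b h he hz h0)).add (h1 z ⟨hz, h0⟩)
  have h3 : ∀ c i j, dz c (fun y => gh σ φ t e y i j) z = dz c (fun y => hh σ e y i j) z +
      dz c (fun y => cHess (fun y => t * Real.log (hh σ e y).det.re + φ t (e.symm y)) y i j) z :=
    fun c i j => by
      rw [← dz_add c ((hh_sm b h he hz h0 i j).differentiableAt (by simp))
        ((contDiffAt_cHess (m := ∞) h2 (by simp) i j).differentiableAt (by simp))]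
      refine dz_congr c ?_
      filter_upwards [(op h he).mem_nhds ⟨hz, h0⟩] with y hy
      have h4 := (lh_sm b h he hy.1 hy.2).of_le two_le
      rw [cHess_add (contDiffAt_const.mul h4) ((h1 y hy).of_le two_le), cHess_const_mul _ h4, gh,
        rh_eq b h he hy.1 hy.2, smul_neg, sub_neg_eq_add, add_assoc]
      rfl
  rw [h3, h3, hess_cl h2 c i j]
  ring

theorem gh_zero (h : Sm n σ) (hφ : ∀ x, 0 < σ x → φ 0 x = 0) (he : Hc e) (hz : z ∈ e.target)
    (h0 : 0 < σ (e.symm z)) : gh σ φ 0 e z = hh σ e z := by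
  have h1 : hs (φ 0) e z = 0 := by
    refine (cHess_congr ?_).trans (cHess_const 0)
    filter_upwards [(op h he).mem_nhds ⟨hz, h0⟩] with y hy using hφ _ hy.2
  simp [gh, h1]

theorem start (b : B1b n M) (σ : M → ℝ) :
    Sol n σ 0 (fun _ _ => 0) ∧ Bd n σ 0 (fun _ _ => 0) 1 1 := by
  have h1 : ∀ t ∈ Icc (0 : ℝ) 0, ∀ (e : Chart n M) (z : Cm n),
      gh σ (fun _ _ => 0) t e z = hh σ e z := fun t ht e z => by
    have h2 : hs (fun _ : M => (0 : ℝ)) e z = 0 := cHess_const 0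
    rw [le_antisymm ht.2 ht.1]
    simp [gh, h2]
  refine ⟨⟨fun e _ => contDiffOn_const, fun _ _ => rfl, fun t ht e he z hz h0 => ?_,
    fun t ht x _ => ?_⟩, fun t ht e he z hz h0 => ?_⟩
  · rw [h1 t ht]
    exact hh_pos b he hz h0
  · rw [Icc_self]
    exact hasDerivWithinAt_iff_hasFDerivWithinAt.2 (HasFDerivWithinAt.of_finite (finite_singleton _))
  · rw [h1 t ht]
    simpa using Matrix.PosSemidef.zero

theorem cl (a : B1a n M) (b : B1b n M) (h : Sm n σ) (S : Sol n σ T φ) (he : Hc e) :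
    Cl (Icc 0 T) {z ∈ e.target | 0 < σ (e.symm z)} (fun t z => φ t (e.symm z))
      (fun t z => Real.log (gh σ φ t e z).det.re - Real.log (hh σ e z).det.re) ∧
    ∀ z ∈ e.target, 0 < σ (e.symm z) → ∃ r > 0, ∃ C, ∀ t ∈ Icc 0 T,
      Hol (1 / 2) C (D2 fun y => φ t (e.symm y)) (ball z r) := by
  have hU := op h he
  have h0 := S.sm e he
  have h1 := pfd hU h0
  have h2 := pfd hU h1
  have h3 := pfd hU h2
  refine ⟨⟨fun t ht z hz => ((slice hU h0 ht hz).of_le two_le).contDiffWithinAt,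
    h0.continuousOn.prodMk (h1.continuousOn.prodMk h2.continuousOn),
    fun t ht z hz => sol_eq a b h S he ht hz.1 hz.2⟩, fun z hz hσ => ?_⟩
  obtain ⟨ρ, hρ, hsub⟩ := nhds_basis_closedBall.mem_iff.1 (hU.mem_nhds ⟨hz, hσ⟩)
  obtain ⟨K, hK⟩ := (isCompact_Icc.prod (isCompact_closedBall z ρ)).exists_bound_of_continuousOn
    (h3.continuousOn.mono (prod_mono subset_rfl hsub))
  have hb : ball z (min ρ (1 / 2)) ⊆ closedBall z ρ :=
    (ball_subset_ball (min_le_left _ _)).trans ball_subset_closedBall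
  refine ⟨min ρ (1 / 2), by positivity, max K 0 * 1, fun t ht => hol_of_lip (by norm_num)
    (by norm_num) (le_max_right _ _) le_rfl (fun x hx y hy => ?_) fun x hx y hy => ?_⟩
  · linarith [norm_sub_le_of_ball hx hy, min_le_right ρ (1 / 2)]
  · exact (convex_ball z _).norm_image_sub_le_of_norm_fderiv_le (𝕜 := ℝ)
      (fun w hw => (slice hU h2 ht (hsub (hb hw))).differentiableAt (by simp))
      (fun w hw => (hK (t, w) ⟨ht, hb hw⟩).trans (le_max_left _ _)) hy hx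

theorem one (h : ∀ᶠ y in 𝓝 z, σ (e.symm y) = 1) :
    hh σ e z = hm e z ∧ gh σ φ t e z = g0 φ t e z := by
  have h1 : hh σ e z = hm e z := by simp [hh, h.self_of_nhds]
  have h2 : hs (fun x => 2 * Real.log (σ x)) e z = 0 := by
    refine (cHess_congr ?_).trans (cHess_const 0)
    filter_upwards [h] with y hy
    simp [hy]
  exact ⟨h1, by rw [gh, g0, h1, rh, h2, smul_zero, add_zero]⟩

end Mu

variable {n : ℕ} {M : Type} [MetricSpace M] [ChartedSpace (Cm n) M]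
  [RiemannianBundle (fun x : M => TangentSpace 𝓘(ℝ, Cm n) x)]

theorem mu_of (a : B1a n M) (b : B1b n M) : MU n M where
  loc _ _ _ h := Mu.loc a h
  hs_ch _ _ _ he he' _ hx hx' hf := Mu.hs_ch a he he' hx hx' hf
  hh_ch _ _ _ he he' _ hx hx' := Mu.hh_ch b he he' hx hx'
  rh_ch _ h _ _ he he' _ hx hx' h0 := Mu.rh_ch a b h he he' hx hx' h0
  hh_pos _ _ he _ hz h0 := Mu.hh_pos b he hz h0
  hh_sm _ h _ he _ hz h0 j k := ⟨Mu.hh_sm b h he hz h0 j k, Mu.rh_sm b h he hz h0 j k⟩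
  rh_eq _ h _ he _ hz h0 := Mu.rh_eq b h he hz h0
  ld_ch := Mu.ld_ch
  trg_ch A B J hJ _ := Mu.trg_ch A B J hJ
  psd_ch := Mu.psd_ch
  pd_ch := Mu.pd_ch
  lvh_eq _ h _ _ _ he _ hz h0 hφ hp := Mu.lvh_eq a b h he hz h0 hφ hp
  gh_sm _ h _ _ hφ _ he j k := Mu.gh_sm b h hφ he j k
  gh_t _ h _ _ S _ ht _ he _ hz h0 j k := Mu.gh_t a b h S ht he hz h0 j k
  gh_tor _ h _ _ hφ _ ht _ he _ hz h0 c i j := Mu.gh_tor b h hφ ht he hz h0 c i j
  gh_zero _ h _ hφ _ he _ hz h0 := Mu.gh_zero h hφ he hz h0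
  start σ := Mu.start b σ
  mono _ _ _ _ hT S := ⟨fun e he => (S.sm e he).mono (prod_mono (Icc_subset_Icc_right hT)
    subset_rfl), S.zero, fun t ht => S.pos t (Icc_subset_Icc_right hT ht),
    fun t ht x hx => (S.eq t (Icc_subset_Icc_right hT ht) x hx).mono (Icc_subset_Icc_right hT)⟩
  cl _ h _ _ S _ he := Mu.cl a b h S he
  one _ _ _ _ _ h := Mu.one h

end Vale.Agent.P253W.FP
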