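import Vale.Agent.P253W.FP.Chart

/-!
# P253W, block FP: the data of the restarted flow in a rescaled chart
-/

set_option maxSynthPendingDepth 3
set_option linter.unusedSectionVars false

open scoped Manifold ContDiff Bundle Topology ComplexOrder Matrix
open Bundle Set Metric Filter Vale.Agent.P253.Mfd Vale.Agent.P253Z
open Vale.Agent.P272.K (Cm dz cHess jacM Chart)
open Vale.Agent.P272.K.R (Hol Bil D2)
open Vale.Agent.P272.K.LIN (Jet jet)
open Vale.Agent.P272.K.N (lev lev_add lev_smul)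

noncomputable section

namespace Vale.Agent.P253W.FP

namespace St

variable {n : ℕ} {M : Type} [MetricSpace M] [ChartedSpace (Cm n) M]
  [RiemannianBundle (fun x : M => TangentSpace 𝓘(ℝ, Cm n) x)]

section defs

variable (σ : M → ℝ) (φ : ℝ → M → ℝ) (T r : ℝ) (e : Chart n M)

/-- the rescaled metric at the time `T` -/
def GA (y : Cm n) : Pm n := fun i j => ((((r ^ 2)⁻¹ : ℝ) : ℂ) • gh σ φ T e y) i j

/-- the Ricci form of the background -/
def RA (y : Cm n) : Pm n := fun i j => rh σ e y i j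

/-- the reference forms of the restarted flow -/
def aa (t : ℝ) (y : Cm n) : Pm n := GA σ φ T r e y - t • RA σ e y

/-- the volume of the background -/
def ff (y : Cm n) : ℝ := -Real.log ((((r ^ 2)⁻¹ : ℝ) : ℂ) • hh σ e y).det.re

/-- weighted bounds -/
def WB (Q : Set (Cm n)) (C : ℝ) : Prop :=
  ∀ z ∈ Q, 0 < σ (e.symm z) → (fun i j => hm e z i j) ∈ QM n C ∧
    σ (e.symm z) * ‖fderiv ℝ (fun y => Real.log (hh σ e y).det.re) z‖ ≤ C ∧ ∀ i j,
      σ (e.symm z) ^ 2 * ‖rh σ e z i j‖ ≤ C ∧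
      σ (e.symm z) ^ 3 * ‖fderiv ℝ (fun y => rh σ e y i j) z‖ ≤ C ∧
      σ (e.symm z) ^ 3 * ‖fderiv ℝ (fun y => gh σ φ T e y i j) z‖ ≤ C

/-- the properties of the data in a chart -/
structure Dt (Λ K η : ℝ) : Prop where
  he : Hc e
  tgt : ball 0 4 ⊆ e.target
  pos : ∀ y ∈ ball (0 : Cm n) 4, 0 < σ (e.symm y)
  g0 : GA σ φ T r e 0 ∈ QM n Λ
  near : ∀ t ∈ Icc (0 : ℝ) 1, ∀ y ∈ ball (0 : Cm n) 4, ‖aa σ φ T r e t y - GA σ φ T r e 0‖ ≤ η
  pa : PB (1 / 2) (Icc 0 1) (ball 0 4) (aa σ φ T r e) K K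
  pf : PB (1 / 2) (Icc 0 1) (ball 0 4) (fun _ => ff σ r e) K K
  herm : ∀ t, ∀ y ∈ ball (0 : Cm n) 4, (Matrix.of (aa σ φ T r e t y)).IsHermitian
  hq : ∀ y ∈ ball (0 : Cm n) 4,
    (fun i j => ((((r ^ 2)⁻¹ : ℝ) : ℂ) • hh σ e y) i j) ∈ QM n (2 * Λ)

end defs

variable {σ : M → ℝ} {φ : ℝ → M → ℝ} {T r : ℝ} {e e' : Chart n M}

theorem of_aa (t : ℝ) (y : Cm n) : Matrix.of (aa σ φ T r e t y) =
    (((r ^ 2)⁻¹ : ℝ) : ℂ) • gh σ φ T e y - (t : ℂ) • rh σ e y := by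
  ext i j
  simp [aa, GA, RA]

theorem ld_sm (hu : MU n M) (hσ : Sm n σ) (he : Hc e) {z : Cm n} (hz : z ∈ e.target)
    (hp : 0 < σ (e.symm z)) : ContDiffAt ℝ ∞ (fun y => Real.log (hh σ e y).det.re) z := by
  have h1 : ContDiffAt ℝ ∞ (fun y => ((fun i j => hh σ e y i j : Pm n), (0 : Bil (Cm n)))) z :=
    (contDiffAt_pi.2 fun i => contDiffAt_pi.2 fun j =>
      (hu.hh_sm σ hσ e he z hz hp i j).1).prodMk contDiffAt_const
  have h2 : ContDiffAt ℝ ∞ (fun y => (hh σ e y).det.re) z := by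
    refine (MaqA.cd_detM.contDiffAt.comp z h1).congr_of_eventuallyEq
      (Eventually.of_forall fun y => ?_)
    show _ = (hh σ e y + lev 0).det.re
    rw [lev_zero, add_zero]
  exact h2.log (det_re_pos (hu.hh_pos σ e he z hz hp)).ne'

theorem rh_herm (hu : MU n M) (hσ : Sm n σ) (he : Hc e) {z : Cm n} (hz : z ∈ e.target)
    (hp : 0 < σ (e.symm z)) : (rh σ e z).IsHermitian := by
  have h := (ld_sm hu hσ he hz hp).of_le (show (2 : WithTop ℕ∞) ≤ ∞ from WithTop.coe_le_coe.2 le_top)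
  rw [hu.rh_eq σ hσ e he z hz hp, cHess_eq h]
  exact (lev_herm h).neg

theorem open_pos (ha : B1a n M) (hσ : Sm n σ) (e : Chart n M) :
    IsOpen {z ∈ e.target | 0 < σ (e.symm z)} :=
  e.continuousOn_symm.isOpen_inter_preimage e.open_target
    (isOpen_lt continuous_const (ha.sm_cont σ hσ))

theorem sol_c2 (ha : B1a n M) (hu : MU n M) (hσ : Sm n σ) (hs : Sol n σ T φ) {t : ℝ}
    (ht : t ∈ Icc 0 T) (he : Hc e) {z : Cm n} (hz : z ∈ e.target) (hp : 0 < σ (e.symm z)) :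
    ContDiffAt ℝ 2 (fun y => φ t (e.symm y)) z :=
  ((hu.cl σ hσ T φ hs e he).1.c2 t ht).contDiffAt ((open_pos ha hσ e).mem_nhds ⟨hz, hp⟩)

theorem gh_diff (ha : B1a n M) (hu : MU n M) (hσ : Sm n σ) (hs : Sol n σ T φ) {t : ℝ}
    (ht : t ∈ Icc 0 T) (he : Hc e) {z : Cm n} (hz : z ∈ e.target) (hp : 0 < σ (e.symm z))
    (i j : Fin n) : DifferentiableAt ℝ (fun y => gh σ φ t e y i j) z := by
  have h1 := (hu.gh_sm σ hσ T φ hs.sm e he i j).comp (f := fun y : Cm n => (t, y))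
    (s := {z ∈ e.target | 0 < σ (e.symm z)}) (contDiffOn_const.prodMk contDiffOn_id)
    fun y hy => ⟨ht, hy⟩
  exact (h1.contDiffAt ((open_pos ha hσ e).mem_nhds ⟨hz, hp⟩)).differentiableAt (by simp)

theorem gh_ch (hu : MU n M) (hσ : Sm n σ) (he : Hc e) (he' : Hc e') {x : M} (hx : x ∈ e.source)
    (hx' : x ∈ e'.source) (hp : 0 < σ x) {t : ℝ}
    (h2 : ContDiffAt ℝ 2 (fun y => φ t (e'.symm y)) (e' x)) :
    gh σ φ t e (e x) = pb (jacM e e' x) (gh σ φ t e' (e' x)) := by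
  rw [gh, gh, hu.hh_ch σ e e' he he' x hx hx', hu.rh_ch σ hσ e e' he he' x hx hx' hp,
    (hu.hs_ch (φ t) e e' he he' x hx hx' h2).2, pb_add, pb_sub, pb_smul]

theorem pm_le {a : Pm n} {c : ℝ} (hc : 0 ≤ c) (h : ∀ i j, ‖a i j‖ ≤ c) : ‖a‖ ≤ c :=
  (pi_norm_le_iff_of_nonneg hc).2 fun i => (pi_norm_le_iff_of_nonneg hc).2 fun j => h i j

theorem exists_ld (Λ : ℝ) (hΛ : 0 < Λ) :
    ∃ C : ℝ, 0 ≤ C ∧ ∀ a ∈ QM n Λ, |Real.log (Matrix.of a).det.re| ≤ C := by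
  have h1 : Continuous fun a : Pm n => (Matrix.of a).det.re :=
    Complex.continuous_re.comp (Continuous.matrix_det (continuous_matrix fun i j => by
      simp only [Matrix.of_apply]; fun_prop))
  obtain ⟨C, hC⟩ := (MaqA.cpt (n := n) Λ).exists_bound_of_continuousOn
    (h1.continuousOn.log fun a ha => (det_re_pos (MaqA.pos Λ hΛ a ha)).ne')
  exact ⟨|C|, abs_nonneg _, fun a ha => (hC a ha).trans (le_abs_self C)⟩

/-- the data in a rescaled chart -/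
theorem dt_of (ha : B1a n M) (hu : MU n M) (hσ : Sm n σ) (hT : 0 ≤ T) (hs : Sol n σ T φ)
    {c₀ C₀ C Λ CL s : ℝ} (hc : 0 < c₀) (hb : Bd n σ T φ c₀ C₀) {Q : Set (Cm n)} {p : Cm n}
    (h : SC σ r e' e Q p s) (hr : r ≤ 1) (hC : 1 ≤ C) (hw : WB σ φ T e Q C)
    (l0 : 16 * C ≤ Λ) (l1 : Λ⁻¹ ≤ c₀ * (16 * C)⁻¹) (l2 : |C₀| * (16 * C) ≤ Λ) (hL0 : 0 ≤ CL)
    (hL : ∀ a ∈ QM n (16 * C), |Real.log (Matrix.of a).det.re| ≤ CL) :
    Dt σ φ T r e' Λ (Λ + CL + 1024 * C) (272 * C * r) := by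
  have r0 := h.r0
  have s0 := h.s0
  have hTT : T ∈ Icc 0 T := ⟨hT, le_rfl⟩
  have hw' := fun z (hz : z ∈ ball p (4 * s)) => hw z (h.sub hz) (h.pos' hz)
  have hH := fun y (hy : y ∈ ball (0 : Cm n) 4) =>
    h.hh_mem hu hy (by linarith) (hw' _ (h.mem hy)).1
  have hG : ∀ y ∈ ball (0 : Cm n) 4, GA σ φ T r e' y ∈ QM n Λ := fun y hy => by
    obtain ⟨b1, b2⟩ := hb T hTT e' h.he' y (h.tgt hy) (h.pos hy)
    have b3 := psd_real b1 (c := (r ^ 2)⁻¹) (by positivity)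
    have b4 := psd_real b2 (c := (r ^ 2)⁻¹) (by positivity)
    rw [smul_sub, smul_comm _ (_ : ℂ) (hh σ e' y)] at b3 b4
    have := mem_QM_of (κ := 1) (Λ' := Λ) (by positivity) hc one_pos (hH y hy)
      (herm_real (hs.pos T hTT e' h.he' y (h.tgt hy) (h.pos hy)).1 _) b3 b4
      (by rwa [one_mul]) (by rwa [one_mul])
    rwa [Complex.ofReal_one, one_smul] at this
  have gL : ∀ y ∈ ball (0 : Cm n) 4, ∀ y' ∈ ball (0 : Cm n) 4,
      ‖GA σ φ T r e' y - GA σ φ T r e' y'‖ ≤ 64 * C * r * ‖y - y'‖ := fun y hy y' hy' => by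
    refine pm_le (by positivity) fun i j => ?_
    have c2 := fun y (hy : y ∈ ball (0 : Cm n) 4) =>
      sol_c2 ha hu hσ hs hTT h.he (h.tg' (h.mem hy)) (h.pos' (h.mem hy))
    have h1 := h.lip (k := 2) (fun z hz => gh_diff ha hu hσ hs hTT h.he (h.tg' hz) (h.pos' hz) i j)
      (fun z hz => ((hw' z hz).2.2 i j).2.2) hy hy'
    simp only [Pi.sub_apply, GA, h.gh_eq hu hσ hy (c2 y hy), h.gh_eq hu hσ hy' (c2 y' hy'),
      Matrix.smul_apply, smul_eq_mul]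
    rw [← mul_sub, ← mul_sub, norm_mul, norm_mul, Complex.norm_real, Complex.norm_real,
      Real.norm_of_nonneg (by positivity), Real.norm_of_nonneg (by positivity)]
    calc _ ≤ (r ^ 2)⁻¹ * ((4 * r) ^ (2 + 1) * C * ‖y - y'‖) :=
          mul_le_mul_of_nonneg_left h1 (by positivity)
      _ = _ := by field_simp; ring
  have rB : ∀ y ∈ ball (0 : Cm n) 4, ‖RA σ e' y‖ ≤ 16 * C * r := fun y hy => by
    refine pm_le (by positivity) fun i j => ?_
    simp only [RA, h.rh_eq hu hσ hy, Matrix.smul_apply, smul_eq_mul]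
    rw [norm_mul, Complex.norm_real, Real.norm_of_nonneg (by positivity)]
    calc _ ≤ (4 * r) ^ 2 * C := h.wb (h.mem hy) (norm_nonneg _) ((hw' _ (h.mem hy)).2.2 i j).1
      _ = 16 * C * r * r := by ring
      _ ≤ _ := mul_le_of_le_one_right (by positivity) hr
  have rL : ∀ y ∈ ball (0 : Cm n) 4, ∀ y' ∈ ball (0 : Cm n) 4,
      ‖RA σ e' y - RA σ e' y'‖ ≤ 64 * C * ‖y - y'‖ := fun y hy y' hy' => by
    refine pm_le (by positivity) fun i j => ?_
    have h1 := h.lip (k := 2) (fun z hz => (hu.hh_sm σ hσ e h.he z (h.tg' hz) (h.pos' hz) i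
      j).2.differentiableAt (by simp)) (fun z hz => ((hw' z hz).2.2 i j).2.1) hy hy'
    simp only [Pi.sub_apply, RA, h.rh_eq hu hσ hy, h.rh_eq hu hσ hy', Matrix.smul_apply,
      smul_eq_mul]
    rw [← mul_sub, norm_mul, Complex.norm_real, Real.norm_of_nonneg (by positivity)]
    have h2 : r ^ 3 ≤ 1 := pow_le_one₀ r0.le hr
    calc _ ≤ _ := h1
      _ = 64 * C * ‖y - y'‖ * r ^ 3 := by ring
      _ ≤ _ := mul_le_of_le_one_right (by positivity) h2
  have fL : ∀ y ∈ ball (0 : Cm n) 4, ∀ y' ∈ ball (0 : Cm n) 4,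
      ‖ff σ r e' y - ff σ r e' y'‖ ≤ 4 * C * ‖y - y'‖ := fun y hy y' hy' => by
    have h1 := h.lip (k := 0) (fun z hz =>
      (ld_sm hu hσ h.he (h.tg' hz) (h.pos' hz)).differentiableAt (by simp))
      (fun z hz => by simpa using (hw' z hz).2.1) hy hy'
    have e1 : ∀ y ∈ ball (0 : Cm n) 4, ff σ r e' y =
        -(n * Real.log ((r ^ 2)⁻¹ * s ^ 2) + Real.log (hh σ e (p + s • y)).det.re) := fun y hy => by
      rw [ff, h.hh_eq hu hy, smul_smul, ← Complex.ofReal_mul, log_det_smul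
        (det_re_pos (hu.hh_pos σ e h.he _ (h.tg' (h.mem hy)) (h.pos' (h.mem hy)))) (by positivity)]
    rw [e1 y hy, e1 y' hy', neg_sub_neg, add_sub_add_left_eq_sub, norm_sub_rev]
    calc _ ≤ (4 * r) ^ (0 + 1) * C * ‖y - y'‖ := by simpa using h1
      _ = 4 * C * ‖y - y'‖ * r := by ring
      _ ≤ _ := mul_le_of_le_one_right (by positivity) hr
  have d8 : ∀ x ∈ ball (0 : Cm n) 4, ∀ y ∈ ball (0 : Cm n) 4, ‖x - y‖ ≤ 8 := fun x hx y hy =>
    (norm_sub_le_of_ball hx hy).trans (by norm_num)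
  have α0 : (0 : ℝ) < 1 / 2 := by norm_num
  have α1 : (1 / 2 : ℝ) ≤ 1 := by norm_num
  have Cr : C * r ≤ C := mul_le_of_le_one_right (by linarith) hr
  refine ⟨h.he', h.tgt, fun y hy => h.pos hy, hG 0 (mem_ball_self (by norm_num)),
    fun t ht y hy => ?_, ?_, ?_, fun t y hy => ?_,
    fun y hy => MaqA.QM_mono (by positivity) (by linarith) (hH y hy)⟩
  · have h1 := gL y hy 0 (mem_ball_self (by norm_num))
    have h2 : ‖t • RA σ e' y‖ ≤ 1 * (16 * C * r) := by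
      rw [norm_smul, Real.norm_of_nonneg ht.1]
      exact mul_le_mul ht.2 (rB y hy) (norm_nonneg _) zero_le_one
    have h3 : 64 * C * r * ‖y - 0‖ ≤ 64 * C * r * 4 :=
      mul_le_mul_of_nonneg_left (mem_ball_iff_norm.1 hy).le (by positivity)
    rw [aa, sub_right_comm]
    exact (norm_sub_le _ _).trans (by linarith)
  · have p1 := PB.of_hol α0 (Icc (0 : ℝ) 1)
      (fun y hy => (maq n).bd Λ (by linarith) _ (hG y hy))
      (hol_of_lip α0 α1 (by positivity) (by norm_num) d8 gL)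
    have p2 := PB.of_hol α0 (Icc (0 : ℝ) 1) rB
      (hol_of_lip α0 α1 (by positivity) (by norm_num) d8 rL)
    have p3 : PB (1 / 2) (Icc (0 : ℝ) 1) (ball (0 : Cm n) 4) (fun t _ => t) 1 0 :=
      ⟨continuousOn_fst, fun t ht _ _ => by rw [Real.norm_of_nonneg ht.1]; exact ht.2,
        fun t _ => Vale.Agent.P272.K.R.hol_const _ _ _⟩
    exact (p1.sub (p3.smul p2)).mono (by nlinarith) (by nlinarith)
  · exact (PB.of_hol α0 (Icc (0 : ℝ) 1) (A := CL) (fun y hy => by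
      rw [ff, norm_neg]; exact hL _ (hH y hy))
      (hol_of_lip α0 α1 (by positivity) (by norm_num) d8 fL)).mono (by linarith) (by linarith)
  · rw [of_aa]
    exact (herm_real (hs.pos T hTT e' h.he' y (h.tgt hy) (h.pos hy)).1 _).sub
      (herm_real (rh_herm hu hσ h.he' (h.tgt hy) (h.pos hy)) t)

/-- the metric of the restarted flow -/
theorem key (hr : 0 < r) {y : Cm n} {u : M → ℝ} {ψ : ℝ → M → ℝ} {t : ℝ}
    (h1 : ContDiffAt ℝ 2 (fun z => φ T (e.symm z)) y) (h2 : ContDiffAt ℝ 2 (fun z => u (e.symm z)) y)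
    (hψ : ψ t = fun x => φ T x + r ^ 2 * u x) :
    Matrix.of (aa σ φ T r e ((t - T) / r ^ 2) y) + lev (D2 (fun z => u (e.symm z)) y) =
      (((r ^ 2)⁻¹ : ℝ) : ℂ) • gh σ ψ t e y := by
  have c2 : ContDiffAt ℝ 2 (fun z => r ^ 2 * u (e.symm z)) y := contDiffAt_const.mul h2
  have h3 := jet_add h1 c2
  rw [jet_const_mul _ h2] at h3
  have h4 : D2 (fun z => φ T (e.symm z) + r ^ 2 * u (e.symm z)) y =
      D2 (fun z => φ T (e.symm z)) y + r ^ 2 • D2 (fun z => u (e.symm z)) y :=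
    congrArg (fun q : Jet (Cm n) => q.2.2) h3
  rw [of_aa, gh, gh, hψ, hs, hs, cHess_eq h1, cHess_eq (h1.add c2), h4, lev_add, lev_smul]
  have : (r : ℂ) ≠ 0 := by exact_mod_cast hr.ne'
  ext i j
  simp only [Matrix.add_apply, Matrix.sub_apply, Matrix.smul_apply, smul_eq_mul]
  push_cast
  field_simp
  ring

end St

end Vale.Agent.P253W.FP
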